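import Vale.Agent.Lib.Steinitz.Defs

namespace Vale.Agent.Steinitz

open Finset

theorem sc_pos (k : ℕ) : 0 < sc k := by unfold sc; positivity

theorem sc_succ (k : ℕ) : sc (k + 1) = sc k / 2 := by unfold sc; rw [pow_succ]; ring

theorem sc_zero : sc 0 = 1 := by simp [sc]

theorem D0_pos {d : ℕ} (hd : 1 ≤ d) : 3 ≤ D0 d := by
  unfold D0
  have : (1 : ℝ) ≤ d := by exact_mod_cast hd
  nlinarith

theorem H1_pos {d : ℕ} (hd : 1 ≤ d) : 64 ≤ H1 d := by
  unfold H1
  have h : (1 : ℝ) ≤ d := by exact_mod_cast hd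
  have h2 := D0_pos hd
  nlinarith

section rho

variable {ι : Type*} {d : ℕ} {a : Fin d → ℝ} {v : ι → Fin d → ℝ}

theorem le_rho_iff (hd : 1 ≤ d) (ha : ∀ j, 0 < a j) (t : ℝ) (i : ι) :
    t ≤ rho a v i ↔ ∃ j, t * a j ≤ v i j ^ 2 := by
  have : Nonempty (Fin d) := ⟨⟨0, hd⟩⟩
  unfold rho
  constructor
  · intro h
    obtain ⟨j, hj⟩ := exists_eq_ciSup_of_finite (f := fun j : Fin d => v i j ^ 2 / a j)
    refine ⟨j, ?_⟩
    rw [← hj] at h
    exact (le_div_iff₀ (ha j)).1 h
  · rintro ⟨j, hj⟩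
    refine le_trans ((le_div_iff₀ (ha j)).2 hj) ?_
    exact le_ciSup (f := fun j : Fin d => v i j ^ 2 / a j) (Set.finite_range _).bddAbove j

theorem rho_lt_iff (hd : 1 ≤ d) (ha : ∀ j, 0 < a j) (t : ℝ) (i : ι) :
    rho a v i < t ↔ ∀ j, v i j ^ 2 < t * a j := by
  rw [← not_le, le_rho_iff hd ha]
  push Not
  rfl

theorem abs_le_sqrt_of_rho_lt (hd : 1 ≤ d) (ha : ∀ j, 0 < a j) {t : ℝ} {i : ι}
    (h : rho a v i < t) (j : Fin d) : |v i j| ≤ Real.sqrt (t * a j) := by
  apply Real.abs_le_sqrt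
  exact ((rho_lt_iff hd ha t i).1 h j).le

end rho

theorem abs_le_one_of_norm {d : ℕ} {w : Fin d → ℝ} (h : ∑ j, w j ^ 2 ≤ 1) (j : Fin d) :
    |w j| ≤ 1 := by
  have h1 : w j ^ 2 ≤ ∑ j, w j ^ 2 :=
    Finset.single_le_sum (f := fun j => w j ^ 2) (fun i _ => sq_nonneg _) (mem_univ j)
  exact abs_le_one_iff_mul_self_le_one.2 (by nlinarith)

theorem lt_cnt_iff {d : ℕ} {a : Fin d → ℝ} (ha : Antitone a) (K : ℝ) (k : ℕ) (j : Fin d) :
    j.val < cnt a K k ↔ K ≤ sc k * a j := by
  have hs := sc_pos k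
  unfold cnt
  constructor
  · intro h
    by_contra hcon
    push Not at hcon
    -- all elements of the filter have value < j
    have hsub : (univ.filter (fun j : Fin d => K ≤ sc k * a j)) ⊆
        (univ.filter (fun i : Fin d => i.val < j.val)) := by
      intro i hi
      simp only [mem_filter, mem_univ, true_and] at hi ⊢
      by_contra hij
      push Not at hij
      have : a i ≤ a j := ha (by exact_mod_cast hij)
      have : sc k * a i ≤ sc k * a j := mul_le_mul_of_nonneg_left this hs.le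
      linarith
    have hc := card_le_card hsub
    have : (univ.filter (fun i : Fin d => i.val < j.val)).card = j.val := by
      have : (univ.filter (fun i : Fin d => i.val < j.val)) = Finset.Iio j := by
        ext i; simp
      rw [this]; simp
    omega
  · intro h
    have hsub : (univ.filter (fun i : Fin d => i.val ≤ j.val)) ⊆
        (univ.filter (fun j : Fin d => K ≤ sc k * a j)) := by
      intro i hi
      simp only [mem_filter, mem_univ, true_and] at hi ⊢
      have : a j ≤ a i := ha (by exact_mod_cast hi)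
      have : sc k * a j ≤ sc k * a i := mul_le_mul_of_nonneg_left this hs.le
      linarith
    have hc := card_le_card hsub
    have : (univ.filter (fun i : Fin d => i.val ≤ j.val)).card = j.val + 1 := by
      have : (univ.filter (fun i : Fin d => i.val ≤ j.val)) = Finset.Iic j := by
        ext i; simp
      rw [this]; simp
    omega

theorem cnt_le {d : ℕ} (a : Fin d → ℝ) (K : ℝ) (k : ℕ) : cnt a K k ≤ d := by
  unfold cnt
  refine (card_filter_le _ _).trans ?_
  simp

theorem cnt_succ_le {d : ℕ} {a : Fin d → ℝ} (ha : ∀ j, 0 < a j) (K : ℝ) (k : ℕ) :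
    cnt a K (k + 1) ≤ cnt a K k := by
  unfold cnt
  apply card_le_card
  intro j hj
  simp only [mem_filter, mem_univ, true_and] at hj ⊢
  rw [sc_succ] at hj
  have := mul_pos (sc_pos k) (ha j)
  linarith

theorem cnt_mono {d : ℕ} (a : Fin d → ℝ) {K L : ℝ} (h : K ≤ L) (k : ℕ) :
    cnt a L k ≤ cnt a K k := by
  unfold cnt
  apply card_le_card
  intro j hj
  simp only [mem_filter, mem_univ, true_and] at hj ⊢
  linarith

end Vale.Agent.Steinitz
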