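import Vale.Agent.Lib.Steinitz.Basic

namespace Vale.Agent.Steinitz

open Finset

section

variable {ι : Type*} [DecidableEq ι] {d : ℕ} {I : Finset ι} {v : ι → Fin d → ℝ} {a : Fin d → ℝ}
  {y : Fin d → ι → ℝ} {p : Par d a} {k : ℕ} {B C : Finset ι} {Sl Sr : Fin d → ℝ}
  {ε ξ corr : ι → ℝ}

/-- partial sums of `kap` -/
noncomputable def KS {d : ℕ} {a : Fin d → ℝ} (p : Par d a) (k : ℕ) : ℝ :=
  ∑ k' ∈ range k, p.kap k'

theorem KS_nonneg (hp : p.Good) (k : ℕ) : 0 ≤ KS p k :=
  sum_nonneg fun i _ => hp.kap_nonneg i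

theorem KS_succ (k : ℕ) : KS p (k + 1) = KS p k + p.kap k := by
  unfold KS; rw [sum_range_succ]

theorem KS_le (hd : 1 ≤ d) (hp : p.Good) (k : ℕ) : KS p k ≤ 1 / 32 := by
  refine (hp.kap_sum k).trans ?_
  have : (1 : ℝ) ≤ d := by exact_mod_cast hd
  apply one_div_le_one_div_of_le (by norm_num)
  nlinarith

theorem kap_le (hd : 1 ≤ d) (hp : p.Good) (k : ℕ) : p.kap k ≤ 1 / 32 := by
  have h1 := KS_le hd hp (k + 1)
  have h2 := KS_nonneg hp k
  rw [KS_succ] at h1
  linarith

/-- data describing a child `C` of the block `B` -/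
structure IsChild (p : Par d a) (v : ι → Fin d → ℝ) (y : Fin d → ι → ℝ) (k : ℕ) (B C : Finset ι)
    (ε ξ corr : ι → ℝ) : Prop where
  sub : C ⊆ B
  eps : ∀ i ∈ B.filter (fun i => sc k ≤ rho a v i), ε i = 1 ∨ ε i = -1
  epsr : ∀ r : ℝ, |∑ i ∈ (B.filter (fun i => sc k ≤ rho a v i)) with r ≤ rho a v i, ε i| ≤ 1
  corr_le : ∀ i ∈ B.filter (fun i => rho a v i < sc k), |corr i| ≤ p.kap k
  xi : ∀ i ∈ B.filter (fun i => rho a v i < sc k), ξ i = 0 ∨ ξ i = 1
  P1 : ∀ j l, |∑ i ∈ B with rho a v i < sc k, (ξ i - (1 / 2 + corr i)) * (y j i * v i l)| ≤ D0 d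
  P2 : ∀ j, |∑ i ∈ B with rho a v i < sc k, (ξ i - (1 / 2 + corr i)) * (|v i j|)| ≤
    D0 d * min 1 (Real.sqrt (sc k * a j))
  sum_eq : ∀ f : ι → ℝ, ∑ i ∈ C, f i = ∑ i ∈ B with sc k ≤ rho a v i, (1 + ε i) / 2 * f i
    + ∑ i ∈ B with rho a v i < sc k, ξ i * f i

theorem card_heavy_le (hinv : Inv p v y k B Sl Sr) :
    ((B.filter (fun i => sc k ≤ rho a v i)).card : ℝ) ≤ 1 + H1 d := by
  have := hinv.N 0
  simpa using this

theorem half_min_le (r : ℝ) (hr : 0 ≤ r) :
    7 / 10 * min 1 (Real.sqrt r) ≤ min 1 (Real.sqrt (r / 2)) := by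
  have h2 : Real.sqrt (r / 2) = Real.sqrt r / Real.sqrt 2 := by
    rw [Real.sqrt_div hr]
  have h3 : Real.sqrt 2 ≤ 10 / 7 := by
    rw [Real.sqrt_le_left (by norm_num)]; norm_num
  have h4 : 0 < Real.sqrt 2 := by positivity
  have h5 : 0 ≤ Real.sqrt r := Real.sqrt_nonneg r
  have h6 : 7 / 10 * Real.sqrt r ≤ Real.sqrt (r / 2) := by
    rw [h2, le_div_iff₀ h4]
    nlinarith
  apply le_min
  · have := min_le_left 1 (Real.sqrt r); linarith
  · have := min_le_right 1 (Real.sqrt r); linarith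

/-- weight of the old light elements in a child -/
theorem child_weight (hd : 1 ≤ d) (hR : Root d I v a y) (hp : p.Good)
    (hinv : Inv p v y k B Sl Sr) (hC : IsChild p v y k B C ε ξ corr) (j : Fin d) :
    ∑ i ∈ C with rho a v i < sc k, |v i j| ≤
      (1 + 4 * KS p (k + 1)) * (d * (sc (k + 1) * a j)
        + 5 * D0 d * min 1 (Real.sqrt (sc (k + 1) * a j))) := by
  have hsc := sc_pos k
  have haj := hR.apos j
  have hr : 0 < sc k * a j := mul_pos hsc haj
  set r := sc k * a j with hrdef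
  have hr2 : sc (k + 1) * a j = r / 2 := by rw [sc_succ]; ring
  have hW := hinv.W j
  have hK0 := KS_nonneg hp k
  have hK1 := KS_le hd hp k
  have hk0 := hp.kap_nonneg k
  have hk1 := kap_le hd hp k
  have hD := D0_pos hd
  have hdd : (1 : ℝ) ≤ d := by exact_mod_cast hd
  change ∑ i ∈ B with rho a v i < sc k, |v i j| ≤ (1 + 4 * KS p k) * (d * r + 5 * D0 d * min 1 (Real.sqrt r)) at hW
  rw [hr2]
  set w := ∑ i ∈ B with rho a v i < sc k, |v i j| with hw
  set θ := min 1 (Real.sqrt r) with hθ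
  have hθ0 : 0 ≤ θ := le_min (by norm_num) (Real.sqrt_nonneg _)
  have hw0 : 0 ≤ w := sum_nonneg fun i _ => abs_nonneg _
  -- rewrite the sum
  have h1 : ∑ i ∈ C with rho a v i < sc k, |v i j| = ∑ i ∈ B with rho a v i < sc k, ξ i * |v i j| := by
    rw [sum_filter, hC.sum_eq]
    have : ∑ i ∈ B with sc k ≤ rho a v i, (1 + ε i) / 2 * (if rho a v i < sc k then |v i j| else 0) = 0 := by
      apply sum_eq_zero
      intro i hi
      rw [mem_filter] at hi
      rw [if_neg (not_lt.2 hi.2)]; ring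
    rw [this, zero_add]
    apply sum_congr rfl
    intro i hi
    rw [mem_filter] at hi
    rw [if_pos hi.2]
  rw [h1]
  have h2 : ∑ i ∈ B with rho a v i < sc k, ξ i * |v i j| =
      ∑ i ∈ B with rho a v i < sc k, (ξ i - (1 / 2 + corr i)) * |v i j|
      + (1 / 2 * w + ∑ i ∈ B with rho a v i < sc k, corr i * |v i j|) := by
    rw [hw, mul_sum, ← sum_add_distrib, ← sum_add_distrib]
    apply sum_congr rfl
    intro i _
    ring
  have h3 : ∑ i ∈ B with rho a v i < sc k, corr i * |v i j| ≤ p.kap k * w := by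
    rw [hw, mul_sum]
    apply sum_le_sum
    intro i hi
    exact mul_le_mul_of_nonneg_right ((le_abs_self _).trans (hC.corr_le i hi)) (abs_nonneg _)
  have h4 := (le_abs_self _).trans (hC.P2 j)
  rw [← hrdef, ← hθ] at h4
  rw [h2, KS_succ]
  have h5 := half_min_le r hr.le
  rw [← hθ] at h5
  have hdr : 0 ≤ (d : ℝ) * r := by positivity
  have hDθ : 0 ≤ D0 d * θ := by positivity
  set θ' := min 1 (Real.sqrt (r / 2)) with hθ'
  have h6 : (1 / 2 + p.kap k) * w ≤ (1 / 2 + p.kap k) * ((1 + 4 * KS p k) * (d * r + 5 * D0 d * θ)) :=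
    mul_le_mul_of_nonneg_left hW (by linarith)
  have h7 : (1 / 2 + p.kap k) * (1 + 4 * KS p k) ≤ 1 / 2 * (1 + 4 * (KS p k + p.kap k)) := by nlinarith
  have h8 : (1 / 2 + p.kap k) * ((1 + 4 * KS p k) * (d * r + 5 * D0 d * θ)) ≤
      1 / 2 * (1 + 4 * (KS p k + p.kap k)) * (d * r + 5 * D0 d * θ) := by
    rw [← mul_assoc]
    apply mul_le_mul_of_nonneg_right h7
    nlinarith
  have h9 : D0 d * θ ≤ (1 + 4 * (KS p k + p.kap k)) * (D0 d * θ) := by nlinarith
  have h10 : (1 + 4 * (KS p k + p.kap k)) * (5 / 2 * D0 d * θ + D0 d * θ) ≤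
      (1 + 4 * (KS p k + p.kap k)) * (5 * D0 d * θ') := by
    apply mul_le_mul_of_nonneg_left _ (by linarith)
    nlinarith
  nlinarith

theorem child_A (hd : 1 ≤ d) (hR : Root d I v a y) (hp : p.Good) (hB : B ⊆ I)
    (hinv : Inv p v y k B Sl Sr) (hC : IsChild p v y k B C ε ξ corr) (j l : Fin d) :
    |∑ i ∈ C, y j i * v i l - (if j = l then sc (k + 1) * a j else 0)| ≤
      E1 d + 4 * d * KS p (k + 1) * (sc (k + 1) * a l) := by
  have hsc := sc_pos k
  have hal := hR.apos l
  have hr : 0 < sc k * a l := mul_pos hsc hal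
  have hK0 := KS_nonneg hp k
  have hK1 := KS_le hd hp k
  have hk0 := hp.kap_nonneg k
  have hk1 := kap_le hd hp k
  have hD := D0_pos hd
  have hdd : (1 : ℝ) ≤ d := by exact_mod_cast hd
  have hA := hinv.A j l
  have hW := hinv.W l
  have hN := card_heavy_le hinv
  have hP1 := hC.P1 j l
  have hyv : ∀ i ∈ B, |y j i * v i l| ≤ 1 := by
    intro i hi
    rw [abs_mul]
    have h1 := hR.y_le j i (hB hi)
    have h2 := abs_le_one_of_norm (hR.norm_le i (hB hi)) l
    calc |y j i| * |v i l| ≤ 1 * 1 := mul_le_mul h1 h2 (abs_nonneg _) (by norm_num)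
      _ = 1 := by ring
  have hyv2 : ∀ i ∈ B, |y j i * v i l| ≤ |v i l| := by
    intro i hi
    rw [abs_mul]
    have h1 := hR.y_le j i (hB hi)
    exact mul_le_of_le_one_left (abs_nonneg _) h1
  rw [hC.sum_eq]
  set Hs := B.filter (fun i => sc k ≤ rho a v i) with hHs
  set Ls := B.filter (fun i => rho a v i < sc k) with hLs
  have hsplit : ∑ i ∈ B, y j i * v i l = ∑ i ∈ Hs, y j i * v i l + ∑ i ∈ Ls, y j i * v i l := by
    rw [hHs, hLs, ← sum_filter_add_sum_filter_not B (fun i => sc k ≤ rho a v i)]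
    simp only [not_le]
  have e1 : ∑ i ∈ Hs, (1 + ε i) / 2 * (y j i * v i l) =
      1 / 2 * ∑ i ∈ Hs, y j i * v i l + 1 / 2 * ∑ i ∈ Hs, ε i * (y j i * v i l) := by
    rw [mul_sum, mul_sum, ← sum_add_distrib]
    apply sum_congr rfl; intro i _; ring
  have e2 : ∑ i ∈ Ls, ξ i * (y j i * v i l) =
      1 / 2 * ∑ i ∈ Ls, y j i * v i l + ∑ i ∈ Ls, corr i * (y j i * v i l)
        + ∑ i ∈ Ls, (ξ i - (1 / 2 + corr i)) * (y j i * v i l) := by
    rw [mul_sum, ← sum_add_distrib, ← sum_add_distrib]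
    apply sum_congr rfl; intro i _; ring
  have b1 : |∑ i ∈ Hs, ε i * (y j i * v i l)| ≤ 1 + H1 d := by
    refine (abs_sum_le_sum_abs _ _).trans ?_
    refine le_trans ?_ hN
    rw [card_eq_sum_ones]
    push_cast
    apply sum_le_sum
    intro i hi
    have hiB : i ∈ B := (mem_filter.1 hi).1
    rw [abs_mul]
    have : |ε i| = 1 := by
      rcases hC.eps i hi with h | h <;> rw [h] <;> simp
    rw [this, one_mul]
    exact hyv i hiB
  have b2 : |∑ i ∈ Ls, corr i * (y j i * v i l)| ≤ p.kap k * ∑ i ∈ Ls, |v i l| := by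
    refine (abs_sum_le_sum_abs _ _).trans ?_
    rw [mul_sum]
    apply sum_le_sum
    intro i hi
    have hiB : i ∈ B := (mem_filter.1 hi).1
    rw [abs_mul]
    exact mul_le_mul (hC.corr_le i hi) (hyv2 i hiB) (abs_nonneg _) hk0
  change ∑ i ∈ Ls, |v i l| ≤ (1 + 4 * KS p k) * (d * (sc k * a l) + 5 * D0 d * min 1 (Real.sqrt (sc k * a l))) at hW
  change |∑ i ∈ B, y j i * v i l - (if j = l then sc k * a j else 0)| ≤ E1 d + 4 * d * KS p k * (sc k * a l) at hA
  have hθ : min 1 (Real.sqrt (sc k * a l)) ≤ 1 := min_le_left _ _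
  have hθ0 : 0 ≤ min 1 (Real.sqrt (sc k * a l)) := le_min (by norm_num) (Real.sqrt_nonneg _)
  set θ := min 1 (Real.sqrt (sc k * a l)) with hθdef
  set r := sc k * a l with hrdef
  have hrr : sc (k + 1) * a l = r / 2 := by rw [sc_succ]; ring
  have hite : (if j = l then sc (k + 1) * a j else 0) = 1 / 2 * (if j = l then sc k * a j else 0) := by
    split_ifs
    · rw [sc_succ]; ring
    · ring
  rw [hite, e1, e2, KS_succ, hrr]
  have b3 : p.kap k * ∑ i ∈ Ls, |v i l| ≤ 2 * d * p.kap k * r + D0 d := by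
    have h1 : p.kap k * ∑ i ∈ Ls, |v i l| ≤ p.kap k * ((1 + 4 * KS p k) * (d * r + 5 * D0 d * θ)) :=
      mul_le_mul_of_nonneg_left hW hk0
    have hdr : 0 ≤ (d : ℝ) * r := by positivity
    have h2 : (1 + 4 * KS p k) * (d * r + 5 * D0 d * θ) ≤ 9 / 8 * (d * r + 5 * D0 d * 1) := by
      apply mul_le_mul
      · linarith
      · have : D0 d * θ ≤ D0 d * 1 := mul_le_mul_of_nonneg_left hθ (by linarith)
        nlinarith
      · positivity
      · norm_num
    have h3 : p.kap k * ((1 + 4 * KS p k) * (d * r + 5 * D0 d * θ)) ≤ p.kap k * (9 / 8 * (d * r + 5 * D0 d * 1)) :=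
      mul_le_mul_of_nonneg_left h2 hk0
    have h4 : p.kap k * D0 d ≤ 1 / 32 * D0 d := mul_le_mul_of_nonneg_right hk1 (by linarith)
    have h5 : 0 ≤ p.kap k * (d * r) := by positivity
    nlinarith
  have hE : E1 d = 1 + H1 d + 12 * D0 d := rfl
  have hexp : 4 * d * (KS p k + p.kap k) * (r / 2) = 1 / 2 * (4 * d * KS p k * r) + 2 * d * p.kap k * r := by
    ring
  rw [hsplit] at hA
  obtain ⟨hA1, hA2⟩ := abs_le.1 hA
  obtain ⟨q1, q2⟩ := abs_le.1 hP1
  obtain ⟨c1, c2⟩ := abs_le.1 b1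
  obtain ⟨d1, d2⟩ := abs_le.1 (b2.trans b3)
  clear hA hP1 b1 b2 b3 hW hsplit e1 e2 hN hyv hyv2
  rw [hexp, abs_le]
  constructor
  · linarith
  · linarith

theorem child_N (hd : 1 ≤ d) (hR : Root d I v a y) (hp : p.Good) (hB : B ⊆ I)
    (hinv : Inv p v y k B Sl Sr) (hC : IsChild p v y k B C ε ξ corr) (t : ℕ) :
    ((C.filter (fun i => 2 ^ t * sc (k + 1) ≤ rho a v i)).card : ℝ) ≤ 1 + H1 d / 2 ^ t := by
  -- count in `C` above a heavy threshold
  have key : ∀ s : ℕ, ((C.filter (fun i => 2 ^ s * sc k ≤ rho a v i)).card : ℝ)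
      ≤ 1 + H1 d / 2 ^ (s + 1) := by
    intro s
    have hsc := sc_pos k
    have h2s : sc k ≤ 2 ^ s * sc k := by
      have : (1 : ℝ) ≤ 2 ^ s := one_le_pow₀ (by norm_num)
      nlinarith
    have h1 : ((C.filter (fun i => 2 ^ s * sc k ≤ rho a v i)).card : ℝ) =
        ∑ i ∈ C, (if 2 ^ s * sc k ≤ rho a v i then (1 : ℝ) else 0) := by
      rw [card_filter]; push_cast; rfl
    rw [h1, hC.sum_eq]
    have h2 : ∑ i ∈ B with rho a v i < sc k, ξ i * (if 2 ^ s * sc k ≤ rho a v i then (1 : ℝ) else 0) = 0 := by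
      apply sum_eq_zero
      intro i hi
      rw [mem_filter] at hi
      rw [if_neg (by linarith [hi.2])]; ring
    rw [h2, add_zero]
    have h3 : ∑ i ∈ B with sc k ≤ rho a v i, (1 + ε i) / 2 * (if 2 ^ s * sc k ≤ rho a v i then (1 : ℝ) else 0)
        = 1 / 2 * ((B.filter (fun i => 2 ^ s * sc k ≤ rho a v i)).card : ℝ)
          + 1 / 2 * ∑ i ∈ (B.filter (fun i => sc k ≤ rho a v i)) with 2 ^ s * sc k ≤ rho a v i, ε i := by
      have h4 : ((B.filter (fun i => 2 ^ s * sc k ≤ rho a v i)).card : ℝ) =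
          ∑ i ∈ B with sc k ≤ rho a v i, (if 2 ^ s * sc k ≤ rho a v i then (1 : ℝ) else 0) := by
        rw [card_filter]; push_cast
        rw [sum_filter]
        apply sum_congr rfl
        intro i _
        by_cases hh : 2 ^ s * sc k ≤ rho a v i
        · rw [if_pos hh, if_pos (h2s.trans hh)]
        · rw [if_neg hh]; simp
      rw [h4, sum_filter (s := B.filter (fun i => sc k ≤ rho a v i)), mul_sum, mul_sum, ← sum_add_distrib]
      apply sum_congr rfl
      intro i _
      split_ifs <;> ring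
    rw [h3]
    have h5 := hinv.N s
    have h6 := (le_abs_self _).trans (hC.epsr (2 ^ s * sc k))
    rw [pow_succ]
    have : H1 d / (2 ^ s * 2) = 1 / 2 * (H1 d / 2 ^ s) := by
      field_simp
    rw [this]
    linarith
  have hdd : (1 : ℝ) ≤ d := by exact_mod_cast hd
  cases t with
  | succ s =>
    have : (2 : ℝ) ^ (s + 1) * sc (k + 1) = 2 ^ s * sc k := by rw [sc_succ, pow_succ]; ring
    rw [this]
    exact key s
  | zero =>
    simp only [pow_zero, one_mul, div_one]
    have h0 := key 0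
    simp only [pow_zero, one_mul, zero_add, pow_one] at h0
    have hsc1 := sc_pos (k + 1)
    have hsc := sc_pos k
    have hss := sc_succ k
    -- split
    have h1 : ((C.filter (fun i => sc (k + 1) ≤ rho a v i)).card : ℝ) ≤
        ((C.filter (fun i => sc k ≤ rho a v i)).card : ℝ) +
        (((C.filter (fun i => rho a v i < sc k)).filter (fun i => sc (k + 1) ≤ rho a v i)).card : ℝ) := by
      have : C.filter (fun i => sc (k + 1) ≤ rho a v i) ⊆ C.filter (fun i => sc k ≤ rho a v i) ∪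
          ((C.filter (fun i => rho a v i < sc k)).filter (fun i => sc (k + 1) ≤ rho a v i)) := by
        intro i hi
        rw [mem_filter] at hi
        rw [mem_union, mem_filter, mem_filter, mem_filter]
        by_cases hh : sc k ≤ rho a v i
        · left; exact ⟨hi.1, hh⟩
        · right; exact ⟨⟨hi.1, not_le.1 hh⟩, hi.2⟩
      have h2 := (card_le_card this).trans (card_union_le _ _)
      exact_mod_cast h2
    have h2 : (((C.filter (fun i => rho a v i < sc k)).filter (fun i => sc (k + 1) ≤ rho a v i)).card : ℝ)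
        ≤ ∑ j : Fin d, 2 * (d + 5 * D0 d) := by
      have h3 : (((C.filter (fun i => rho a v i < sc k)).filter (fun i => sc (k + 1) ≤ rho a v i)).card : ℝ)
        ≤ ∑ i ∈ C with rho a v i < sc k, ∑ j : Fin d,
            (if sc (k + 1) * a j ≤ 1 then |v i j| / Real.sqrt (sc (k + 1) * a j) else 0) := by
        rw [card_filter]
        push_cast
        apply sum_le_sum
        intro i hi
        have hiI : i ∈ I := hB (hC.sub (mem_filter.1 hi).1)
        have hnn : ∀ j : Fin d, 0 ≤ (if sc (k + 1) * a j ≤ 1 then |v i j| / Real.sqrt (sc (k + 1) * a j) else 0) := by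
          intro j
          split_ifs
          · positivity
          · exact le_rfl
        split_ifs with hh
        · obtain ⟨j, hj⟩ := (le_rho_iff hd hR.apos _ i).1 hh
          have hr : 0 < sc (k + 1) * a j := mul_pos hsc1 (hR.apos j)
          have hv1 := abs_le_one_of_norm (hR.norm_le i hiI) j
          have hv2 : v i j ^ 2 ≤ 1 := by
            rw [← sq_abs]; nlinarith [abs_nonneg (v i j)]
          have hle : 1 ≤ (if sc (k + 1) * a j ≤ 1 then |v i j| / Real.sqrt (sc (k + 1) * a j) else 0) := by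
            rw [if_pos (hj.trans hv2), le_div_iff₀ (Real.sqrt_pos.2 hr), one_mul]
            exact Real.sqrt_le_iff.2 ⟨abs_nonneg _, by rw [sq_abs]; exact hj⟩
          exact hle.trans (single_le_sum (f := fun j : Fin d => (if sc (k + 1) * a j ≤ 1 then |v i j| / Real.sqrt (sc (k + 1) * a j) else 0))
            (fun j _ => hnn j) (mem_univ j))
        · exact sum_nonneg fun j _ => hnn j
      refine h3.trans ?_
      rw [sum_comm]
      apply sum_le_sum
      intro j _
      by_cases hj : sc (k + 1) * a j ≤ 1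
      · simp only [if_pos hj]
        rw [← sum_div]
        have hr : 0 < sc (k + 1) * a j := mul_pos hsc1 (hR.apos j)
        have hw := child_weight hd hR hp hinv hC j
        rw [div_le_iff₀ (Real.sqrt_pos.2 hr)]
        refine hw.trans ?_
        have hK0 := KS_nonneg hp (k + 1)
        have hK1 := KS_le hd hp (k + 1)
        have hD := D0_pos hd
        set r := sc (k + 1) * a j with hrdef
        have hsq : Real.sqrt r * Real.sqrt r = r := Real.mul_self_sqrt hr.le
        have hs1 : Real.sqrt r ≤ 1 := Real.sqrt_le_one.2 hj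
        have hs0 : 0 ≤ Real.sqrt r := Real.sqrt_nonneg r
        have hmin : min 1 (Real.sqrt r) ≤ Real.sqrt r := min_le_right _ _
        have hrs : r ≤ Real.sqrt r := by nlinarith
        have h5 : (d : ℝ) * r + 5 * D0 d * min 1 (Real.sqrt r) ≤ (d + 5 * D0 d) * Real.sqrt r := by
          have h6 : (d : ℝ) * r ≤ d * Real.sqrt r := mul_le_mul_of_nonneg_left hrs (by linarith)
          have h7 : 5 * D0 d * min 1 (Real.sqrt r) ≤ 5 * D0 d * Real.sqrt r :=
            mul_le_mul_of_nonneg_left hmin (by linarith)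
          linarith
        have h8 : 0 ≤ (d + 5 * D0 d) * Real.sqrt r := by positivity
        calc (1 + 4 * KS p (k + 1)) * (d * r + 5 * D0 d * min 1 (Real.sqrt r))
            ≤ (1 + 4 * KS p (k + 1)) * ((d + 5 * D0 d) * Real.sqrt r) :=
              mul_le_mul_of_nonneg_left h5 (by linarith)
          _ ≤ 2 * ((d + 5 * D0 d) * Real.sqrt r) := mul_le_mul_of_nonneg_right (by linarith) h8
          _ = 2 * (d + 5 * D0 d) * Real.sqrt r := by ring
      · simp only [if_neg hj]
        have hD := D0_pos hd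
        simp only [sum_const_zero]
        positivity
    rw [sum_const, card_univ, Fintype.card_fin, nsmul_eq_mul] at h2
    have hH : (d : ℝ) * (2 * (d + 5 * D0 d)) = H1 d / 2 := by
      have : H1 d = 4 * (d : ℝ) ^ 2 + 20 * d * D0 d := rfl
      rw [this]; ring
    rw [hH] at h2
    linarith

end

end Vale.Agent.Steinitz
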