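import Mathlib

/-!
# Euclidean Steinitz: definitions for the halving tree

All vectors are given in coordinates: `v i j` is the `j`-th coordinate of the `i`-th vector.
-/

namespace Vale.Agent.Steinitz

open Finset

/-- The data at the root of the tree: vectors of Euclidean length at most one, positive
antitone weights `a j`, and sign fields `y j` with `∑ i, y j i • v i = a j • e j`. -/
structure Root {ι : Type*} (d : ℕ) (I : Finset ι) (v : ι → Fin d → ℝ) (a : Fin d → ℝ)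
    (y : Fin d → ι → ℝ) : Prop where
  norm_le : ∀ i ∈ I, ∑ j, v i j ^ 2 ≤ 1
  apos : ∀ j, 0 < a j
  anti : Antitone a
  y_le : ∀ j, ∀ i ∈ I, |y j i| ≤ 1
  field : ∀ j l, ∑ i ∈ I, y j i * v i l = if j = l then a j else 0
  weight : ∀ j, ∑ i ∈ I, |v i j| ≤ d * a j

/-- relative size of the `i`-th vector -/
noncomputable def rho {ι : Type*} {d : ℕ} (a : Fin d → ℝ) (v : ι → Fin d → ℝ) (i : ι) : ℝ :=
  ⨆ j, v i j ^ 2 / a j

/-- `sc k = 2 ^ (-k)` -/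
noncomputable def sc (k : ℕ) : ℝ := (1 / 2) ^ k

/-- number of payload functions plus `d` -/
noncomputable def D0 (d : ℕ) : ℝ := (d : ℝ) ^ 2 + 2 * d

noncomputable def H1 (d : ℕ) : ℝ := 4 * (d : ℝ) ^ 2 + 20 * d * D0 d

noncomputable def E1 (d : ℕ) : ℝ := 1 + H1 d + 12 * D0 d

noncomputable def E2 (d : ℕ) : ℝ := E1 d + 1 + H1 d

/-- number of coordinates `j` with `K ≤ 2^(-k) * a j` -/
noncomputable def cnt {d : ℕ} (a : Fin d → ℝ) (K : ℝ) (k : ℕ) : ℕ :=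
  (univ.filter (fun j : Fin d => K ≤ sc k * a j)).card

/-- constants and level functions used by the tree -/
structure Par (d : ℕ) (a : Fin d → ℝ) where
  KH : ℝ
  KL : ℝ
  R0 : ℝ
  E3 : ℝ
  c4 : ℝ
  T : ℕ
  kap : ℕ → ℝ
  M : ℕ → ℝ

/-- one-level cost -/
noncomputable def Par.cost {d : ℕ} {a : Fin d → ℝ} (p : Par d a) (k : ℕ) : ℝ :=
  30000 * ((cnt a p.KL k : ℝ) - cnt a p.KH k)
    + ∑ j with sc k * a j < p.KL,
        (p.c4 * Real.sqrt (sc k * a j) + (p.c4 ^ 2 / 4 + D0 d ^ 2) * (sc k * a j))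
    + p.kap k * (2 * p.R0 * d * (E2 d + p.E3) + d * (E2 d + p.E3) ^ 2)

/-- the inequalities that the constants must satisfy -/
structure Par.Good {d : ℕ} {a : Fin d → ℝ} (p : Par d a) : Prop where
  KL_pos : 0 < p.KL
  KL_le : p.KL ≤ 1
  KH_ge : 8 * d * E2 d ≤ p.KH
  KH_one : 1 ≤ p.KH
  R0_ge : 0 ≤ p.R0
  E3_ge : 0 ≤ p.E3
  T_ge : H1 d < 2 ^ p.T
  c4_ge : (1 + H1 d) * Real.sqrt (2 ^ p.T) + 2 * d + 10 * D0 d ≤ p.c4
  kap_nonneg : ∀ k, 0 ≤ p.kap k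
  kap_sum : ∀ k, ∑ k' ∈ range k, p.kap k' ≤ 1 / (32 * d ^ 2)
  kap_sum' : ∀ k, 4 * d * (∑ k' ∈ range k, p.kap k') * p.KH ≤ p.E3
  kap_ge : ∀ k, d * (2 * p.R0 + 1 + H1 d) * ∑ l with p.KH ≤ sc k * a l, 1 / (sc k * a l) ≤ p.kap k
  M_zero : 0 ≤ p.M 0
  M_succ : ∀ k, p.M k + p.cost k + 700 * ((cnt a p.KH k : ℝ) - cnt a p.KH (k + 1)) ≤ p.M (k + 1)
  M_le : ∀ k, p.M k + p.cost k + 700 * d ≤ p.R0 ^ 2

/-- The invariant of a block `B` with end points `Sl`, `Sr` at level `k`. -/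
structure Inv {ι : Type*} {d : ℕ} {a : Fin d → ℝ} (p : Par d a) (v : ι → Fin d → ℝ)
    (y : Fin d → ι → ℝ) (k : ℕ) (B : Finset ι) (Sl Sr : Fin d → ℝ) : Prop where
  sum : ∀ j, Sr j = Sl j + ∑ i ∈ B, v i j
  W : ∀ j, ∑ i ∈ B with rho a v i < sc k, |v i j| ≤
    (1 + 4 * ∑ k' ∈ range k, p.kap k') * (d * (sc k * a j) + 5 * D0 d * min 1 (Real.sqrt (sc k * a j)))
  A : ∀ j l, |∑ i ∈ B, y j i * v i l - (if j = l then sc k * a j else 0)| ≤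
    E1 d + 4 * d * (∑ k' ∈ range k, p.kap k') * (sc k * a l)
  N : ∀ t : ℕ, ((B.filter (fun i => 2 ^ t * sc k ≤ rho a v i)).card : ℝ) ≤ 1 + H1 d / 2 ^ t
  Sl_le : ∀ m : ℕ, m ≤ cnt a p.KH k →
    ∑ j : Fin d with m ≤ j.val, Sl j ^ 2 ≤ p.M k + 700 * ((cnt a p.KH k : ℝ) - m)
  Sr_le : ∀ m : ℕ, m ≤ cnt a p.KH k →
    ∑ j : Fin d with m ≤ j.val, Sr j ^ 2 ≤ p.M k + 700 * ((cnt a p.KH k : ℝ) - m)

end Vale.Agent.Steinitz
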