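import Mathlib

/-!
# P262, auxiliary facts for module FINAL
-/

namespace Vale.Agent.Steinitz

open Finset

/-- every initial part of the filtered list comes from an initial part of the list -/
theorem exists_take_filterMap {α β : Type*} (f : α → Option β) (L : List α) (k : ℕ) :
    ∃ n, (L.take n).filterMap f = (L.filterMap f).take k := by
  induction L generalizing k with
  | nil => exact ⟨0, by simp⟩
  | cons x L ih =>
    rcases hx : f x with _ | b
    · obtain ⟨n, hn⟩ := ih k
      exact ⟨n + 1, by simp [hx, hn]⟩
    · rcases k with _ | k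
      · exact ⟨0, by simp⟩
      · obtain ⟨n, hn⟩ := ih k
        exact ⟨n + 1, by simp [hx, hn]⟩

/-- the forgetful map to the original family -/
def keep (N M : ℕ) (i : Fin (N + M)) : Option (Fin N) :=
  if h : i.val < N then some ⟨i.val, h⟩ else none

theorem keep_eq_some {N M : ℕ} {i : Fin (N + M)} {j : Fin N} :
    keep N M i = some j ↔ i = Fin.castAdd M j := by
  unfold keep
  split_ifs with h
  · simp [Fin.ext_iff]
  · constructor
    · intro h'; simp at h'
    · intro h'
      exfalso
      apply h
      rw [h']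
      simp

/-- splitting a list sum along `keep` -/
theorem sum_map_keep {E : Type*} [AddCommGroup E] {N M : ℕ} (v : Fin N → E) (e : Fin M → E)
    (L : List (Fin (N + M))) :
    (L.map (Fin.append v e)).sum = ((L.filterMap (keep N M)).map v).sum
      + ((L.filter (fun i => decide (N ≤ i.val))).map (Fin.append v e)).sum := by
  induction L with
  | nil => simp
  | cons x L ih =>
    rw [List.map_cons, List.sum_cons, ih]
    by_cases h : x.val < N
    · have hk : keep N M x = some ⟨x.val, h⟩ := by simp [keep, h]
      have h2 : ¬ N ≤ x.val := not_le.2 h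
      have h3 : Fin.append v e x = v ⟨x.val, h⟩ := by
        have h5 := Fin.append_left v e ⟨x.val, h⟩
        exact h5
      simp [hk, h2, h3, add_assoc]
    · have hk : keep N M x = none := by simp [keep, h]
      have h2 : N ≤ x.val := not_lt.1 h
      rw [List.filterMap_cons, hk, List.filter_cons]
      simp only [h2, decide_true, if_true, List.map_cons, List.sum_cons]
      abel

/-- a sum over a subset of `±e_j` has norm at most `√d` -/
theorem norm_extra_le {N d : ℕ} (v : Fin N → EuclideanSpace ℝ (Fin d))
    (T : Finset (Fin (N + (d + d)))) (hT : ∀ i ∈ T, N ≤ i.val) :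
    ‖∑ i ∈ T, Fin.append v (Fin.append (fun j => EuclideanSpace.single j (1 : ℝ))
      (fun j => - EuclideanSpace.single j (1 : ℝ))) i‖ ≤ Real.sqrt d := by
  classical
  set e : Fin (d + d) → EuclideanSpace ℝ (Fin d) :=
    Fin.append (fun j => EuclideanSpace.single j (1 : ℝ))
      (fun j => - EuclideanSpace.single j (1 : ℝ)) with he
  have h1 : ∑ i ∈ T, Fin.append v e i
      = ∑ i, if i ∈ T then Fin.append v e i else 0 := by
    rw [Finset.sum_ite_mem, Finset.univ_inter]
  have h2 : ∀ x : Fin N, Fin.castAdd (d + d) x ∉ T := by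
    intro x hx
    have := hT _ hx
    simp only [Fin.val_castAdd] at this
    omega
  rw [h1, Fin.sum_univ_add]
  have h3 : ∑ i : Fin N, (if Fin.castAdd (d + d) i ∈ T then Fin.append v e (Fin.castAdd (d + d) i)
      else 0) = 0 := Finset.sum_eq_zero fun i _ => by rw [if_neg (h2 i)]
  rw [h3, zero_add, Fin.sum_univ_add, ← Finset.sum_add_distrib]
  have h4 : ∀ x : Fin d, ((if Fin.natAdd N (Fin.castAdd d x) ∈ T then
      Fin.append v e (Fin.natAdd N (Fin.castAdd d x)) else 0)
      + (if Fin.natAdd N (Fin.natAdd d x) ∈ T then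
      Fin.append v e (Fin.natAdd N (Fin.natAdd d x)) else 0))
      = ((if Fin.natAdd N (Fin.castAdd d x) ∈ T then (1 : ℝ) else 0)
        - (if Fin.natAdd N (Fin.natAdd d x) ∈ T then (1 : ℝ) else 0)) •
          EuclideanSpace.single x (1 : ℝ) := by
    intro x
    rw [Fin.append_right, Fin.append_right, he, Fin.append_left, Fin.append_right]
    split_ifs <;> simp
  simp only [h4]
  have h5 : ∀ c : Fin d → ℝ, ‖∑ x, c x • EuclideanSpace.single x (1 : ℝ)‖ ^ 2 = ∑ x, c x ^ 2 := by
    intro c
    have : ∑ x, c x • EuclideanSpace.single x (1 : ℝ) = WithLp.toLp 2 c := by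
      ext j
      simp [Finset.sum_apply, Pi.single_apply]
    rw [this, EuclideanSpace.norm_sq_eq]
    simp
  apply Real.le_sqrt_of_sq_le
  rw [h5]
  calc _ ≤ ∑ _x : Fin d, (1 : ℝ) := by
        refine Finset.sum_le_sum fun x _ => ?_
        split_ifs <;> norm_num
    _ = d := by simp

/-- From spanning families to all families, and from lists to permutations. -/
theorem perm_of_spanning {d : ℕ} (R : ℝ)
    (H : ∀ (N : ℕ) (v : Fin N → EuclideanSpace ℝ (Fin d)),
      Submodule.span ℝ (Set.range v) = ⊤ → (∀ i, ‖v i‖ ≤ 1) → ∑ i, v i = 0 →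
      ∃ L : List (Fin N), L.Nodup ∧ (∀ i, i ∈ L) ∧ ∀ n : ℕ, ‖((L.take n).map v).sum‖ ≤ R)
    (N : ℕ) (v : Fin N → EuclideanSpace ℝ (Fin d)) (hv : ∀ i, ‖v i‖ ≤ 1) (hs : ∑ i, v i = 0) :
    ∃ π : Equiv.Perm (Fin N), ∀ k : ℕ,
      ‖∑ i : Fin N with i.val < k, v (π i)‖ ≤ R + Real.sqrt d := by
  classical
  set e : Fin (d + d) → EuclideanSpace ℝ (Fin d) :=
    Fin.append (fun j => EuclideanSpace.single j (1 : ℝ))
      (fun j => - EuclideanSpace.single j (1 : ℝ)) with he
  have hspan : Submodule.span ℝ (Set.range (Fin.append v e)) = ⊤ := by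
    rw [eq_top_iff]
    intro x _
    have hx : x = ∑ j, x j • EuclideanSpace.single j (1 : ℝ) := by
      ext j
      simp [Finset.sum_apply, Pi.single_apply]
    rw [hx]
    refine Submodule.sum_mem _ fun j _ => Submodule.smul_mem _ _ (Submodule.subset_span ?_)
    exact ⟨Fin.natAdd N (Fin.castAdd d j), by rw [Fin.append_right, he, Fin.append_left]⟩
  have hnorm : ∀ i, ‖Fin.append v e i‖ ≤ 1 := by
    intro i
    refine Fin.addCases (fun i => ?_) (fun i => ?_) i
    · rw [Fin.append_left]; exact hv i
    · rw [Fin.append_right, he]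
      refine Fin.addCases (fun i => ?_) (fun i => ?_) i
      · rw [Fin.append_left]; simp
      · rw [Fin.append_right]; simp
  have hsum : ∑ i, Fin.append v e i = 0 := by
    rw [Fin.sum_univ_add]
    simp only [Fin.append_left, Fin.append_right]
    rw [hs, he, Fin.sum_univ_add]
    simp only [Fin.append_left, Fin.append_right]
    simp
  obtain ⟨L, hL, hLm, hLn⟩ := H _ _ hspan hnorm hsum
  set L' := L.filterMap (keep N (d + d)) with hL'
  have hnd : L'.Nodup := by
    rw [hL']
    refine hL.filterMap ?_
    intro a a' b hb hb'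
    rw [Option.mem_def, keep_eq_some] at hb hb'
    rw [hb, hb']
  have hmem : ∀ j : Fin N, j ∈ L' := by
    intro j
    rw [hL', List.mem_filterMap]
    exact ⟨Fin.castAdd (d + d) j, hLm _, keep_eq_some.2 rfl⟩
  have hlen : L'.length = N := by
    have h1 := List.toFinset_card_of_nodup hnd
    have h2 : L'.toFinset = Finset.univ := by
      ext j; simp [hmem j]
    rw [h2] at h1
    simpa using h1.symm
  let π : Equiv.Perm (Fin N) :=
    (finCongr hlen.symm).trans (List.Nodup.getEquivOfForallMemList L' hnd hmem)
  have hofn : List.ofFn (fun i => v (π i)) = L'.map v := by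
    apply List.ext_getElem
    · simp [hlen]
    · intro n h1 h2
      simp only [List.getElem_ofFn, List.getElem_map]
      congr 1
  refine ⟨π, fun k => ?_⟩
  rw [← List.sum_take_ofFn (fun i => v (π i)) k, hofn, ← List.map_take]
  obtain ⟨n, hn⟩ := exists_take_filterMap (keep N (d + d)) L k
  rw [hL', ← hn]
  have h1 := sum_map_keep v e (L.take n)
  have h2 : (((L.take n).filter (fun i => decide (N ≤ i.val))).map (Fin.append v e)).sum
      = ∑ i ∈ ((L.take n).filter (fun i => decide (N ≤ i.val))).toFinset, Fin.append v e i := by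
    rw [List.sum_toFinset]
    exact (hL.sublist (List.take_sublist _ _)).filter _
  have h3 := norm_extra_le v ((L.take n).filter (fun i => decide (N ≤ i.val))).toFinset (by
    intro i hi
    rw [List.mem_toFinset, List.mem_filter] at hi
    exact of_decide_eq_true hi.2)
  rw [← he, ← h2] at h3
  have h4 : (((L.take n).filterMap (keep N (d + d))).map v).sum
      = ((L.take n).map (Fin.append v e)).sum
        - (((L.take n).filter (fun i => decide (N ≤ i.val))).map (Fin.append v e)).sum := by
    rw [h1]; abel
  rw [h4]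
  exact (norm_sub_le _ _).trans (add_le_add (hLn n) h3)

end Vale.Agent.Steinitz
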