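import Vale.Agent.Lib.Steinitz.Defs

/-!
# The constants of the halving tree
-/

namespace Vale.Agent.Steinitz.Prm

open Finset

section Geometric

theorem sc_pos (k : ℕ) : 0 < sc k := by unfold sc; positivity

theorem sc_succ (k : ℕ) : sc (k + 1) = sc k / 2 := by unfold sc; ring

theorem sc_zero : sc 0 = 1 := by simp [sc]

/-- Increasing geometric sum. -/
theorem geo_up {α K : ℝ} (hα : 0 < α) (hK : 0 < K) (n : ℕ) :
    ∑ k ∈ range n, (if K ≤ sc k * α then 1 / (sc k * α) else 0) ≤ 2 / K := by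
  have h1 : ∀ n : ℕ, ∑ k ∈ range n, (if K ≤ sc k * α then 1 / (sc k * α) else 0) ≤
      1 / (sc n * α) := by
    intro n
    induction n with
    | zero =>
      simp only [range_zero, sum_empty]
      exact (div_pos one_pos (mul_pos (sc_pos 0) hα)).le
    | succ n ih =>
      rw [sum_range_succ]
      have h2 : 0 < sc n * α := mul_pos (sc_pos n) hα
      have h3 : (if K ≤ sc n * α then 1 / (sc n * α) else 0) ≤ 1 / (sc n * α) := by
        split_ifs
        · exact le_rfl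
        · exact (div_pos one_pos h2).le
      have h4 : 1 / (sc (n + 1) * α) = 1 / (sc n * α) + 1 / (sc n * α) := by
        rw [sc_succ]; field_simp; norm_num
      rw [h4]
      exact add_le_add ih h3
  induction n with
  | zero => simp only [range_zero, sum_empty]; positivity
  | succ n ih =>
    by_cases h : K ≤ sc n * α
    · refine (h1 (n + 1)).trans ?_
      rw [sc_succ, div_mul_eq_mul_div, one_div_div]
      exact div_le_div_of_nonneg_left (by norm_num) hK h
    · rw [sum_range_succ, if_neg h, add_zero]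
      exact ih

/-- Decreasing geometric sum. -/
theorem geo_down {α K : ℝ} (hα : 0 < α) (hK : 0 < K) (n : ℕ) :
    ∑ k ∈ range n, (if sc k * α < K then sc k * α else 0) ≤ 2 * K := by
  have h1 : ∀ n : ℕ, ∑ k ∈ range n, (if sc k * α < K then sc k * α else 0) +
      2 * min K (sc n * α) ≤ 2 * K := by
    intro n
    induction n with
    | zero =>
      simp only [range_zero, sum_empty, zero_add]
      exact mul_le_mul_of_nonneg_left (min_le_left _ _) (by norm_num)
    | succ n ih =>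
      rw [sum_range_succ]
      have h2 : 0 < sc n * α := mul_pos (sc_pos n) hα
      split_ifs with h
      · have h3 : min K (sc n * α) = sc n * α := min_eq_right h.le
        have h4 : min K (sc (n + 1) * α) ≤ sc n * α / 2 := by
          refine (min_le_right _ _).trans (le_of_eq ?_)
          rw [sc_succ]; ring
        rw [h3] at ih
        linarith
      · have h3 : min K (sc n * α) = K := min_eq_left (not_lt.1 h)
        have h4 : min K (sc (n + 1) * α) ≤ K := min_le_left _ _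
        rw [h3] at ih
        linarith
  have h2 := h1 n
  have h3 : 0 ≤ min K (sc n * α) := le_min hK.le (mul_pos (sc_pos n) hα).le
  linarith

/-- Decreasing geometric sum of square roots. -/
theorem geo_down_sqrt {α K : ℝ} (hα : 0 < α) (n : ℕ) :
    ∑ k ∈ range n, (if sc k * α < K then Real.sqrt (sc k * α) else 0) ≤ 4 * Real.sqrt K := by
  have h1 : ∀ n : ℕ, ∑ k ∈ range n, (if sc k * α < K then Real.sqrt (sc k * α) else 0) +
      4 * min (Real.sqrt K) (Real.sqrt (sc n * α)) ≤ 4 * Real.sqrt K := by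
    intro n
    induction n with
    | zero =>
      simp only [range_zero, sum_empty, zero_add]
      exact mul_le_mul_of_nonneg_left (min_le_left _ _) (by norm_num)
    | succ n ih =>
      rw [sum_range_succ]
      have h2 : 0 < sc n * α := mul_pos (sc_pos n) hα
      split_ifs with h
      · have h3 : min (Real.sqrt K) (Real.sqrt (sc n * α)) = Real.sqrt (sc n * α) :=
          min_eq_right (Real.sqrt_le_sqrt h.le)
        have h4 : min (Real.sqrt K) (Real.sqrt (sc (n + 1) * α)) ≤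
            3 / 4 * Real.sqrt (sc n * α) := by
          refine (min_le_right _ _).trans ?_
          apply Real.sqrt_le_iff.2
          constructor
          · positivity
          · rw [mul_pow, Real.sq_sqrt h2.le, sc_succ]
            nlinarith
        rw [h3] at ih
        linarith
      · have h3 : min (Real.sqrt K) (Real.sqrt (sc n * α)) = Real.sqrt K :=
          min_eq_left (Real.sqrt_le_sqrt (not_lt.1 h))
        have h4 : min (Real.sqrt K) (Real.sqrt (sc (n + 1) * α)) ≤ Real.sqrt K :=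
          min_le_left _ _
        rw [h3] at ih
        linarith
  have h2 := h1 n
  have h3 : 0 ≤ min (Real.sqrt K) (Real.sqrt (sc n * α)) :=
    le_min (Real.sqrt_nonneg _) (Real.sqrt_nonneg _)
  linarith

/-- Number of levels at which a direction is active. -/
theorem active_count {α L H : ℝ} (hL : 0 < L) (hLH : L ≤ H) (n : ℕ) :
    (((range n).filter fun k => L ≤ sc k * α ∧ sc k * α < H).card : ℝ) ≤
      Real.log (H / L) / Real.log 2 + 1 := by
  set S := (range n).filter fun k => L ≤ sc k * α ∧ sc k * α < H with hS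
  have hlog2 : 0 < Real.log 2 := Real.log_pos one_lt_two
  have hHL : 1 ≤ H / L := (one_le_div hL).2 hLH
  rcases S.eq_empty_or_nonempty with h | h
  · rw [h]
    simp only [card_empty, Nat.cast_zero]
    have := Real.log_nonneg hHL
    positivity
  · set k0 := S.min' h
    set k1 := S.max' h
    have hk0 := (mem_filter.1 (S.min'_mem h)).2
    have hk1 := (mem_filter.1 (S.max'_mem h)).2
    have hle : k0 ≤ k1 := S.min'_le_max' h
    have hsub : S ⊆ Icc k0 k1 := fun k hk => mem_Icc.2 ⟨S.min'_le k hk, S.le_max' k hk⟩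
    have hcard : (S.card : ℝ) ≤ (k1 - k0 : ℕ) + 1 := by
      have := card_le_card hsub
      rw [Nat.card_Icc] at this
      have h2 : S.card ≤ (k1 - k0) + 1 := by omega
      exact_mod_cast h2
    refine hcard.trans ?_
    have h3 : (2 : ℝ) ^ (k1 - k0) ≤ H / L := by
      rw [le_div_iff₀ hL]
      have e : sc k0 = 2 ^ (k1 - k0) * sc k1 := by
        unfold sc
        have h5 : k1 = k0 + (k1 - k0) := by omega
        conv_rhs => rw [h5, pow_add]
        rw [Nat.add_sub_cancel_left]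
        have h6 : (2 : ℝ) ^ (k1 - k0) * (1 / 2) ^ (k1 - k0) = 1 := by
          rw [← mul_pow]; norm_num
        calc (1 / 2 : ℝ) ^ k0 = (1 / 2 : ℝ) ^ k0 * 1 := (mul_one _).symm
          _ = (1 / 2 : ℝ) ^ k0 * ((2 : ℝ) ^ (k1 - k0) * (1 / 2) ^ (k1 - k0)) := by rw [h6]
          _ = _ := by ring
      calc (2 : ℝ) ^ (k1 - k0) * L ≤ 2 ^ (k1 - k0) * (sc k1 * α) :=
            mul_le_mul_of_nonneg_left hk1.1 (by positivity)
        _ = sc k0 * α := by rw [e]; ring
        _ ≤ H := hk0.2.le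
    have h4 : ((k1 - k0 : ℕ) : ℝ) * Real.log 2 ≤ Real.log (H / L) := by
      rw [← Real.log_pow]
      exact Real.log_le_log (by positivity) h3
    have h5 : ((k1 - k0 : ℕ) : ℝ) ≤ Real.log (H / L) / Real.log 2 := by
      rw [le_div_iff₀ hlog2]; exact h4
    linarith

end Geometric

/-! ## The sum of the costs -/

section Costs

variable {d : ℕ} {a : Fin d → ℝ}

theorem cnt_eq_sum (K : ℝ) (k : ℕ) :
    (cnt a K k : ℝ) = ∑ j, (if K ≤ sc k * a j then (1 : ℝ) else 0) := by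
  unfold cnt
  rw [← Finset.sum_boole]

theorem cnt_le (K : ℝ) (k : ℕ) : (cnt a K k : ℝ) ≤ d := by
  unfold cnt
  have := card_filter_le (univ : Finset (Fin d)) fun j => K ≤ sc k * a j
  simp only [card_univ, Fintype.card_fin] at this
  exact_mod_cast this

/-- The total number of active directions over all levels. -/
theorem active_total {L H : ℝ} (hL : 0 < L) (hLH : L ≤ H) (n : ℕ) :
    ∑ k ∈ range n, ((cnt a L k : ℝ) - cnt a H k) ≤
      d * (Real.log (H / L) / Real.log 2 + 1) := by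
  have h1 : ∀ k, (cnt a L k : ℝ) - cnt a H k =
      ∑ j, (if L ≤ sc k * a j ∧ sc k * a j < H then (1 : ℝ) else 0) := by
    intro k
    rw [cnt_eq_sum, cnt_eq_sum, ← sum_sub_distrib]
    apply sum_congr rfl
    intro j _
    by_cases h2 : H ≤ sc k * a j
    · have h3 : L ≤ sc k * a j := hLH.trans h2
      simp [h2, h3, not_lt.2 h2]
    · simp [h2, not_le.1 h2]
  simp only [h1]
  rw [sum_comm]
  calc ∑ j, ∑ k ∈ range n, (if L ≤ sc k * a j ∧ sc k * a j < H then (1 : ℝ) else 0)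
      ≤ ∑ _j : Fin d, (Real.log (H / L) / Real.log 2 + 1) := by
        apply sum_le_sum
        intro j _
        rw [Finset.sum_boole]
        exact active_count hL hLH n
    _ = d * (Real.log (H / L) / Real.log 2 + 1) := by simp; ring

/-- The total deep cost. -/
theorem deep_total (ha : ∀ j, 0 < a j) {K c e : ℝ} (hK : 0 < K) (hc : 0 ≤ c) (he : 0 ≤ e)
    (n : ℕ) :
    ∑ k ∈ range n, ∑ j with sc k * a j < K,
        (c * Real.sqrt (sc k * a j) + e * (sc k * a j)) ≤
      d * (c * (4 * Real.sqrt K) + e * (2 * K)) := by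
  simp only [sum_filter]
  rw [sum_comm]
  calc ∑ j, ∑ k ∈ range n, (if sc k * a j < K then
          (c * Real.sqrt (sc k * a j) + e * (sc k * a j)) else 0)
      ≤ ∑ _j : Fin d, (c * (4 * Real.sqrt K) + e * (2 * K)) := by
        apply sum_le_sum
        intro j _
        have h1 : ∀ k, (if sc k * a j < K then
            (c * Real.sqrt (sc k * a j) + e * (sc k * a j)) else 0) =
            c * (if sc k * a j < K then Real.sqrt (sc k * a j) else 0) +
              e * (if sc k * a j < K then sc k * a j else 0) := by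
          intro k
          split_ifs <;> simp
        simp only [h1]
        rw [sum_add_distrib, ← mul_sum, ← mul_sum]
        exact add_le_add (mul_le_mul_of_nonneg_left (geo_down_sqrt (ha j) n) hc)
          (mul_le_mul_of_nonneg_left (geo_down (ha j) hK n) he)
    _ = d * (c * (4 * Real.sqrt K) + e * (2 * K)) := by simp; ring

/-- The total of `kap`. -/
theorem kap_total (ha : ∀ j, 0 < a j) {K : ℝ} (hK : 0 < K) (n : ℕ) :
    ∑ k ∈ range n, ∑ l with K ≤ sc k * a l, 1 / (sc k * a l) ≤ d * (2 / K) := by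
  simp only [sum_filter]
  rw [sum_comm]
  calc ∑ j, ∑ k ∈ range n, (if K ≤ sc k * a j then 1 / (sc k * a j) else 0)
      ≤ ∑ _j : Fin d, 2 / K := sum_le_sum fun j _ => geo_up (ha j) hK n
    _ = d * (2 / K) := by simp

end Costs

/-! ## Size of the constants -/

section Sizes

variable {d : ℕ}

theorem D0_le (hd : (1 : ℝ) ≤ d) : D0 d ≤ 3 * (d : ℝ) ^ 2 := by
  unfold D0; nlinarith

theorem D0_nonneg : 0 ≤ D0 d := by unfold D0; positivity

theorem H1_nonneg : 0 ≤ H1 d := by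
  have := D0_nonneg (d := d)
  unfold H1; positivity

theorem H1_ge (hd : (1 : ℝ) ≤ d) : 1 ≤ H1 d := by
  have := D0_nonneg (d := d)
  unfold H1
  have h1 : 0 ≤ 20 * (d : ℝ) * D0 d := by positivity
  nlinarith

theorem H1_le (hd : (1 : ℝ) ≤ d) : H1 d ≤ 64 * (d : ℝ) ^ 3 := by
  have h1 := D0_le hd
  have h2 : (d : ℝ) ^ 2 ≤ (d : ℝ) ^ 3 := pow_le_pow_right₀ hd (by norm_num)
  unfold H1
  have h3 : 20 * (d : ℝ) * D0 d ≤ 20 * (d : ℝ) * (3 * (d : ℝ) ^ 2) :=
    mul_le_mul_of_nonneg_left h1 (by positivity)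
  nlinarith

theorem E2_le (hd : (1 : ℝ) ≤ d) : E2 d ≤ 166 * (d : ℝ) ^ 3 := by
  have h1 := D0_le hd
  have h2 := H1_le hd
  have h3 : (d : ℝ) ^ 2 ≤ (d : ℝ) ^ 3 := pow_le_pow_right₀ hd (by norm_num)
  have h4 : (1 : ℝ) ≤ (d : ℝ) ^ 3 := one_le_pow₀ hd
  unfold E2 E1
  linarith

theorem E2_nonneg : 0 ≤ E2 d := by
  have h1 := D0_nonneg (d := d)
  have h2 := H1_nonneg (d := d)
  unfold E2 E1
  linarith

end Sizes

/-! ## The parameters -/

section Choice

variable (d : ℕ)

noncomputable def R0v : ℝ := 10 ^ 4 * d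

noncomputable def Ckv : ℝ := d * (2 * R0v d + 1 + H1 d)

noncomputable def E3v : ℝ := 8 * (d : ℝ) ^ 2 * Ckv d

noncomputable def E4v : ℝ := E2 d + E3v d

noncomputable def Qv : ℝ := 2 * R0v d * d * E4v d + d * E4v d ^ 2

noncomputable def KHv : ℝ := 8 * d * E2 d + 64 * (d : ℝ) ^ 3 * Ckv d + 2 * Ckv d * d * Qv d + 1

theorem exists_T : ∃ T : ℕ, H1 d < 2 ^ T := pow_unbounded_of_one_lt _ one_lt_two

noncomputable def Tv : ℕ := by
  classical exact Nat.find (exists_T d)

theorem Tv_spec : H1 d < 2 ^ Tv d := by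
  classical exact Nat.find_spec (exists_T d)

theorem Tv_le (hd : (1 : ℝ) ≤ d) : (2 : ℝ) ^ Tv d ≤ 2 * H1 d := by
  classical
  have h0 : Tv d ≠ 0 := by
    intro h
    have h1 := Tv_spec d
    rw [h, pow_zero] at h1
    have h2 := H1_ge hd
    linarith
  obtain ⟨m, hm⟩ := Nat.exists_eq_succ_of_ne_zero h0
  have h2 : ¬ H1 d < 2 ^ m := by
    have h3 : m < Tv d := by omega
    exact Nat.find_min (exists_T d) h3
  rw [hm, pow_succ]
  have := not_lt.1 h2
  linarith

noncomputable def c4v : ℝ := (1 + H1 d) * Real.sqrt (2 ^ Tv d) + 2 * d + 10 * D0 d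

noncomputable def KLv : ℝ := 1 / (16 * c4v d ^ 2)

variable {d}

theorem R0v_nonneg : 0 ≤ R0v d := by unfold R0v; positivity

theorem Ckv_nonneg : 0 ≤ Ckv d := by
  have h1 := R0v_nonneg (d := d)
  have h2 := H1_nonneg (d := d)
  unfold Ckv; positivity

theorem E3v_nonneg : 0 ≤ E3v d := by
  have h1 := Ckv_nonneg (d := d)
  unfold E3v; positivity

theorem E4v_nonneg : 0 ≤ E4v d := add_nonneg E2_nonneg E3v_nonneg

theorem Qv_nonneg : 0 ≤ Qv d := by
  have h1 := R0v_nonneg (d := d)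
  have h2 := E4v_nonneg (d := d)
  unfold Qv; positivity

theorem Ckv_le (hd : (1 : ℝ) ≤ d) : Ckv d ≤ 30000 * (d : ℝ) ^ 4 := by
  have h1 := H1_le hd
  have h2 : (d : ℝ) ≤ (d : ℝ) ^ 3 := le_self_pow₀ hd (by norm_num)
  have h3 : (1 : ℝ) ≤ (d : ℝ) ^ 3 := one_le_pow₀ hd
  have h4 : 2 * R0v d + 1 + H1 d ≤ 30000 * (d : ℝ) ^ 3 := by
    unfold R0v; linarith
  calc Ckv d = d * (2 * R0v d + 1 + H1 d) := rfl
    _ ≤ d * (30000 * (d : ℝ) ^ 3) := mul_le_mul_of_nonneg_left h4 (by positivity)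
    _ = 30000 * (d : ℝ) ^ 4 := by ring

theorem E4v_le (hd : (1 : ℝ) ≤ d) : E4v d ≤ 250000 * (d : ℝ) ^ 6 := by
  have h1 := E2_le hd
  have h2 : (d : ℝ) ^ 3 ≤ (d : ℝ) ^ 6 := pow_le_pow_right₀ hd (by norm_num)
  have h3 : E3v d ≤ 240000 * (d : ℝ) ^ 6 := by
    calc E3v d = 8 * (d : ℝ) ^ 2 * Ckv d := rfl
      _ ≤ 8 * (d : ℝ) ^ 2 * (30000 * (d : ℝ) ^ 4) :=
        mul_le_mul_of_nonneg_left (Ckv_le hd) (by positivity)
      _ = 240000 * (d : ℝ) ^ 6 := by ring
  have h4 : (0 : ℝ) ≤ (d : ℝ) ^ 6 := by positivity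
  unfold E4v
  linarith

theorem Qv_le (hd : (1 : ℝ) ≤ d) : Qv d ≤ 7 * 10 ^ 10 * (d : ℝ) ^ 13 := by
  have h1 := E4v_le hd
  have h0 := E4v_nonneg (d := d)
  have h2 : (d : ℝ) ^ 8 ≤ (d : ℝ) ^ 13 := pow_le_pow_right₀ hd (by norm_num)
  have h3 : 2 * R0v d * d * E4v d ≤ 5 * 10 ^ 9 * (d : ℝ) ^ 8 := by
    calc 2 * R0v d * d * E4v d ≤ 2 * R0v d * d * (250000 * (d : ℝ) ^ 6) :=
          mul_le_mul_of_nonneg_left h1 (by have := R0v_nonneg (d := d); positivity)
      _ = 5 * 10 ^ 9 * (d : ℝ) ^ 8 := by unfold R0v; ring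
  have h4 : (d : ℝ) * E4v d ^ 2 ≤ 625 * 10 ^ 8 * (d : ℝ) ^ 13 := by
    calc (d : ℝ) * E4v d ^ 2 ≤ d * (250000 * (d : ℝ) ^ 6) ^ 2 :=
          mul_le_mul_of_nonneg_left (pow_le_pow_left₀ h0 h1 2) (by positivity)
      _ = 625 * 10 ^ 8 * (d : ℝ) ^ 13 := by ring
  have h5 : (0 : ℝ) ≤ (d : ℝ) ^ 13 := by positivity
  unfold Qv
  norm_num at h3 h4 ⊢
  linarith

theorem KHv_le (hd : (1 : ℝ) ≤ d) : KHv d ≤ 2 ^ 53 * (d : ℝ) ^ 18 := by
  have h1 := E2_le hd
  have h2 := Ckv_le hd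
  have h3 := Qv_le hd
  have h0 := Ckv_nonneg (d := d)
  have h0' := Qv_nonneg (d := d)
  have p1 : (d : ℝ) ^ 4 ≤ (d : ℝ) ^ 18 := pow_le_pow_right₀ hd (by norm_num)
  have p2 : (d : ℝ) ^ 7 ≤ (d : ℝ) ^ 18 := pow_le_pow_right₀ hd (by norm_num)
  have p3 : (1 : ℝ) ≤ (d : ℝ) ^ 18 := one_le_pow₀ hd
  have a1 : 8 * d * E2 d ≤ 1328 * (d : ℝ) ^ 4 := by
    calc 8 * d * E2 d ≤ 8 * d * (166 * (d : ℝ) ^ 3) :=
          mul_le_mul_of_nonneg_left h1 (by positivity)
      _ = 1328 * (d : ℝ) ^ 4 := by ring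
  have a2 : 64 * (d : ℝ) ^ 3 * Ckv d ≤ 1920000 * (d : ℝ) ^ 7 := by
    calc 64 * (d : ℝ) ^ 3 * Ckv d ≤ 64 * (d : ℝ) ^ 3 * (30000 * (d : ℝ) ^ 4) :=
          mul_le_mul_of_nonneg_left h2 (by positivity)
      _ = 1920000 * (d : ℝ) ^ 7 := by ring
  have a3 : 2 * Ckv d * d * Qv d ≤ 42 * 10 ^ 14 * (d : ℝ) ^ 18 := by
    calc 2 * Ckv d * d * Qv d ≤ 2 * (30000 * (d : ℝ) ^ 4) * d * (7 * 10 ^ 10 * (d : ℝ) ^ 13) := by
          apply mul_le_mul _ h3 h0' (by positivity)
          exact mul_le_mul_of_nonneg_right (by linarith) (by positivity)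
      _ = 42 * 10 ^ 14 * (d : ℝ) ^ 18 := by ring
  unfold KHv
  norm_num at a3 ⊢
  linarith

theorem c4v_le (hd : (1 : ℝ) ≤ d) : c4v d ≤ 1000 * (d : ℝ) ^ 5 := by
  have h1 := H1_le hd
  have h0 := H1_nonneg (d := d)
  have h2 := Tv_le d hd
  have h3 := D0_le hd
  have p1 : (1 : ℝ) ≤ (d : ℝ) ^ 3 := one_le_pow₀ hd
  have p2 : (d : ℝ) ≤ (d : ℝ) ^ 5 := le_self_pow₀ hd (by norm_num)
  have p3 : (d : ℝ) ^ 2 ≤ (d : ℝ) ^ 5 := pow_le_pow_right₀ hd (by norm_num)
  have p4 : (d : ℝ) ^ 3 ≤ (d : ℝ) ^ 4 := pow_le_pow_right₀ hd (by norm_num)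
  have hs : Real.sqrt (2 ^ Tv d) ≤ 12 * (d : ℝ) ^ 2 := by
    apply Real.sqrt_le_iff.2
    refine ⟨by positivity, ?_⟩
    have : (12 * (d : ℝ) ^ 2) ^ 2 = 144 * (d : ℝ) ^ 4 := by ring
    rw [this]
    linarith
  have h4 : (1 + H1 d) * Real.sqrt (2 ^ Tv d) ≤ 780 * (d : ℝ) ^ 5 := by
    calc (1 + H1 d) * Real.sqrt (2 ^ Tv d) ≤ (65 * (d : ℝ) ^ 3) * (12 * (d : ℝ) ^ 2) :=
          mul_le_mul (by linarith) hs (Real.sqrt_nonneg _) (by positivity)
      _ = 780 * (d : ℝ) ^ 5 := by ring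
  unfold c4v
  linarith

theorem c4v_ge (hd : (1 : ℝ) ≤ d) : 2 ≤ c4v d ∧ 10 * D0 d ≤ c4v d := by
  have h0 := H1_nonneg (d := d)
  have h1 : 0 ≤ (1 + H1 d) * Real.sqrt (2 ^ Tv d) :=
    mul_nonneg (by linarith) (Real.sqrt_nonneg _)
  have h2 := D0_nonneg (d := d)
  unfold c4v
  constructor <;> linarith

theorem KLv_pos (hd : (1 : ℝ) ≤ d) : 0 < KLv d := by
  have := (c4v_ge hd).1
  unfold KLv; positivity

theorem KLv_le_one (hd : (1 : ℝ) ≤ d) : KLv d ≤ 1 := by
  have := (c4v_ge hd).1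
  unfold KLv
  rw [div_le_one (by positivity)]
  nlinarith

theorem KHv_ge_one : 1 ≤ KHv d := by
  have h1 := E2_nonneg (d := d)
  have h2 := Ckv_nonneg (d := d)
  have h3 := Qv_nonneg (d := d)
  unfold KHv
  have a1 : 0 ≤ 8 * d * E2 d := by positivity
  have a2 : 0 ≤ 64 * (d : ℝ) ^ 3 * Ckv d := by positivity
  have a3 : 0 ≤ 2 * Ckv d * d * Qv d := by positivity
  linarith

theorem ratio_le (hd : (1 : ℝ) ≤ d) : KHv d / KLv d ≤ ((d : ℝ) + 1) ^ 105 := by
  have h1 := KHv_le hd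
  have h2 := c4v_le hd
  have h3 := (c4v_ge hd).1
  have h4 := KHv_ge_one (d := d)
  have h5 : KHv d / KLv d = KHv d * (16 * c4v d ^ 2) := by
    unfold KLv; rw [div_div_eq_mul_div, div_one]
  rw [h5]
  have h6 : 16 * c4v d ^ 2 ≤ 2 ^ 24 * (d : ℝ) ^ 10 := by
    calc 16 * c4v d ^ 2 ≤ 16 * (1000 * (d : ℝ) ^ 5) ^ 2 :=
          mul_le_mul_of_nonneg_left (pow_le_pow_left₀ (by linarith) h2 2) (by norm_num)
      _ = 16000000 * (d : ℝ) ^ 10 := by ring
      _ ≤ 2 ^ 24 * (d : ℝ) ^ 10 := mul_le_mul_of_nonneg_right (by norm_num) (by positivity)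
  have e2 : (2 : ℝ) ≤ (d : ℝ) + 1 := by linarith
  calc KHv d * (16 * c4v d ^ 2) ≤ (2 ^ 53 * (d : ℝ) ^ 18) * (2 ^ 24 * (d : ℝ) ^ 10) :=
        mul_le_mul h1 h6 (by positivity) (by positivity)
    _ = 2 ^ 77 * (d : ℝ) ^ 28 := by ring
    _ ≤ ((d : ℝ) + 1) ^ 77 * ((d : ℝ) + 1) ^ 28 :=
        mul_le_mul (pow_le_pow_left₀ (by norm_num) e2 77)
          (pow_le_pow_left₀ (by positivity) (by linarith) 28) (by positivity) (by positivity)
    _ = ((d : ℝ) + 1) ^ 105 := by rw [← pow_add]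

theorem log_d_ge (hd : (1 : ℝ) ≤ d) : 1 / 2 ≤ Real.log 2 ∧ Real.log 2 ≤ Real.log ((d : ℝ) + 1) := by
  constructor
  · have := Real.log_two_gt_d9
    linarith
  · exact Real.log_le_log (by norm_num) (by linarith)

theorem levels_le (hd : (1 : ℝ) ≤ d) :
    Real.log (KHv d / KLv d) / Real.log 2 + 1 ≤ 212 * Real.log ((d : ℝ) + 1) := by
  obtain ⟨h1, h2⟩ := log_d_ge hd
  have hpos : 0 < KHv d / KLv d := div_pos (by have := KHv_ge_one (d := d); linarith) (KLv_pos hd)
  have h3 : Real.log (KHv d / KLv d) ≤ 105 * Real.log ((d : ℝ) + 1) := by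
    have := Real.log_le_log hpos (ratio_le hd)
    rw [Real.log_pow] at this
    exact_mod_cast this
  have h4 : Real.log (KHv d / KLv d) / Real.log 2 ≤ 210 * Real.log ((d : ℝ) + 1) := by
    rw [div_le_iff₀ (by linarith)]
    calc Real.log (KHv d / KLv d) ≤ 105 * Real.log ((d : ℝ) + 1) := h3
      _ = 210 * Real.log ((d : ℝ) + 1) * (1 / 2) := by ring
      _ ≤ 210 * Real.log ((d : ℝ) + 1) * Real.log 2 :=
          mul_le_mul_of_nonneg_left h1 (by linarith)
  linarith

end Choice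

/-! ## The parameter structure -/

section Final

variable {d : ℕ} (a : Fin d → ℝ)

noncomputable def kapv (k : ℕ) : ℝ :=
  Ckv d * ∑ l with KHv d ≤ sc k * a l, 1 / (sc k * a l)

/-- parameters without `M` -/
noncomputable def par0 : Par d a where
  KH := KHv d
  KL := KLv d
  R0 := R0v d
  E3 := E3v d
  c4 := c4v d
  T := Tv d
  kap := kapv a
  M := fun _ => 0

/-- the parameters -/
noncomputable def parv : Par d a where
  KH := KHv d
  KL := KLv d
  R0 := R0v d
  E3 := E3v d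
  c4 := c4v d
  T := Tv d
  kap := kapv a
  M := fun k => ∑ k' ∈ range k, (par0 a).cost k' +
    700 * ((cnt a (KHv d) 0 : ℝ) - cnt a (KHv d) k)

theorem parv_cost (k : ℕ) : (parv a).cost k = (par0 a).cost k := rfl

variable {a}

theorem kapv_nonneg (ha : ∀ j, 0 < a j) (k : ℕ) : 0 ≤ kapv a k := by
  unfold kapv
  apply mul_nonneg Ckv_nonneg
  apply sum_nonneg
  intro l _
  exact (div_pos one_pos (mul_pos (sc_pos k) (ha l))).le

theorem kapv_sum (ha : ∀ j, 0 < a j) (n : ℕ) :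
    ∑ k ∈ range n, kapv a k ≤ Ckv d * (d * (2 / KHv d)) := by
  unfold kapv
  rw [← mul_sum]
  exact mul_le_mul_of_nonneg_left
    (kap_total ha (lt_of_lt_of_le one_pos KHv_ge_one) n) Ckv_nonneg

theorem cost_sum (hd : (1 : ℝ) ≤ d) (ha : ∀ j, 0 < a j) (n : ℕ) :
    ∑ k ∈ range n, (par0 a).cost k ≤ 6360000 * (d * Real.log ((d : ℝ) + 1)) + 2 * d + 1 := by
  have hKH : 0 < KHv d := lt_of_lt_of_le one_pos KHv_ge_one
  have hKL := KLv_pos hd
  obtain ⟨hc2, hcD⟩ := c4v_ge hd
  have hle : KLv d ≤ KHv d := (KLv_le_one hd).trans KHv_ge_one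
  unfold Par.cost
  rw [sum_add_distrib, sum_add_distrib, ← mul_sum, ← sum_mul]
  have h1 : 30000 * ∑ k ∈ range n, ((cnt a (par0 a).KL k : ℝ) - cnt a (par0 a).KH k) ≤
      6360000 * (d * Real.log ((d : ℝ) + 1)) := by
    have h2 : ∑ k ∈ range n, ((cnt a (par0 a).KL k : ℝ) - cnt a (par0 a).KH k) ≤
      d * (Real.log (KHv d / KLv d) / Real.log 2 + 1) := active_total hKL hle n
    have h3 : (d : ℝ) * (Real.log (KHv d / KLv d) / Real.log 2 + 1) ≤
        d * (212 * Real.log ((d : ℝ) + 1)) :=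
      mul_le_mul_of_nonneg_left (levels_le hd) (by positivity)
    linarith
  have h4 : ∑ k ∈ range n, ∑ j with sc k * a j < (par0 a).KL,
        ((par0 a).c4 * Real.sqrt (sc k * a j) +
          ((par0 a).c4 ^ 2 / 4 + D0 d ^ 2) * (sc k * a j)) ≤ 2 * (d : ℝ) := by
    have h5 := deep_total (a := a) ha hKL (c := c4v d) (e := c4v d ^ 2 / 4 + D0 d ^ 2)
      (by linarith) (by positivity) n
    refine h5.trans ?_
    have hs : Real.sqrt (KLv d) = 1 / (4 * c4v d) := by
      rw [Real.sqrt_eq_iff_mul_self_eq hKL.le (by positivity)]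
      unfold KLv
      field_simp
      norm_num
    have h6 : c4v d * (4 * Real.sqrt (KLv d)) = 1 := by
      rw [hs]; field_simp
    have h7 : (c4v d ^ 2 / 4 + D0 d ^ 2) * (2 * KLv d) ≤ 1 := by
      unfold KLv
      have h8 : D0 d ^ 2 ≤ c4v d ^ 2 := pow_le_pow_left₀ D0_nonneg (by
        have := D0_nonneg (d := d); linarith) 2
      rw [mul_one_div, mul_div_assoc', div_le_one (by positivity)]
      nlinarith
    rw [h6]
    have h9 : (0 : ℝ) ≤ d := by positivity
    nlinarith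
  have h10 : (∑ k ∈ range n, (par0 a).kap k) *
      (2 * (par0 a).R0 * d * (E2 d + (par0 a).E3) + d * (E2 d + (par0 a).E3) ^ 2) ≤ 1 := by
    have h11 : ∑ k ∈ range n, (par0 a).kap k ≤ Ckv d * (d * (2 / KHv d)) := kapv_sum ha n
    have h12 : (2 * (par0 a).R0 * d * (E2 d + (par0 a).E3) + d * (E2 d + (par0 a).E3) ^ 2) =
      Qv d := rfl
    rw [h12]
    calc (∑ k ∈ range n, (par0 a).kap k) * Qv d ≤ (Ckv d * (d * (2 / KHv d))) * Qv d :=
          mul_le_mul_of_nonneg_right h11 Qv_nonneg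
      _ = (2 * Ckv d * d * Qv d) / KHv d := by ring
      _ ≤ 1 := by
          rw [div_le_one hKH]
          have h1 := E2_nonneg (d := d)
          have h2 := Ckv_nonneg (d := d)
          have a1 : 0 ≤ 8 * d * E2 d := by positivity
          have a2 : 0 ≤ 64 * (d : ℝ) ^ 3 * Ckv d := by positivity
          unfold KHv
          linarith
  linarith

theorem cost_nonneg (hd : (1 : ℝ) ≤ d) (ha : ∀ j, 0 < a j) (k : ℕ) : 0 ≤ (par0 a).cost k := by
  have hle : KLv d ≤ KHv d := (KLv_le_one hd).trans KHv_ge_one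
  obtain ⟨hc2, hcD⟩ := c4v_ge hd
  unfold Par.cost
  have h1 : (0 : ℝ) ≤ 30000 * ((cnt a (par0 a).KL k : ℝ) - cnt a (par0 a).KH k) := by
    have : cnt a (KHv d) k ≤ cnt a (KLv d) k := by
      unfold cnt
      apply card_le_card
      intro j hj
      rw [mem_filter] at hj ⊢
      exact ⟨hj.1, hle.trans hj.2⟩
    have h2 : (cnt a (KHv d) k : ℝ) ≤ cnt a (KLv d) k := by exact_mod_cast this
    have h3 : (0 : ℝ) ≤ (cnt a (KLv d) k : ℝ) - cnt a (KHv d) k := by linarith
    exact mul_nonneg (by norm_num) h3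
  have h2 : 0 ≤ ∑ j with sc k * a j < (par0 a).KL,
        ((par0 a).c4 * Real.sqrt (sc k * a j) +
          ((par0 a).c4 ^ 2 / 4 + D0 d ^ 2) * (sc k * a j)) := by
    apply sum_nonneg
    intro j _
    have h3 := mul_pos (sc_pos k) (ha j)
    have h4 : 0 ≤ (par0 a).c4 := by change 0 ≤ c4v d; linarith
    positivity
  have h3 : 0 ≤ (par0 a).kap k *
      (2 * (par0 a).R0 * d * (E2 d + (par0 a).E3) + d * (E2 d + (par0 a).E3) ^ 2) :=
    mul_nonneg (kapv_nonneg ha k) Qv_nonneg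
  linarith

theorem M_bound (hd : (1 : ℝ) ≤ d) (ha : ∀ j, 0 < a j) (k : ℕ) :
    (parv a).M k + (parv a).cost k + 700 * d ≤
      6360000 * (d * Real.log ((d : ℝ) + 1)) + 1403 * d := by
  have h1 := cost_sum hd ha (k + 1)
  rw [sum_range_succ] at h1
  have h2 := cnt_le (a := a) (KHv d) 0
  have h3 : (0 : ℝ) ≤ cnt a (KHv d) k := Nat.cast_nonneg _
  have h4 : (parv a).M k = ∑ k' ∈ range k, (par0 a).cost k' +
    700 * ((cnt a (KHv d) 0 : ℝ) - cnt a (KHv d) k) := rfl
  rw [h4, parv_cost]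
  linarith

end Final

end Prm

open Finset Prm in
/-- MODULE PARAMS. -/
theorem exists_par : ∃ C : ℝ, 0 < C ∧ ∀ (d : ℕ) (_ : 1 ≤ d) (a : Fin d → ℝ) (_ : ∀ j, 0 < a j)
    (_ : Antitone a), ∃ p : Par d a, p.Good ∧ ∀ k, p.M k + 700 * d ≤ C * (d * Real.log (d + 1)) := by
  refine ⟨7000000, by norm_num, ?_⟩
  intro d hd' a ha _
  have hd : (1 : ℝ) ≤ d := by exact_mod_cast hd'
  have hKH1 := KHv_ge_one (d := d)
  have hKH : 0 < KHv d := by linarith
  obtain ⟨hl1, hl2⟩ := log_d_ge hd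
  have hdl : (d : ℝ) * (1 / 2) ≤ d * Real.log ((d : ℝ) + 1) :=
    mul_le_mul_of_nonneg_left (hl1.trans hl2) (by positivity)
  have hE2 := E2_nonneg (d := d)
  have hC := Ckv_nonneg (d := d)
  have hQ := Qv_nonneg (d := d)
  have a1 : 0 ≤ 8 * d * E2 d := by positivity
  have a2 : 0 ≤ 64 * (d : ℝ) ^ 3 * Ckv d := by positivity
  have a3 : 0 ≤ 2 * Ckv d * d * Qv d := by positivity
  refine ⟨parv a, ?_, ?_⟩
  · refine
      { KL_pos := KLv_pos hd
        KL_le := KLv_le_one hd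
        KH_ge := ?_
        KH_one := hKH1
        R0_ge := R0v_nonneg
        E3_ge := E3v_nonneg
        T_ge := Tv_spec d
        c4_ge := le_rfl
        kap_nonneg := kapv_nonneg ha
        kap_sum := ?_
        kap_sum' := ?_
        kap_ge := fun k => le_rfl
        M_zero := ?_
        M_succ := ?_
        M_le := ?_ }
    · change 8 * d * E2 d ≤ KHv d
      unfold KHv
      linarith
    · intro k
      refine (kapv_sum ha k).trans ?_
      have h1 : Ckv d * (d * (2 / KHv d)) = (2 * d * Ckv d) / KHv d := by ring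
      rw [h1, div_le_div_iff₀ hKH (by positivity)]
      have h2 : 2 * d * Ckv d * (32 * (d : ℝ) ^ 2) = 64 * (d : ℝ) ^ 3 * Ckv d := by ring
      rw [h2, one_mul]
      unfold KHv
      linarith
    · intro k
      have h1 := kapv_sum ha k
      calc 4 * (d : ℝ) * (∑ k' ∈ range k, (parv a).kap k') * (parv a).KH
          ≤ 4 * (d : ℝ) * (Ckv d * (d * (2 / KHv d))) * KHv d := by
            apply mul_le_mul_of_nonneg_right _ hKH.le
            exact mul_le_mul_of_nonneg_left h1 (by positivity)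
        _ = 8 * (d : ℝ) ^ 2 * Ckv d := by
            field_simp
            ring
        _ = (parv a).E3 := rfl
    · change 0 ≤ ∑ k' ∈ range 0, (par0 a).cost k' +
        700 * ((cnt a (KHv d) 0 : ℝ) - cnt a (KHv d) 0)
      simp
    · intro k
      have h4 : ∀ k, (parv a).M k = ∑ k' ∈ range k, (par0 a).cost k' +
        700 * ((cnt a (KHv d) 0 : ℝ) - cnt a (KHv d) k) := fun _ => rfl
      rw [h4, h4, sum_range_succ, parv_cost]
      change _ + _ + _ + 700 * ((cnt a (KHv d) k : ℝ) - cnt a (KHv d) (k + 1)) ≤ _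
      linarith
    · intro k
      refine (M_bound hd ha k).trans ?_
      have h5 : Real.log ((d : ℝ) + 1) ≤ d := by
        have := Real.log_le_sub_one_of_pos (show (0 : ℝ) < d + 1 by positivity)
        linarith
      have h6 : (d : ℝ) * Real.log ((d : ℝ) + 1) ≤ d * d :=
        mul_le_mul_of_nonneg_left h5 (by positivity)
      have h7 : (d : ℝ) ≤ d * d := by nlinarith
      change _ ≤ R0v d ^ 2
      unfold R0v
      nlinarith
  · intro k
    have h1 := M_bound hd ha k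
    have h2 := cost_nonneg hd ha k
    rw [parv_cost] at h1
    have h3 : (Real.log ((d : ℝ) + 1)) = Real.log (d + 1) := rfl
    nlinarith

end Vale.Agent.Steinitz
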