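import Vale.Agent.Lib.Steinitz.Defs

/-!
# Root data: a frame of maximal determinant in the zonotope and its principal axes
-/

namespace Vale.Agent.Steinitz

open Finset Module

section Frame

variable {d N : ℕ}

/-- A linear combination of the vectors `v i`. -/
noncomputable def cmb (v : Fin N → EuclideanSpace ℝ (Fin d)) (y : Fin N → ℝ) :
    EuclideanSpace ℝ (Fin d) := ∑ i, y i • v i

/-- The standard basis. -/
noncomputable def stdB (d : ℕ) : Basis (Fin d) ℝ (EuclideanSpace ℝ (Fin d)) :=
  (EuclideanSpace.basisFun (Fin d) ℝ).toBasis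

theorem continuous_det_cmb (v : Fin N → EuclideanSpace ℝ (Fin d)) :
    Continuous fun Y : Fin d → Fin N → ℝ => (stdB d).det fun k => cmb v (Y k) := by
  have h : (fun Y : Fin d → Fin N → ℝ => (stdB d).det fun k => cmb v (Y k)) =
      fun Y => Matrix.det (Matrix.of fun i k => ((stdB d).repr (cmb v (Y k)) i)) := by
    funext Y
    rw [Basis.det_apply]
    congr 1
  rw [h]
  apply Continuous.matrix_det
  refine continuous_pi fun i => continuous_pi fun k => ?_
  have h2 : (fun Y : Fin d → Fin N → ℝ => (stdB d).repr (cmb v (Y k)) i) =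
      fun Y => ∑ n, Y k n * (stdB d).repr (v n) i := by
    funext Y
    simp [cmb]
  simp only [Matrix.of_apply]
  rw [h2]
  fun_prop

theorem exists_independent (v : Fin N → EuclideanSpace ℝ (Fin d))
    (hspan : Submodule.span ℝ (Set.range v) = ⊤) :
    ∃ ix : Fin d → Fin N, (stdB d).det (fun k => v (ix k)) ≠ 0 := by
  obtain ⟨f, hf, _, hli⟩ := Submodule.exists_fun_fin_finrank_span_eq ℝ (Set.range v)
  have hd : finrank ℝ (Submodule.span ℝ (Set.range v)) = d := by
    rw [hspan, finrank_top, finrank_euclideanSpace_fin]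
  choose g hg using hf
  refine ⟨fun k => g (Fin.cast hd.symm k), ?_⟩
  have hli' : LinearIndependent ℝ fun k : Fin d => v (g (Fin.cast hd.symm k)) := by
    have e : (fun k : Fin d => v (g (Fin.cast hd.symm k))) = f ∘ Fin.cast hd.symm := by
      funext k
      exact hg _
    rw [e]
    exact hli.comp (Fin.cast hd.symm) (Fin.cast_injective _)
  have hsp := hli'.span_eq_top_of_card_eq_finrank' (by simp)
  exact ((stdB d).is_basis_iff_det.1 ⟨hli', hsp⟩).ne_zero

theorem exists_max_frame (v : Fin N → EuclideanSpace ℝ (Fin d))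
    (hspan : Submodule.span ℝ (Set.range v) = ⊤) :
    ∃ Y : Fin d → Fin N → ℝ, (∀ k i, |Y k i| ≤ 1) ∧
      (stdB d).det (fun k => cmb v (Y k)) ≠ 0 ∧
      ∀ Y' : Fin d → Fin N → ℝ, (∀ k i, |Y' k i| ≤ 1) →
        |(stdB d).det (fun k => cmb v (Y' k))| ≤ |(stdB d).det (fun k => cmb v (Y k))| := by
  classical
  set K : Set (Fin d → Fin N → ℝ) :=
    Set.pi Set.univ fun _ => Set.pi Set.univ fun _ => Set.Icc (-1) 1 with hK
  have hmem : ∀ Y : Fin d → Fin N → ℝ, Y ∈ K ↔ ∀ k i, |Y k i| ≤ 1 := by
    intro Y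
    simp only [hK, Set.mem_pi, Set.mem_univ, true_implies, Set.mem_Icc, abs_le]
  have hKc : IsCompact K := isCompact_univ_pi fun _ => isCompact_univ_pi fun _ => isCompact_Icc
  obtain ⟨ix, hix⟩ := exists_independent v hspan
  set Y0 : Fin d → Fin N → ℝ := fun k i => if i = ix k then 1 else 0 with hY0
  have hY0K : Y0 ∈ K := by
    rw [hmem]
    intro k i
    simp only [hY0]
    split_ifs <;> simp
  have hcmb : ∀ k, cmb v (Y0 k) = v (ix k) := by
    intro k
    simp [cmb, hY0]
  obtain ⟨Y, hYK, hY⟩ := hKc.exists_isMaxOn ⟨Y0, hY0K⟩ (continuous_det_cmb v).abs.continuousOn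
  refine ⟨Y, (hmem Y).1 hYK, ?_, fun Y' hY' => hY ((hmem Y').2 hY')⟩
  have h1 : |(stdB d).det (fun k => cmb v (Y0 k))| ≤ |(stdB d).det (fun k => cmb v (Y k))| :=
    hY hY0K
  simp only [hcmb] at h1
  intro h0
  rw [h0, abs_zero] at h1
  exact hix (abs_eq_zero.1 (le_antisymm h1 (abs_nonneg _)))

theorem frame_coords (v : Fin N → EuclideanSpace ℝ (Fin d)) (Y : Fin d → Fin N → ℝ)
    (hY : ∀ k i, |Y k i| ≤ 1) (hdet : (stdB d).det (fun k => cmb v (Y k)) ≠ 0)
    (hmax : ∀ Y' : Fin d → Fin N → ℝ, (∀ k i, |Y' k i| ≤ 1) →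
        |(stdB d).det (fun k => cmb v (Y' k))| ≤ |(stdB d).det (fun k => cmb v (Y k))|)
    (y : Fin N → ℝ) (hy : ∀ i, |y i| ≤ 1) :
    ∃ c : Fin d → ℝ, (∀ k, |c k| ≤ 1) ∧ cmb v y = ∑ k, c k • cmb v (Y k) := by
  classical
  obtain ⟨hli, hsp⟩ := (stdB d).is_basis_iff_det.2 (isUnit_iff_ne_zero.2 hdet)
  set B := Basis.mk hli hsp.ge with hB
  refine ⟨fun k => B.coord k (cmb v y), fun k => ?_, ?_⟩
  · have h1 := (stdB d).det_smul_mk_coord_eq_det_update hli hsp.ge k
    have h2 := LinearMap.congr_fun h1 (cmb v y)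
    simp only [LinearMap.smul_apply, smul_eq_mul, MultilinearMap.toLinearMap_apply] at h2
    have h3 : (Function.update (fun k => cmb v (Y k)) k (cmb v y)) =
        fun l => cmb v (Function.update Y k y l) := by
      funext l
      by_cases hl : l = k
      · subst hl; simp
      · simp [Function.update_of_ne hl]
    rw [h3] at h2
    have h4 := hmax (Function.update Y k y) (by
      intro l i
      by_cases hl : l = k
      · subst hl; simpa using hy i
      · simpa [Function.update_of_ne hl] using hY l i)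
    have h5 : |(stdB d).det (fun k => cmb v (Y k)) * B.coord k (cmb v y)| ≤
        |(stdB d).det (fun k => cmb v (Y k))| := by
      rw [h2]; exact h4
    rw [abs_mul] at h5
    have h6 : 0 < |(stdB d).det (fun k => cmb v (Y k))| := abs_pos.2 hdet
    exact le_of_mul_le_mul_left (by simpa using h5) h6
  · have := B.sum_repr (cmb v y)
    conv_lhs => rw [← this]
    apply Finset.sum_congr rfl
    intro k _
    simp [hB]

end Frame

/-- MODULE ROOT. -/
theorem root_data {d : ℕ} {N : ℕ} (v : Fin N → EuclideanSpace ℝ (Fin d))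
    (hspan : Submodule.span ℝ (Set.range v) = ⊤) :
    ∃ (b : OrthonormalBasis (Fin d) ℝ (EuclideanSpace ℝ (Fin d))) (a : Fin d → ℝ)
      (y : Fin d → Fin N → ℝ),
      Antitone a ∧ (∀ j, 0 < a j) ∧ (∀ j i, |y j i| ≤ 1) ∧
      (∀ j, ∑ i, y j i • v i = a j • b j) ∧ (∀ j, ∑ i, |inner ℝ (v i) (b j)| ≤ d * a j) := by
  classical
  obtain ⟨Y, hY, hdet, hmax⟩ := exists_max_frame v hspan
  set w : Fin d → EuclideanSpace ℝ (Fin d) := fun k => cmb v (Y k) with hw
  obtain ⟨hli, hsp⟩ := (stdB d).is_basis_iff_det.2 (isUnit_iff_ne_zero.2 hdet)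
  -- the frame operator
  set T : EuclideanSpace ℝ (Fin d) →ₗ[ℝ] EuclideanSpace ℝ (Fin d) :=
    ∑ k, (innerₛₗ ℝ (w k)).smulRight (w k) with hT
  have hTa : ∀ x, T x = ∑ k, (inner ℝ (w k) x : ℝ) • w k := by
    intro x
    simp [hT]
  have hTs : T.IsSymmetric := by
    intro x z
    rw [hTa, hTa, sum_inner, inner_sum]
    apply Finset.sum_congr rfl
    intro k _
    rw [inner_smul_left, inner_smul_right, real_inner_comm (w k) x]
    simp
    ring
  have hn : finrank ℝ (EuclideanSpace ℝ (Fin d)) = d := finrank_euclideanSpace_fin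
  set b := hTs.eigenvectorBasis hn with hb
  set g := hTs.eigenvalues hn with hg
  have hTb : ∀ j, T (b j) = g j • b j := fun j => hTs.apply_eigenvectorBasis hn j
  have hgsum : ∀ j, g j = ∑ k, (inner ℝ (w k) (b j)) ^ 2 := by
    intro j
    have h1 : inner ℝ (T (b j)) (b j) = g j := by
      rw [hTb, inner_smul_left, real_inner_self_eq_norm_sq, b.norm_eq_one]
      simp
    rw [← h1, hTa, sum_inner]
    apply Finset.sum_congr rfl
    intro k _
    rw [inner_smul_left]
    simp [sq]
  have hgpos : ∀ j, 0 < g j := by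
    intro j
    rw [hgsum]
    apply lt_of_le_of_ne (Finset.sum_nonneg fun _ _ => sq_nonneg _)
    intro h0
    have h1 : ∀ k, inner ℝ (w k) (b j) = 0 := by
      intro k
      have := (Finset.sum_eq_zero_iff_of_nonneg (fun _ _ => sq_nonneg _)).1 h0.symm k
        (Finset.mem_univ k)
      exact pow_eq_zero_iff (two_ne_zero) |>.1 this
    have h2 : b j = 0 := by
      have h3 : b j ∈ Submodule.span ℝ (Set.range w) := by rw [hsp]; trivial
      have h4 : ∀ x ∈ Submodule.span ℝ (Set.range w), inner ℝ x (b j) = 0 := by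
        intro x hx
        induction hx using Submodule.span_induction with
        | mem x hx => obtain ⟨k, rfl⟩ := hx; exact h1 k
        | zero => simp
        | add x z _ _ hx hz => rw [inner_add_left, hx, hz, add_zero]
        | smul c x _ hx => rw [inner_smul_left, hx, mul_zero]
      exact inner_self_eq_zero.1 (h4 _ h3)
    have h5 := b.norm_eq_one j
    rw [h2, norm_zero] at h5
    exact zero_ne_one h5
  set β : Fin d → ℝ := fun j => Real.sqrt (g j) with hβ
  have hβpos : ∀ j, 0 < β j := fun j => Real.sqrt_pos.2 (hgpos j)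
  have hβsq : ∀ j, β j ^ 2 = g j := fun j => Real.sq_sqrt (hgpos j).le
  have hCS : ∀ j, ∑ k, |inner ℝ (w k) (b j)| ≤ Real.sqrt d * β j := by
    intro j
    have h1 : (∑ k, |inner ℝ (w k) (b j)|) ^ 2 ≤ (d : ℝ) * g j := by
      have h2 := sq_sum_le_card_mul_sum_sq (s := (Finset.univ : Finset (Fin d)))
        (f := fun k => |inner ℝ (w k) (b j)|)
      simp only [Finset.card_univ, Fintype.card_fin, sq_abs] at h2
      rw [hgsum]
      exact h2
    have h3 : (∑ k, |inner ℝ (w k) (b j)|) ≤ Real.sqrt ((d : ℝ) * g j) :=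
      Real.le_sqrt_of_sq_le h1
    rwa [Real.sqrt_mul (Nat.cast_nonneg d)] at h3
  have hdpos : ∀ _ : Fin d, (0 : ℝ) < d := fun j => Nat.cast_pos.2 (Fin.pos j)
  have hsd : ∀ _ : Fin d, 0 < Real.sqrt d := fun j => Real.sqrt_pos.2 (hdpos j)
  have hsdsq : Real.sqrt d * Real.sqrt d = d := Real.mul_self_sqrt (Nat.cast_nonneg d)
  -- the weights and the fields
  refine ⟨b, fun j => β j / Real.sqrt d,
    fun j i => ∑ k, (β j / Real.sqrt d / g j * inner ℝ (w k) (b j)) * Y k i, ?_, ?_, ?_, ?_, ?_⟩
  · intro i j hij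
    have h1 : g j ≤ g i := hTs.eigenvalues_antitone hn hij
    exact div_le_div_of_nonneg_right (Real.sqrt_le_sqrt h1) (Real.sqrt_nonneg _)
  · intro j
    exact div_pos (hβpos j) (hsd j)
  · intro j i
    calc |∑ k, (β j / Real.sqrt d / g j * inner ℝ (w k) (b j)) * Y k i|
        ≤ ∑ k, |(β j / Real.sqrt d / g j * inner ℝ (w k) (b j)) * Y k i| :=
          Finset.abs_sum_le_sum_abs _ _
      _ ≤ ∑ k, β j / Real.sqrt d / g j * |inner ℝ (w k) (b j)| := by
          apply Finset.sum_le_sum
          intro k _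
          rw [abs_mul, abs_mul, abs_of_pos (div_pos (div_pos (hβpos j) (hsd j)) (hgpos j))]
          have h0 : 0 ≤ β j / Real.sqrt d / g j * |inner ℝ (w k) (b j)| :=
            mul_nonneg (div_pos (div_pos (hβpos j) (hsd j)) (hgpos j)).le (abs_nonneg _)
          calc _ ≤ β j / Real.sqrt d / g j * |inner ℝ (w k) (b j)| * 1 :=
                mul_le_mul_of_nonneg_left (hY k i) h0
            _ = _ := mul_one _
      _ = β j / Real.sqrt d / g j * ∑ k, |inner ℝ (w k) (b j)| := by rw [Finset.mul_sum]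
      _ ≤ β j / Real.sqrt d / g j * (Real.sqrt d * β j) :=
          mul_le_mul_of_nonneg_left (hCS j) (div_pos (div_pos (hβpos j) (hsd j)) (hgpos j)).le
      _ = 1 := by
          rw [← hβsq j]
          have h1 := (hβpos j).ne'
          have h2 := (hsd j).ne'
          field_simp
  · intro j
    have h1 : b j = (g j)⁻¹ • ∑ k, (inner ℝ (w k) (b j) : ℝ) • w k := by
      rw [← hTa, hTb, smul_smul, inv_mul_cancel₀ (hgpos j).ne', one_smul]
    conv_rhs => rw [h1]
    rw [smul_smul, Finset.smul_sum]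
    simp only [hw, cmb, Finset.smul_sum, smul_smul, Finset.sum_smul]
    rw [Finset.sum_comm]
    apply Finset.sum_congr rfl
    intro k _
    apply Finset.sum_congr rfl
    intro i _
    congr 1
    ring
  · intro j
    set z : Fin N → ℝ := fun i => if 0 ≤ inner ℝ (v i) (b j) then 1 else -1 with hz
    have hz1 : ∀ i, |z i| ≤ 1 := by
      intro i
      simp only [hz]
      split_ifs <;> simp
    obtain ⟨c, hc1, hc2⟩ := frame_coords v Y hY hdet hmax z hz1
    have h1 : ∑ i, |inner ℝ (v i) (b j)| = inner ℝ (cmb v z) (b j) := by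
      rw [cmb, sum_inner]
      apply Finset.sum_congr rfl
      intro i _
      rw [inner_smul_left]
      simp only [hz, conj_trivial]
      split_ifs with h
      · rw [abs_of_nonneg h, one_mul]
      · rw [abs_of_neg (not_le.1 h)]; ring
    rw [h1, hc2, sum_inner]
    calc ∑ k, inner ℝ (c k • cmb v (Y k)) (b j)
        ≤ ∑ k, |inner ℝ (w k) (b j)| := by
          apply Finset.sum_le_sum
          intro k _
          rw [inner_smul_left]
          simp only [conj_trivial]
          calc c k * inner ℝ (cmb v (Y k)) (b j) ≤ |c k * inner ℝ (cmb v (Y k)) (b j)| :=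
                le_abs_self _
            _ = |c k| * |inner ℝ (w k) (b j)| := abs_mul _ _
            _ ≤ 1 * |inner ℝ (w k) (b j)| := mul_le_mul_of_nonneg_right (hc1 k) (abs_nonneg _)
            _ = _ := one_mul _
      _ ≤ Real.sqrt d * β j := hCS j
      _ = d * (β j / Real.sqrt d) := by
          have h2 := (hsd j).ne'
          rw [← mul_div_assoc, eq_div_iff h2]
          calc Real.sqrt d * β j * Real.sqrt d = (Real.sqrt d * Real.sqrt d) * β j := by ring
            _ = d * β j := by rw [hsdsq]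

end Vale.Agent.Steinitz
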