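import Mathlib
import Vale.Agent.Lib.Steinitz.Defs

/-!
# P262, module ROUNDING

Rounding of a fractional point of the cube: a vertex argument, then Bárány–Grinberg/
Banaszczyk-type phases with average-norm directions.
-/

namespace Vale.Agent.Steinitz

open Finset

/-- the fractional coordinates of `x` in `L` -/
noncomputable def frac {ι : Type*} (L : Finset ι) (x : ι → ℝ) : Finset ι :=
  L.filter (fun i => 0 < x i ∧ x i < 1)

theorem mem_frac {ι : Type*} {L : Finset ι} {x : ι → ℝ} {i : ι} :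
    i ∈ frac L x ↔ i ∈ L ∧ 0 < x i ∧ x i < 1 := by
  simp [frac]

theorem move {ι : Type*} (L : Finset ι) (x δ : ι → ℝ) (hx : ∀ i ∈ L, 0 ≤ x i ∧ x i ≤ 1)
    (hδ : ∀ i, i ∉ frac L x → δ i = 0) (hne : ∃ i, δ i ≠ 0) :
    ∃ t : ℝ, 0 < t ∧ (∀ i ∈ L, 0 ≤ x i + t * δ i ∧ x i + t * δ i ≤ 1) ∧
      frac L (fun i => x i + t * δ i) ⊂ frac L x := by
  classical
  set S := (frac L x).filter (fun i => δ i ≠ 0) with hS
  set T : ι → ℝ := fun i => if 0 < δ i then (1 - x i) / δ i else x i / (- δ i) with hT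
  have hSne : S.Nonempty := by
    obtain ⟨i, hi⟩ := hne
    refine ⟨i, ?_⟩
    rw [hS, mem_filter]
    refine ⟨?_, hi⟩
    by_contra h
    exact hi (hδ i h)
  obtain ⟨i0, hi0, hmin⟩ := S.exists_min_image T hSne
  have hmem : ∀ i ∈ S, 0 < T i ∧ (∀ t, 0 < t → t ≤ T i → 0 ≤ x i + t * δ i ∧ x i + t * δ i ≤ 1) ∧
      (x i + T i * δ i = 0 ∨ x i + T i * δ i = 1) := by
    intro i hi
    rw [hS, mem_filter, mem_frac] at hi
    obtain ⟨⟨_, h0, h1⟩, hne⟩ := hi
    rcases lt_or_gt_of_ne hne with hneg | hpos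
    · have hT' : T i = x i / (- δ i) := by simp [hT, not_lt.mpr hneg.le]
      have hd : 0 < - δ i := by linarith
      refine ⟨by rw [hT']; positivity, ?_, ?_⟩
      · intro t ht htT
        rw [hT', le_div_iff₀ hd] at htT
        constructor
        · nlinarith
        · nlinarith
      · left
        rw [hT']
        field_simp
        ring
    · have hT' : T i = (1 - x i) / δ i := by simp [hT, hpos]
      refine ⟨by rw [hT']; exact div_pos (by linarith) hpos, ?_, ?_⟩
      · intro t ht htT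
        rw [hT', le_div_iff₀ hpos] at htT
        constructor
        · nlinarith
        · nlinarith
      · right
        rw [hT']
        field_simp
        ring
  have h0 := hmem i0 hi0
  have hin : ∀ i ∈ L, 0 ≤ x i + T i0 * δ i ∧ x i + T i0 * δ i ≤ 1 := by
    intro i hi
    by_cases h : i ∈ S
    · exact (hmem i h).2.1 _ h0.1 (hmin i h)
    · have : δ i = 0 := by
        by_contra hne'
        apply h
        rw [hS, mem_filter]
        refine ⟨?_, hne'⟩
        by_contra h'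
        exact hne' (hδ i h')
      rw [this]
      simpa using hx i hi
  refine ⟨T i0, h0.1, hin, ?_⟩
  rw [Finset.ssubset_iff_subset_ne]
  have hsub : frac L (fun i => x i + T i0 * δ i) ⊆ frac L x := by
    intro i hi
    rw [mem_frac] at hi
    by_contra h
    have := hδ i h
    apply h
    rw [mem_frac]
    simpa [this] using hi
  refine ⟨hsub, ?_⟩
  intro heq
  have hi0' : i0 ∈ frac L x := by
    rw [hS, mem_filter] at hi0
    exact hi0.1
  rw [← heq, mem_frac] at hi0'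
  rcases h0.2.2 with h | h <;> simp only [h] at hi0' <;> norm_num at hi0'

/-- iteration of `move` -/
theorem iterate {ι : Type*} (L : Finset ι) (Q : (ι → ℝ) → Prop) (N : ℕ)
    (hstep : ∀ x : ι → ℝ, (∀ i ∈ L, 0 ≤ x i ∧ x i ≤ 1) → Q x → N < (frac L x).card →
      ∃ δ : ι → ℝ, (∀ i, i ∉ frac L x → δ i = 0) ∧ (∃ i, δ i ≠ 0) ∧
        ∀ t : ℝ, 0 < t → Q (fun i => x i + t * δ i)) :
    ∀ (n : ℕ) (x : ι → ℝ), (frac L x).card = n → (∀ i ∈ L, 0 ≤ x i ∧ x i ≤ 1) → Q x →
      ∃ x' : ι → ℝ, (∀ i ∈ L, 0 ≤ x' i ∧ x' i ≤ 1) ∧ Q x' ∧ (frac L x').card ≤ N := by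
  intro n
  induction n using Nat.strong_induction_on with
  | _ n ih =>
    intro x hn hx hQ
    by_cases hN : N < (frac L x).card
    · obtain ⟨δ, hδ, hne, hQ'⟩ := hstep x hx hQ hN
      obtain ⟨t, ht, hx', hss⟩ := move L x δ hx hδ hne
      have hlt := Finset.card_lt_card hss
      exact ih _ (hn ▸ hlt) _ rfl hx' (hQ' t ht)
    · exact ⟨x, hx, hQ, not_lt.mp hN⟩

/-- a nonzero vector supported on `F` in the kernel of fewer than `|F|` constraints, chosen
with an average-size image under `v` -/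
theorem good_dir {ι κ J : Type*} [Fintype κ] [Fintype J] (F : Finset ι)
    (v : ι → J → ℝ) (hv : ∀ i ∈ F, ∑ j, v i j ^ 2 ≤ 1) (c : ι → κ → ℝ)
    (h : 4 * Fintype.card κ ≤ 3 * F.card) (hF : 0 < F.card) :
    ∃ δ : ι → ℝ, (∀ i, i ∉ F → δ i = 0) ∧ (∃ i, δ i ≠ 0) ∧ (∀ k, ∑ i ∈ F, δ i * c i k = 0) ∧
      ∑ j, (∑ i ∈ F, δ i * v i j) ^ 2 ≤ 4 * ∑ i ∈ F, δ i ^ 2 := by
  classical
  let f : EuclideanSpace ℝ F →ₗ[ℝ] (κ → ℝ) :=
    { toFun := fun w k => ∑ i : F, w i * c i k
      map_add' := by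
        intro a b; ext k; simp [add_mul, Finset.sum_add_distrib]
      map_smul' := by
        intro a b; ext k; simp [mul_assoc, Finset.mul_sum] }
  set W := LinearMap.ker f with hW
  have hdim : F.card ≤ 4 * Module.finrank ℝ W := by
    have h1 := LinearMap.finrank_range_add_finrank_ker f
    have h2 : Module.finrank ℝ (LinearMap.range f) ≤ Fintype.card κ := by
      have := Submodule.finrank_le (LinearMap.range f)
      simpa using this
    have h3 : Module.finrank ℝ (EuclideanSpace ℝ F) = F.card := by simp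
    rw [h3] at h1
    change _ + Module.finrank ℝ W = _ at h1
    omega
  set b := stdOrthonormalBasis ℝ W with hb
  let b' : Fin (Module.finrank ℝ W) → EuclideanSpace ℝ F := fun k => (b k : EuclideanSpace ℝ F)
  have hb' : Orthonormal ℝ b' := by
    exact b.orthonormal.comp_linearIsometry W.subtypeₗᵢ
  let V : J → EuclideanSpace ℝ F := fun j => WithLp.toLp 2 (fun i : F => v i j)
  have hinner : ∀ (w : EuclideanSpace ℝ F) j, inner ℝ w (V j) = ∑ i : F, w i * v i j := by
    intro w j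
    simp [V, PiLp.inner_apply, mul_comm]
  have hbessel : ∀ j, ∑ k, (∑ i : F, b' k i * v i j) ^ 2 ≤ ∑ i : F, v i j ^ 2 := by
    intro j
    have h1 := hb'.sum_inner_products_le (V j) (s := Finset.univ)
    have h2 : ‖V j‖ ^ 2 = ∑ i : F, v i j ^ 2 := by
      rw [EuclideanSpace.norm_sq_eq]
      simp [V]
    rw [h2] at h1
    refine le_trans (le_of_eq ?_) h1
    refine Finset.sum_congr rfl fun k _ => ?_
    rw [hinner]
    simp
  have htot : ∑ k, ∑ j, (∑ i : F, b' k i * v i j) ^ 2 ≤ F.card := by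
    rw [Finset.sum_comm]
    calc ∑ j, ∑ k, (∑ i : F, b' k i * v i j) ^ 2 ≤ ∑ j, ∑ i : F, v i j ^ 2 :=
          Finset.sum_le_sum fun j _ => hbessel j
      _ = ∑ i : F, ∑ j, v i j ^ 2 := Finset.sum_comm
      _ ≤ ∑ _i : F, (1 : ℝ) := Finset.sum_le_sum fun i _ => hv i i.2
      _ = F.card := by simp
  have hpos : 0 < Module.finrank ℝ W := by omega
  have : Nonempty (Fin (Module.finrank ℝ W)) := ⟨⟨0, hpos⟩⟩
  obtain ⟨k, _, hk⟩ : ∃ k ∈ (Finset.univ : Finset (Fin (Module.finrank ℝ W))),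
      ∑ j, (∑ i : F, b' k i * v i j) ^ 2 ≤ 4 := by
    apply Finset.exists_le_of_sum_le Finset.univ_nonempty
    refine htot.trans ?_
    have : (F.card : ℝ) ≤ 4 * (Module.finrank ℝ W : ℝ) := by exact_mod_cast hdim
    simpa [mul_comm] using this
  refine ⟨fun i => if hi : i ∈ F then b' k ⟨i, hi⟩ else 0, ?_, ?_, ?_, ?_⟩
  · intro i hi
    simp [hi]
  · by_contra hcon
    push Not at hcon
    have hz : b' k = 0 := by
      ext i
      have := hcon i
      simpa using this
    have := hb'.1 k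
    rw [hz] at this
    simp at this
  · intro l
    have hmem : f (b' k) = 0 := (b k).2
    have := congrFun hmem l
    rw [← Finset.sum_attach]
    simpa [f] using this
  · have e1 : ∀ j, ∑ i ∈ F, (if hi : i ∈ F then b' k ⟨i, hi⟩ else 0) * v i j
        = ∑ i : F, b' k i * v i j := by
      intro j
      rw [← Finset.sum_attach]
      simp
    have e2 : ∑ i ∈ F, (if hi : i ∈ F then b' k ⟨i, hi⟩ else 0) ^ 2 = 1 := by
      rw [← Finset.sum_attach]
      have h1 : ‖b' k‖ ^ 2 = 1 := by rw [hb'.1 k]; simp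
      rw [EuclideanSpace.norm_sq_eq] at h1
      simpa using h1
    simp only [e1, e2]
    simpa using hk

theorem sum_supp {ι : Type*} {F L : Finset ι} (hFL : F ⊆ L) {δ : ι → ℝ}
    (hδ : ∀ i, i ∉ F → δ i = 0) (w : ι → ℝ) : ∑ i ∈ L, δ i * w i = ∑ i ∈ F, δ i * w i :=
  (Finset.sum_subset hFL fun i _ hi => by rw [hδ i hi, zero_mul]).symm

theorem frac_subset {ι : Type*} (L : Finset ι) (x : ι → ℝ) : frac L x ⊆ L :=
  Finset.filter_subset _ _

/-- more unknowns than constraints -/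
theorem kernel_dir {ι κ : Type*} [Fintype κ] (F : Finset ι) (c : ι → κ → ℝ)
    (h : Fintype.card κ < F.card) :
    ∃ δ : ι → ℝ, (∀ i, i ∉ F → δ i = 0) ∧ (∃ i, δ i ≠ 0) ∧ (∀ k, ∑ i ∈ F, δ i * c i k = 0) := by
  classical
  let f : (F → ℝ) →ₗ[ℝ] (κ → ℝ) :=
    { toFun := fun w k => ∑ i : F, w i * c i k
      map_add' := by
        intro a b; ext k; simp [add_mul, Finset.sum_add_distrib]
      map_smul' := by
        intro a b; ext k; simp [mul_assoc, Finset.mul_sum] }
  have hker : LinearMap.ker f ≠ ⊥ := by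
    apply LinearMap.ker_ne_bot_of_finrank_lt
    simpa using h
  obtain ⟨w, hw, hw0⟩ := (Submodule.ne_bot_iff _).1 hker
  refine ⟨fun i => if hi : i ∈ F then w ⟨i, hi⟩ else 0, ?_, ?_, ?_⟩
  · intro i hi
    simp [hi]
  · by_contra hcon
    push Not at hcon
    apply hw0
    ext i
    have := hcon i
    simpa using this
  · intro k
    have := congrFun (LinearMap.mem_ker.1 hw) k
    rw [← Finset.sum_attach]
    simpa [f] using this

/-- the vertex stage: all constraints kept, at most `|κ|` fractional coordinates left -/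
theorem vertex {ι κ : Type*} [Fintype κ] (L : Finset ι) (x : ι → ℝ)
    (hx : ∀ i ∈ L, 0 ≤ x i ∧ x i ≤ 1) (c : ι → κ → ℝ) (u : ι → ℝ) :
    ∃ x' : ι → ℝ, (∀ i ∈ L, 0 ≤ x' i ∧ x' i ≤ 1) ∧ (frac L x').card ≤ Fintype.card κ ∧
      (∀ k, ∑ i ∈ L, (x' i - x i) * c i k = 0) ∧ ∑ i ∈ L, (x' i - x i) * u i ≤ 0 := by
  obtain ⟨x', h1, h2, h3⟩ := iterate L (fun y => (∀ k, ∑ i ∈ L, (y i - x i) * c i k = 0) ∧
    ∑ i ∈ L, (y i - x i) * u i ≤ 0) (Fintype.card κ) (by
      rintro y hy ⟨hyc, hyu⟩ hN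
      obtain ⟨δ, hδ, ⟨i0, hi0⟩, hδc⟩ := kernel_dir (frac L y) c hN
      have key : ∀ s : ℝ, s ≠ 0 → s * ∑ i ∈ L, δ i * u i ≤ 0 →
          ∃ δ : ι → ℝ, (∀ i, i ∉ frac L y → δ i = 0) ∧ (∃ i, δ i ≠ 0) ∧
        ∀ t : ℝ, 0 < t → ((∀ k, ∑ i ∈ L, (y i + t * δ i - x i) * c i k = 0) ∧
          ∑ i ∈ L, (y i + t * δ i - x i) * u i ≤ 0) := by
        intro s hs hsu
        refine ⟨fun i => s * δ i, fun i hi => by simp [hδ i hi], ⟨i0, mul_ne_zero hs hi0⟩, ?_⟩
        intro t ht
        constructor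
        · intro k
          have e : ∑ i ∈ L, (y i + t * (s * δ i) - x i) * c i k
              = ∑ i ∈ L, (y i - x i) * c i k + t * s * ∑ i ∈ L, δ i * c i k := by
            rw [Finset.mul_sum, ← Finset.sum_add_distrib]
            exact Finset.sum_congr rfl fun i _ => by ring
          rw [e, hyc, sum_supp (frac_subset L y) hδ, hδc]
          simp
        · have e : ∑ i ∈ L, (y i + t * (s * δ i) - x i) * u i
              = ∑ i ∈ L, (y i - x i) * u i + t * (s * ∑ i ∈ L, δ i * u i) := by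
            rw [Finset.mul_sum, Finset.mul_sum, ← Finset.sum_add_distrib]
            exact Finset.sum_congr rfl fun i _ => by ring
          rw [e]
          have := mul_nonpos_of_nonneg_of_nonpos ht.le hsu
          linarith
      rcases le_total (∑ i ∈ L, δ i * u i) 0 with h | h
      · exact key 1 one_ne_zero (by simpa using h)
      · exact key (-1) (by norm_num) (by simpa using h))
    _ x rfl hx (by simp)
  exact ⟨x', h1, h3, h2.1, h2.2⟩

/-- one phase: the number of fractional coordinates is halved, the flagged coordinates do not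
change, the total change has square norm at most `2 N`. -/
theorem phase {ι J : Type*} [Fintype J] (L : Finset ι) (K : Finset J) (N : ℕ) (hN : 8 ≤ N)
    (hK : 8 * K.card ≤ N) (v : ι → J → ℝ) (hv : ∀ i ∈ L, ∑ j, v i j ^ 2 ≤ 1) (u : ι → ℝ)
    (x : ι → ℝ) (hx : ∀ i ∈ L, 0 ≤ x i ∧ x i ≤ 1) (hc : (frac L x).card ≤ 2 * N) :
    ∃ x' : ι → ℝ, (∀ i ∈ L, 0 ≤ x' i ∧ x' i ≤ 1) ∧ (frac L x').card ≤ N ∧
      (∀ i, i ∉ frac L x → x' i = x i) ∧
      (∀ j ∈ K, ∑ i ∈ L, (x' i - x i) * v i j = 0) ∧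
      ∑ j, (∑ i ∈ L, (x' i - x i) * v i j) ^ 2 ≤ 2 * N ∧
      ∑ i ∈ L, (x' i - x i) * u i ≤ 0 := by
  classical
  obtain ⟨x', h1, h2, h3⟩ := iterate L (fun y =>
      (frac L y ⊆ frac L x ∧ ∀ i, i ∉ frac L x → y i = x i) ∧
      (∀ j ∈ K, ∑ i ∈ L, (y i - x i) * v i j = 0) ∧
      ∑ j, (∑ i ∈ L, (y i - x i) * v i j) ^ 2 ≤
        4 * ∑ i ∈ L, ((y i - 1 / 2) ^ 2 - (x i - 1 / 2) ^ 2) ∧
      ∑ i ∈ L, (y i - x i) * u i ≤ 0) N (by
      rintro y hy ⟨⟨hyF, hyx⟩, hyK, hyE, hyu⟩ hN'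
      set E : J → ℝ := fun j => ∑ i ∈ L, (y i - x i) * v i j with hE
      let c : ι → (K ⊕ Fin 2) → ℝ := fun i k =>
        Sum.elim (fun j : K => v i j) (fun l : Fin 2 => if l = 0 then y i - 1 / 2
          else ∑ j, v i j * E j) k
      obtain ⟨δ, hδ, ⟨i0, hi0⟩, hδc, hδv⟩ := good_dir (frac L y) v
        (fun i hi => hv i (frac_subset L y hi)) c (by
          simp only [Fintype.card_sum, Fintype.card_coe, Fintype.card_fin]
          omega) (by omega)
      have hsub := frac_subset L y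
      have hδK : ∀ j ∈ K, ∑ i ∈ L, δ i * v i j = 0 := by
        intro j hj
        have := hδc (Sum.inl ⟨j, hj⟩)
        rw [sum_supp hsub hδ]
        simpa [c] using this
      have hδy : ∑ i ∈ L, δ i * (y i - 1 / 2) = 0 := by
        have := hδc (Sum.inr 0)
        rw [sum_supp hsub hδ]
        simpa [c] using this
      have hδE : ∑ j, E j * ∑ i ∈ L, δ i * v i j = 0 := by
        have := hδc (Sum.inr 1)
        have h2 : ∑ i ∈ L, δ i * ∑ j, v i j * E j = 0 := by
          rw [sum_supp hsub hδ]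
          simpa [c] using this
        rw [← h2]
        simp_rw [Finset.mul_sum]
        rw [Finset.sum_comm]
        exact Finset.sum_congr rfl fun i _ => Finset.sum_congr rfl fun j _ => by ring
      have hδv' : ∑ j, (∑ i ∈ L, δ i * v i j) ^ 2 ≤ 4 * ∑ i ∈ L, δ i ^ 2 := by
        have e1 : ∀ j, ∑ i ∈ L, δ i * v i j = ∑ i ∈ frac L y, δ i * v i j :=
          fun j => sum_supp hsub hδ _
        have e2 : ∑ i ∈ L, δ i ^ 2 = ∑ i ∈ frac L y, δ i ^ 2 := by
          have := sum_supp hsub hδ δ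
          simpa [sq] using this
        simp only [e1, e2]
        exact hδv
      have key : ∀ s : ℝ, s ^ 2 = 1 → s * ∑ i ∈ L, δ i * u i ≤ 0 →
          ∃ δ : ι → ℝ, (∀ i, i ∉ frac L y → δ i = 0) ∧ (∃ i, δ i ≠ 0) ∧
        ∀ t : ℝ, 0 < t → ((frac L (fun i => y i + t * δ i) ⊆ frac L x ∧
          ∀ i, i ∉ frac L x → y i + t * δ i = x i) ∧
          (∀ j ∈ K, ∑ i ∈ L, (y i + t * δ i - x i) * v i j = 0) ∧
          ∑ j, (∑ i ∈ L, (y i + t * δ i - x i) * v i j) ^ 2 ≤
            4 * ∑ i ∈ L, ((y i + t * δ i - 1 / 2) ^ 2 - (x i - 1 / 2) ^ 2) ∧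
          ∑ i ∈ L, (y i + t * δ i - x i) * u i ≤ 0) := by
        intro s hs hsu
        have hs0 : s ≠ 0 := by
          rintro rfl
          norm_num at hs
        refine ⟨fun i => s * δ i, fun i hi => by simp [hδ i hi], ⟨i0, mul_ne_zero hs0 hi0⟩, ?_⟩
        intro t ht
        have hoff : ∀ i, i ∉ frac L x → y i + t * (s * δ i) = x i := by
          intro i hi
          have : i ∉ frac L y := fun h => hi (hyF h)
          rw [hδ i this, hyx i hi]
          ring
        have hlin : ∀ w : ι → ℝ, ∑ i ∈ L, (y i + t * (s * δ i) - x i) * w i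
            = ∑ i ∈ L, (y i - x i) * w i + t * (s * ∑ i ∈ L, δ i * w i) := by
          intro w
          rw [Finset.mul_sum, Finset.mul_sum, ← Finset.sum_add_distrib]
          exact Finset.sum_congr rfl fun i _ => by ring
        refine ⟨⟨?_, hoff⟩, ?_, ?_, ?_⟩
        · intro i hi
          by_contra h
          have h' := hoff i h
          rw [mem_frac] at hi
          apply h
          rw [mem_frac]
          simp only [h'] at hi
          exact hi
        · intro j hj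
          rw [hlin, hyK j hj, hδK j hj]
          simp
        · have e1 : ∑ j, (∑ i ∈ L, (y i + t * (s * δ i) - x i) * v i j) ^ 2
              = ∑ j, (E j) ^ 2 + 2 * t * s * (∑ j, E j * ∑ i ∈ L, δ i * v i j)
                + t ^ 2 * s ^ 2 * ∑ j, (∑ i ∈ L, δ i * v i j) ^ 2 := by
            rw [Finset.mul_sum, Finset.mul_sum, ← Finset.sum_add_distrib,
              ← Finset.sum_add_distrib]
            refine Finset.sum_congr rfl fun j _ => ?_
            rw [hlin]
            ring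
          have e2 : ∑ i ∈ L, ((y i + t * (s * δ i) - 1 / 2) ^ 2 - (x i - 1 / 2) ^ 2)
              = ∑ i ∈ L, ((y i - 1 / 2) ^ 2 - (x i - 1 / 2) ^ 2)
                + 2 * t * s * ∑ i ∈ L, δ i * (y i - 1 / 2)
                + t ^ 2 * s ^ 2 * ∑ i ∈ L, δ i ^ 2 := by
            rw [Finset.mul_sum, Finset.mul_sum, ← Finset.sum_add_distrib,
              ← Finset.sum_add_distrib]
            exact Finset.sum_congr rfl fun i _ => by ring
          rw [e1, e2, hδE, hδy, hs]
          have ht2 : 0 ≤ t ^ 2 := sq_nonneg t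
          have := mul_le_mul_of_nonneg_left hδv' ht2
          simp only [mul_zero, add_zero, mul_one]
          linarith
        · rw [hlin]
          have := mul_nonpos_of_nonneg_of_nonpos ht.le hsu
          linarith
      rcases le_total (∑ i ∈ L, δ i * u i) 0 with h | h
      · exact key 1 (by norm_num) (by simpa using h)
      · exact key (-1) (by norm_num) (by simpa using h))
    _ x rfl hx ⟨⟨subset_rfl, fun _ _ => rfl⟩, by simp, by simp, by simp⟩
  refine ⟨x', h1, h3, h2.1.2, h2.2.1, h2.2.2.1.trans ?_, h2.2.2.2⟩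
  have hb : ∑ i ∈ L, ((x' i - 1 / 2) ^ 2 - (x i - 1 / 2) ^ 2) ≤ (frac L x).card * (1 / 4 : ℝ) := by
    rw [← nsmul_eq_mul, ← Finset.sum_const, ← Finset.sum_subset (frac_subset L x)
      (fun i _ hi => by rw [h2.1.2 i hi]; ring)]
    refine Finset.sum_le_sum fun i hi => ?_
    have h4 := h1 i (frac_subset L x hi)
    nlinarith [sq_nonneg (x i - 1 / 2)]
  have hc' : ((frac L x).card : ℝ) ≤ 2 * N := by exact_mod_cast hc
  linarith

/-- Minkowski's inequality, squared form -/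
theorem sum_add_sq_le {J : Type*} (s : Finset J) (a b : J → ℝ) {A B : ℝ} (hA : 0 ≤ A)
    (hB : 0 ≤ B) (ha : ∑ j ∈ s, a j ^ 2 ≤ A ^ 2) (hb : ∑ j ∈ s, b j ^ 2 ≤ B ^ 2) :
    ∑ j ∈ s, (a j + b j) ^ 2 ≤ (A + B) ^ 2 := by
  have h1 : (∑ j ∈ s, a j * b j) ^ 2 ≤ (A * B) ^ 2 := by
    refine (Finset.sum_mul_sq_le_sq_mul_sq s a b).trans ?_
    rw [mul_pow]
    exact mul_le_mul ha hb (Finset.sum_nonneg fun _ _ => sq_nonneg _) (sq_nonneg _)
  have h2 : ∑ j ∈ s, a j * b j ≤ A * B := abs_le_of_sq_le_sq' h1 (mul_nonneg hA hB) |>.2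
  have h3 : ∑ j ∈ s, (a j + b j) ^ 2
      = ∑ j ∈ s, a j ^ 2 + 2 * ∑ j ∈ s, a j * b j + ∑ j ∈ s, b j ^ 2 := by
    rw [Finset.mul_sum, ← Finset.sum_add_distrib, ← Finset.sum_add_distrib]
    exact Finset.sum_congr rfl fun j _ => by ring
  rw [h3]
  nlinarith

/-- rounding at most `8` fractional coordinates -/
theorem round_last {ι J : Type*} [Fintype J] (L : Finset ι) (v : ι → J → ℝ)
    (hv : ∀ i ∈ L, ∑ j, v i j ^ 2 ≤ 1) (u : ι → ℝ) (x : ι → ℝ)
    (hx : ∀ i ∈ L, 0 ≤ x i ∧ x i ≤ 1) (hc : (frac L x).card ≤ 8) :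
    ∃ ξ : ι → ℝ, (∀ i ∈ L, ξ i = 0 ∨ ξ i = 1) ∧ (∀ i, i ∉ frac L x → ξ i = x i) ∧
      ∑ j, (∑ i ∈ L, (ξ i - x i) * v i j) ^ 2 ≤ 8 ^ 2 ∧
      ∑ i ∈ L, (ξ i - x i) * u i ≤ 0 := by
  classical
  let ξ : ι → ℝ := fun i => if i ∈ frac L x then (if 0 ≤ u i then 0 else 1) else x i
  have hoff : ∀ i, i ∉ frac L x → ξ i = x i := fun i hi => by simp [ξ, hi]
  have hon : ∀ i ∈ frac L x, ξ i = 0 ∨ ξ i = 1 := by
    intro i hi
    by_cases h : 0 ≤ u i
    · left; simp [ξ, hi, h]
    · right; simp [ξ, hi, h]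
  have hδ : ∀ i, i ∉ frac L x → ξ i - x i = 0 := fun i hi => by rw [hoff i hi, sub_self]
  have hsub := frac_subset L x
  refine ⟨ξ, ?_, hoff, ?_, ?_⟩
  · intro i hi
    by_cases h : i ∈ frac L x
    · exact hon i h
    · rw [hoff i h]
      rw [mem_frac] at h
      have h' := hx i hi
      by_cases h0 : x i = 0
      · exact Or.inl h0
      · by_cases h1 : x i = 1
        · exact Or.inr h1
        · exact absurd ⟨hi, lt_of_le_of_ne h'.1 (Ne.symm h0), lt_of_le_of_ne h'.2 h1⟩ h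
  · have e1 : ∀ j, (∑ i ∈ L, (ξ i - x i) * v i j) ^ 2 ≤ 8 * ∑ i ∈ frac L x, v i j ^ 2 := by
      intro j
      rw [sum_supp (δ := fun i => ξ i - x i) hsub hδ]
      refine (Finset.sum_mul_sq_le_sq_mul_sq _ _ _).trans ?_
      refine mul_le_mul_of_nonneg_right ?_ (Finset.sum_nonneg fun _ _ => sq_nonneg _)
      calc ∑ i ∈ frac L x, (ξ i - x i) ^ 2 ≤ ∑ i ∈ frac L x, (1 : ℝ) := by
            refine Finset.sum_le_sum fun i hi => ?_
            have h' := hx i (hsub hi)
            rcases hon i hi with h | h <;> rw [h] <;> nlinarith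
        _ = (frac L x).card := by simp
        _ ≤ 8 := by exact_mod_cast hc
    calc ∑ j, (∑ i ∈ L, (ξ i - x i) * v i j) ^ 2 ≤ ∑ j, 8 * ∑ i ∈ frac L x, v i j ^ 2 :=
          Finset.sum_le_sum fun j _ => e1 j
      _ = 8 * ∑ i ∈ frac L x, ∑ j, v i j ^ 2 := by
          rw [← Finset.mul_sum, Finset.sum_comm]
      _ ≤ 8 * ∑ i ∈ frac L x, (1 : ℝ) := by
          refine mul_le_mul_of_nonneg_left ?_ (by norm_num)
          exact Finset.sum_le_sum fun i hi => hv i (hsub hi)
      _ = 8 * (frac L x).card := by simp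
      _ ≤ 8 * 8 := by
          refine mul_le_mul_of_nonneg_left ?_ (by norm_num)
          exact_mod_cast hc
      _ = 8 ^ 2 := by norm_num
  · rw [sum_supp (δ := fun i => ξ i - x i) hsub hδ]
    refine Finset.sum_nonpos fun i hi => ?_
    have h' := hx i (hsub hi)
    by_cases h : 0 ≤ u i
    · have : ξ i = 0 := by simp [ξ, hi, h]
      rw [this]
      nlinarith
    · have : ξ i = 1 := by simp [ξ, hi, h]
      rw [this]
      push Not at h
      nlinarith

/-- the flagged coordinates -/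
def flag (d g b : ℕ) : Finset (Fin d) :=
  Finset.univ.filter (fun j => j.val < g ∧ g ≤ j.val + 2 ^ b)

theorem card_flag (d g b : ℕ) : (flag d g b).card ≤ 2 ^ b := by
  have h : (flag d g b).card ≤ (Finset.Ico (g - 2 ^ b) g).card := by
    apply Finset.card_le_card_of_injOn (fun j => j.val)
    · intro j hj
      simp only [flag, Finset.coe_filter, Finset.mem_univ, true_and, Set.mem_ofPred_eq] at hj
      simp only [Finset.coe_Ico, Set.mem_Ico]
      omega
    · intro a _ b _ h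
      exact Fin.ext h
  refine h.trans ?_
  rw [Nat.card_Ico]
  have := Nat.one_le_two_pow (n := b)
  omega

theorem flag_mono (d g : ℕ) {b c : ℕ} (h : b ≤ c) : flag d g b ⊆ flag d g c := by
  intro j hj
  simp only [flag, Finset.mem_filter, Finset.mem_univ, true_and] at hj ⊢
  have := Nat.pow_le_pow_right (n := 2) (by norm_num) h
  omega

/-- all phases -/
theorem round_flags {ι : Type*} (L : Finset ι) {d : ℕ} (g : ℕ) (v : ι → Fin d → ℝ)
    (hv : ∀ i ∈ L, ∑ j, v i j ^ 2 ≤ 1) (u : ι → ℝ) (A : ℕ) :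
    ∀ x : ι → ℝ, (∀ i ∈ L, 0 ≤ x i ∧ x i ≤ 1) → (frac L x).card ≤ 2 ^ (A + 3) →
    ∃ ξ : ι → ℝ, (∀ i ∈ L, ξ i = 0 ∨ ξ i = 1) ∧ (∀ i, i ∉ frac L x → ξ i = x i) ∧
      (∀ b : ℕ, ∑ j ∈ flag d g b, (∑ i ∈ L, (ξ i - x i) * v i j) ^ 2 ≤
        (10 * (Real.sqrt 2) ^ (min b A)) ^ 2) ∧
      ∑ i ∈ L, (ξ i - x i) * u i ≤ 0 := by
  have hs2 : Real.sqrt 2 ^ 2 = 2 := Real.sq_sqrt (by norm_num)
  have hs14 : (1.4 : ℝ) ≤ Real.sqrt 2 := by
    apply Real.le_sqrt_of_sq_le
    norm_num
  have hs0 : 0 < Real.sqrt 2 := by positivity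
  induction A with
  | zero =>
    intro x hx hc
    obtain ⟨ξ, h1, h2, h3, h4⟩ := round_last L v hv u x hx (by simpa using hc)
    refine ⟨ξ, h1, h2, fun b => ?_, h4⟩
    calc ∑ j ∈ flag d g b, (∑ i ∈ L, (ξ i - x i) * v i j) ^ 2
        ≤ ∑ j, (∑ i ∈ L, (ξ i - x i) * v i j) ^ 2 :=
          Finset.sum_le_sum_of_subset_of_nonneg (Finset.subset_univ _)
            fun _ _ _ => sq_nonneg _
      _ ≤ 8 ^ 2 := h3
      _ ≤ (10 * (Real.sqrt 2) ^ (min b 0)) ^ 2 := by
          simp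
          norm_num
  | succ A ih =>
    intro x hx hc
    have h8 : 8 ≤ 2 ^ (A + 3) := by
      have := Nat.one_le_two_pow (n := A)
      rw [pow_add]
      omega
    obtain ⟨x', h1, h2, h3, h4, h5, h6⟩ := phase L (flag d g A) (2 ^ (A + 3)) h8 (by
      have := card_flag d g A
      rw [pow_add]
      omega) v hv u x hx (by
      rw [show A + 1 + 3 = (A + 3) + 1 by ring, pow_succ] at hc
      omega)
    obtain ⟨ξ, k1, k2, k3, k4⟩ := ih x' h1 h2
    have hfr : ∀ i, i ∉ frac L x → i ∉ frac L x' := by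
      intro i hi h
      rw [mem_frac, h3 i hi] at h
      exact hi (mem_frac.2 h)
    have hsum : ∀ w : ι → ℝ, ∑ i ∈ L, (ξ i - x i) * w i
        = ∑ i ∈ L, (x' i - x i) * w i + ∑ i ∈ L, (ξ i - x' i) * w i := by
      intro w
      rw [← Finset.sum_add_distrib]
      exact Finset.sum_congr rfl fun i _ => by ring
    refine ⟨ξ, k1, fun i hi => by rw [k2 i (hfr i hi), h3 i hi], fun b => ?_, ?_⟩
    · rcases le_or_gt b A with hb | hb
      · rw [min_eq_left (by omega)]
        have hk := k3 b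
        rw [min_eq_left hb] at hk
        refine le_trans (le_of_eq ?_) hk
        refine Finset.sum_congr rfl fun j hj => ?_
        rw [hsum, h4 j (flag_mono d g hb hj), zero_add]
      · rw [min_eq_right (by omega)]
        have hk := k3 b
        rw [min_eq_right (by omega)] at hk
        have hE : ∑ j ∈ flag d g b, (∑ i ∈ L, (x' i - x i) * v i j) ^ 2
            ≤ (4 * Real.sqrt 2 ^ A) ^ 2 := by
          refine (Finset.sum_le_sum_of_subset_of_nonneg (Finset.subset_univ _)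
            fun _ _ _ => sq_nonneg _).trans (h5.trans (le_of_eq ?_))
          rw [mul_pow, ← pow_mul, mul_comm A 2, pow_mul, hs2]
          push_cast
          ring
        have := sum_add_sq_le (flag d g b) (fun j => ∑ i ∈ L, (x' i - x i) * v i j)
          (fun j => ∑ i ∈ L, (ξ i - x' i) * v i j) (by positivity) (by positivity) hE hk
        simp only [hsum]
        refine this.trans ?_
        apply pow_le_pow_left₀ (by positivity)
        rw [pow_succ]
        have hp : 0 < Real.sqrt 2 ^ A := by positivity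
        nlinarith
    · rw [hsum]
      linarith

/-- MODULE ROUNDING. -/
theorem rounding {ι κ : Type*} [DecidableEq ι] [Fintype κ] (L : Finset ι) {d : ℕ} (g : ℕ)
    (hg : g ≤ d) (x : ι → ℝ) (hx : ∀ i ∈ L, 0 ≤ x i ∧ x i ≤ 1)
    (P : ι → κ → ℝ) (v : ι → Fin d → ℝ) (hv : ∀ i ∈ L, ∑ j, v i j ^ 2 ≤ 1) (u : ι → ℝ) :
    ∃ (ξ : ι → ℝ) (F : Finset ι), F ⊆ L ∧ F.card ≤ Fintype.card κ + d ∧
      (∀ i ∈ L, ξ i = 0 ∨ ξ i = 1) ∧
      (∀ p, |∑ i ∈ L, (ξ i - x i) * P i p| ≤ ∑ i ∈ F, |P i p|) ∧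
      (∀ j, |∑ i ∈ L, (ξ i - x i) * v i j| ≤ ∑ i ∈ F, |v i j|) ∧
      (∀ m : ℕ, m ≤ g → ∑ j : Fin d with m ≤ j.val ∧ j.val < g,
        (∑ i ∈ L, (ξ i - x i) * v i j) ^ 2 ≤ 700 * ((g : ℝ) - m)) ∧
      ∑ i ∈ L, (ξ i - x i) * u i ≤ 0 := by
  obtain ⟨x', h1, h2, h3, h4⟩ := vertex L x hx (fun i => Sum.elim (P i) (v i)) u
  obtain ⟨A, hA⟩ : ∃ A : ℕ, (frac L x').card ≤ 2 ^ (A + 3) :=
    ⟨(frac L x').card, (Nat.lt_two_pow_self).le.trans
      (Nat.pow_le_pow_right (by norm_num) (by omega))⟩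
  obtain ⟨ξ, k1, k2, k3, k4⟩ := round_flags L g v hv u A x' h1 hA
  have hsum : ∀ w : ι → ℝ, ∑ i ∈ L, (ξ i - x i) * w i
      = ∑ i ∈ L, (x' i - x i) * w i + ∑ i ∈ L, (ξ i - x' i) * w i := by
    intro w
    rw [← Finset.sum_add_distrib]
    exact Finset.sum_congr rfl fun i _ => by ring
  have hsub := frac_subset L x'
  have hδ : ∀ i, i ∉ frac L x' → ξ i - x' i = 0 := fun i hi => by rw [k2 i hi, sub_self]
  have habs : ∀ w : ι → ℝ, ∑ i ∈ L, (x' i - x i) * w i = 0 →
      |∑ i ∈ L, (ξ i - x i) * w i| ≤ ∑ i ∈ frac L x', |w i| := by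
    intro w hw
    rw [hsum, hw, zero_add, sum_supp (δ := fun i => ξ i - x' i) hsub hδ]
    refine (Finset.abs_sum_le_sum_abs _ _).trans (Finset.sum_le_sum fun i hi => ?_)
    rw [abs_mul]
    have h' := h1 i (hsub hi)
    have : |ξ i - x' i| ≤ 1 := by
      rcases k1 i (hsub hi) with h | h <;> rw [h, abs_le] <;> constructor <;> linarith
    exact mul_le_of_le_one_left (abs_nonneg _) this
  refine ⟨ξ, frac L x', hsub, by simpa using h2, k1, ?_, ?_, ?_, ?_⟩
  · intro p
    exact habs (fun i => P i p) (h3 (Sum.inl p))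
  · intro j
    exact habs (fun i => v i j) (h3 (Sum.inr j))
  · intro m hm
    rcases hm.eq_or_lt with rfl | hlt
    · rw [Finset.sum_eq_zero]
      · simp
      · intro j hj
        simp only [Finset.mem_filter, Finset.mem_univ, true_and] at hj
        omega
    · set b := Nat.clog 2 (g - m) with hb
      have hb1 : g - m ≤ 2 ^ b := Nat.le_pow_clog (by norm_num) _
      have hb2 : 2 ^ b ≤ 2 * (g - m) := by
        rcases Nat.lt_or_ge (g - m) 2 with h | h
        · have : g - m = 1 := by omega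
          rw [hb, this]
          simp
        · have h5 := Nat.pow_pred_clog_lt_self (b := 2) (by norm_num) (x := g - m) (by omega)
          have h6 : 0 < b := Nat.clog_pos (by norm_num) h
          obtain ⟨b', hb'⟩ := Nat.exists_eq_succ_of_ne_zero h6.ne'
          rw [← hb, hb'] at h5
          rw [hb', pow_succ]
          simp only [Nat.succ_eq_add_one, Nat.pred_succ] at h5
          omega
      have h7 : ∑ j : Fin d with m ≤ j.val ∧ j.val < g, (∑ i ∈ L, (ξ i - x i) * v i j) ^ 2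
          ≤ ∑ j ∈ flag d g b, (∑ i ∈ L, (ξ i - x' i) * v i j) ^ 2 := by
        have h8 : ∀ j, ∑ i ∈ L, (ξ i - x i) * v i j = ∑ i ∈ L, (ξ i - x' i) * v i j := by
          intro j
          have h3' : ∑ i ∈ L, (x' i - x i) * v i j = 0 := h3 (Sum.inr j)
          rw [hsum (fun i => v i j), h3', zero_add]
        simp only [h8]
        apply Finset.sum_le_sum_of_subset_of_nonneg
        · intro j hj
          simp only [flag, Finset.mem_filter, Finset.mem_univ, true_and] at hj ⊢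
          omega
        · intro _ _ _
          exact sq_nonneg _
      refine h7.trans ((k3 b).trans ?_)
      have hs2 : Real.sqrt 2 ^ 2 = 2 := Real.sq_sqrt (by norm_num)
      have hs1 : (1 : ℝ) ≤ Real.sqrt 2 := by
        apply Real.le_sqrt_of_sq_le
        norm_num
      have h9 : (10 * Real.sqrt 2 ^ (min b A)) ^ 2 ≤ (10 * Real.sqrt 2 ^ b) ^ 2 := by
        apply pow_le_pow_left₀ (by positivity)
        refine mul_le_mul_of_nonneg_left ?_ (by norm_num)
        exact pow_le_pow_right₀ hs1 (min_le_left _ _)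
      refine h9.trans ?_
      rw [mul_pow, ← pow_mul, mul_comm b 2, pow_mul, hs2]
      have h10 : ((2 : ℝ) ^ b) ≤ 2 * ((g : ℝ) - m) := by
        have : ((2 ^ b : ℕ) : ℝ) ≤ ((2 * (g - m) : ℕ) : ℝ) := by exact_mod_cast hb2
        rw [Nat.cast_mul, Nat.cast_sub hlt.le] at this
        simpa using this
      have h11 : (0 : ℝ) < (g : ℝ) - m := by
        have : (m : ℝ) < g := by exact_mod_cast hlt
        linarith
      nlinarith
  · rw [hsum]
    linarith

end Vale.Agent.Steinitz
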