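import Mathlib
import Vale.Agent.Lib.Steinitz.Defs
import Vale.Agent.Lib.Steinitz.Rounding

/-!
# P262, module TREE

From the one-level step to the ordering of the whole family.
-/

namespace Vale.Agent.Steinitz

open Finset

theorem sc_pos (k : ℕ) : 0 < sc k := by
  unfold sc; positivity

theorem cnt_le {d : ℕ} (a : Fin d → ℝ) (K : ℝ) (k : ℕ) : cnt a K k ≤ d := by
  unfold cnt
  exact (Finset.card_filter_le _ _).trans (by simp)

theorem D0_nonneg (d : ℕ) : 0 ≤ D0 d := by
  unfold D0; positivity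

theorem H1_nonneg (d : ℕ) : 0 ≤ H1 d := by
  have := D0_nonneg d
  unfold H1; positivity

theorem E1_nonneg (d : ℕ) : 0 ≤ E1 d := by
  have := D0_nonneg d
  have := H1_nonneg d
  unfold E1; positivity

theorem le_rho {ι : Type*} {d : ℕ} (a : Fin d → ℝ) (v : ι → Fin d → ℝ) (i : ι) (j : Fin d) :
    v i j ^ 2 / a j ≤ rho a v i :=
  le_ciSup (f := fun j => v i j ^ 2 / a j) (Set.finite_range _).bddAbove j

/-- the invariant holds at the root -/
theorem inv_root {ι : Type*} [DecidableEq ι] {d : ℕ} (hd : 1 ≤ d) {I : Finset ι}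
    {v : ι → Fin d → ℝ} {a : Fin d → ℝ} {y : Fin d → ι → ℝ} (hR : Root d I v a y)
    (hsum : ∀ j, ∑ i ∈ I, v i j = 0) (p : Par d a) (hp : p.Good) :
    Inv p v y 0 I (fun _ => 0) (fun _ => 0) := by
  have hsc : sc 0 = 1 := by simp [sc]
  refine ⟨?_, ?_, ?_, ?_, ?_, ?_⟩
  · intro j
    simp [hsum j]
  · intro j
    rw [Finset.sum_range_zero, mul_zero, add_zero, one_mul, hsc, one_mul]
    have h1 : ∑ i ∈ I with rho a v i < 1, |v i j| ≤ ∑ i ∈ I, |v i j| :=
      Finset.sum_le_sum_of_subset_of_nonneg (Finset.filter_subset _ _) fun _ _ _ => abs_nonneg _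
    have h2 := hR.weight j
    have h3 : 0 ≤ 5 * D0 d * min 1 (Real.sqrt (a j)) := by
      have := D0_nonneg d
      have : 0 ≤ min 1 (Real.sqrt (a j)) := le_min zero_le_one (Real.sqrt_nonneg _)
      positivity
    linarith
  · intro j l
    rw [hR.field, hsc, one_mul, sub_self, abs_zero, Finset.sum_range_zero]
    have := E1_nonneg d
    simpa using this
  · intro t
    rw [hsc, mul_one]
    have : Nonempty (Fin d) := ⟨⟨0, hd⟩⟩
    have h2t : (0 : ℝ) < 2 ^ t := by positivity
    have h1 : ∀ i ∈ I.filter (fun i => 2 ^ t ≤ rho a v i),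
        (1 : ℝ) ≤ ∑ j, |v i j| / (2 ^ t * a j) := by
      intro i hi
      rw [Finset.mem_filter] at hi
      obtain ⟨j, hj⟩ := exists_eq_ciSup_of_finite (f := fun j => v i j ^ 2 / a j)
      have h3 : 2 ^ t ≤ v i j ^ 2 / a j := by
        have := hi.2
        unfold rho at this
        rwa [← hj] at this
      have ha := hR.apos j
      rw [le_div_iff₀ ha] at h3
      have h4 : |v i j| ≤ 1 := by
        have h5 : v i j ^ 2 ≤ 1 :=
          (Finset.single_le_sum (f := fun j => v i j ^ 2) (fun _ _ => sq_nonneg _)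
            (Finset.mem_univ j)).trans (hR.norm_le i hi.1)
        rw [← sq_abs] at h5
        nlinarith [abs_nonneg (v i j)]
      have h6 : v i j ^ 2 ≤ |v i j| := by
        rw [← sq_abs]
        nlinarith [abs_nonneg (v i j)]
      have h7 : (1 : ℝ) ≤ |v i j| / (2 ^ t * a j) := by
        rw [le_div_iff₀ (by positivity)]
        linarith
      exact h7.trans (Finset.single_le_sum (f := fun j => |v i j| / (2 ^ t * a j))
        (fun j _ => div_nonneg (abs_nonneg _) (mul_nonneg h2t.le (hR.apos j).le))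
        (Finset.mem_univ j))
    have h8 : ((I.filter (fun i => 2 ^ t ≤ rho a v i)).card : ℝ) ≤ (d : ℝ) ^ 2 / 2 ^ t := by
      calc ((I.filter (fun i => 2 ^ t ≤ rho a v i)).card : ℝ)
          = ∑ i ∈ I with 2 ^ t ≤ rho a v i, (1 : ℝ) := by simp
        _ ≤ ∑ i ∈ I with 2 ^ t ≤ rho a v i, ∑ j, |v i j| / (2 ^ t * a j) :=
            Finset.sum_le_sum h1
        _ ≤ ∑ i ∈ I, ∑ j, |v i j| / (2 ^ t * a j) :=
            Finset.sum_le_sum_of_subset_of_nonneg (Finset.filter_subset _ _)
              fun i _ _ => Finset.sum_nonneg fun j _ =>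
                div_nonneg (abs_nonneg _) (mul_nonneg h2t.le (hR.apos j).le)
        _ = ∑ j, (∑ i ∈ I, |v i j|) / (2 ^ t * a j) := by
            rw [Finset.sum_comm]
            simp_rw [Finset.sum_div]
        _ ≤ ∑ j : Fin d, (d : ℝ) / 2 ^ t := by
            refine Finset.sum_le_sum fun j _ => ?_
            have ha := hR.apos j
            rw [div_le_div_iff₀ (by positivity) h2t]
            have := hR.weight j
            calc (∑ i ∈ I, |v i j|) * 2 ^ t ≤ (d * a j) * 2 ^ t := by gcongr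
              _ = d * (2 ^ t * a j) := by ring
        _ = (d : ℝ) ^ 2 / 2 ^ t := by
            simp
            ring
    have h9 : (d : ℝ) ^ 2 / 2 ^ t ≤ H1 d / 2 ^ t := by
      apply div_le_div_of_nonneg_right _ h2t.le
      unfold H1
      have := D0_nonneg d
      have h10 : 0 ≤ (d : ℝ) ^ 2 := sq_nonneg _
      have h11 : 0 ≤ 20 * (d : ℝ) * D0 d := by positivity
      linarith
    linarith
  · intro m hm
    have h1 := hp.M_zero
    have h2 : (m : ℝ) ≤ cnt a p.KH 0 := by exact_mod_cast hm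
    simp
    nlinarith
  · intro m hm
    have h1 := hp.M_zero
    have h2 : (m : ℝ) ≤ cnt a p.KH 0 := by exact_mod_cast hm
    simp
    nlinarith

/-- at a very deep level every sub-block has a small sum -/
theorem leaf {ι : Type*} [DecidableEq ι] {d : ℕ} {I : Finset ι}
    {v : ι → Fin d → ℝ} {a : Fin d → ℝ} {y : Fin d → ι → ℝ} (hR : Root d I v a y)
    (p : Par d a) (hp : p.Good) (Mf : ℝ) (hM : ∀ k, p.M k + 700 * d ≤ Mf) (k : ℕ)
    (B : Finset ι) (hB : B ⊆ I) (Sl Sr : Fin d → ℝ) (hinv : Inv p v y k B Sl Sr)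
    (hK : ∑ l, p.c4 * Real.sqrt (sc k * a l) ≤ 1) (hK' : ∀ l, sc k * a l ≤ 1)
    (hd : 1 ≤ d) (X : Finset ι) (hX : X ⊆ B) :
    ∑ j, (Sl j + ∑ i ∈ X, v i j) ^ 2 ≤ (Real.sqrt Mf + 2) ^ 2 := by
  have hH1 := H1_nonneg d
  have hD0 := D0_nonneg d
  have hd' : (1 : ℝ) ≤ d := by exact_mod_cast hd
  have hSl : ∑ j, Sl j ^ 2 ≤ Mf := by
    have h1 := hinv.Sl_le 0 (Nat.zero_le _)
    have h2 : (cnt a p.KH k : ℝ) ≤ d := by exact_mod_cast cnt_le a p.KH k
    have h3 : ∑ j : Fin d with 0 ≤ j.val, Sl j ^ 2 = ∑ j, Sl j ^ 2 := by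
      rw [Finset.filter_true_of_mem]
      intro _ _
      exact Nat.zero_le _
    rw [h3] at h1
    have h4 := hM k
    simp only [Nat.cast_zero, sub_zero] at h1
    linarith
  have hMf : 0 ≤ Mf := (Finset.sum_nonneg fun _ _ => sq_nonneg _).trans hSl
  set big : ι → Prop := fun i => 2 ^ p.T * sc k ≤ rho a v i with hbig
  have hc4 : 0 ≤ p.c4 := by
    refine le_trans ?_ hp.c4_ge
    positivity
  -- big part
  have hb : ∑ j, (∑ i ∈ X with 2 ^ p.T * sc k ≤ rho a v i, v i j) ^ 2 ≤ 1 ^ 2 := by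
    have h1 : ((X.filter (fun i => 2 ^ p.T * sc k ≤ rho a v i)).card : ℝ) < 2 := by
      have h2 := hinv.N p.T
      have h3 : ((X.filter (fun i => 2 ^ p.T * sc k ≤ rho a v i)).card : ℝ) ≤
          (B.filter (fun i => 2 ^ p.T * sc k ≤ rho a v i)).card := by
        exact_mod_cast Finset.card_le_card (Finset.filter_subset_filter _ hX)
      have h4 : H1 d / 2 ^ p.T < 1 := by
        rw [div_lt_one (by positivity)]
        exact hp.T_ge
      linarith
    have h1' : (X.filter (fun i => 2 ^ p.T * sc k ≤ rho a v i)).card < 2 := by exact_mod_cast h1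
    rcases (by omega : (X.filter (fun i => 2 ^ p.T * sc k ≤ rho a v i)).card = 0 ∨
      (X.filter (fun i => 2 ^ p.T * sc k ≤ rho a v i)).card = 1) with h0 | h0
    · rw [Finset.card_eq_zero.1 h0]; simp
    · obtain ⟨z, hz⟩ := Finset.card_eq_one.1 h0
      have hzX : z ∈ X := by
        have : z ∈ X.filter (fun i => 2 ^ p.T * sc k ≤ rho a v i) := by rw [hz]; simp
        exact (Finset.mem_filter.1 this).1
      rw [hz]
      simpa using hR.norm_le z (hB (hX hzX))
  -- the rest
  have hr : ∀ j, |∑ i ∈ X with ¬ (2 ^ p.T * sc k ≤ rho a v i), v i j|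
      ≤ p.c4 * Real.sqrt (sc k * a j) := by
    intro j
    have ha := hR.apos j
    have hsc := sc_pos k
    have hsa : 0 ≤ sc k * a j := by positivity
    set s := Real.sqrt (sc k * a j) with hs
    have hs0 : 0 ≤ s := Real.sqrt_nonneg _
    have hs2 : s ^ 2 = sc k * a j := Real.sq_sqrt hsa
    have hs1 : s ≤ 1 := by
      rw [hs]
      exact Real.sqrt_le_one.2 (hK' j)
    have h1 : |∑ i ∈ X with ¬ (2 ^ p.T * sc k ≤ rho a v i), v i j|
        ≤ ∑ i ∈ B with ¬ (2 ^ p.T * sc k ≤ rho a v i), |v i j| :=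
      (Finset.abs_sum_le_sum_abs _ _).trans (Finset.sum_le_sum_of_subset_of_nonneg
        (Finset.filter_subset_filter _ hX) fun _ _ _ => abs_nonneg _)
    have h2 : ∑ i ∈ B with ¬ (2 ^ p.T * sc k ≤ rho a v i), |v i j|
        ≤ ∑ i ∈ B with rho a v i < sc k, |v i j|
          + ∑ i ∈ B with 2 ^ 0 * sc k ≤ rho a v i, Real.sqrt (2 ^ p.T) * s := by
      rw [Finset.sum_filter, Finset.sum_filter, Finset.sum_filter, ← Finset.sum_add_distrib]
      refine Finset.sum_le_sum fun i hi => ?_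
      have hpos : 0 ≤ Real.sqrt (2 ^ p.T) * s := by positivity
      by_cases hlt : rho a v i < sc k
      · rw [if_pos hlt]
        have : ¬ (2 ^ 0 * sc k ≤ rho a v i) := by simpa using hlt
        rw [if_neg this, add_zero]
        split_ifs
        · exact abs_nonneg _
        · exact le_rfl
      · rw [if_neg hlt]
        have h5 : 2 ^ 0 * sc k ≤ rho a v i := by simpa using hlt
        rw [if_pos h5, zero_add]
        split_ifs with hb'
        · exact hpos
        · have h6 := le_rho a v i j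
          push Not at hb'
          have h7 : v i j ^ 2 / a j ≤ 2 ^ p.T * sc k := h6.trans hb'.le
          rw [div_le_iff₀ ha] at h7
          rw [← Real.sqrt_mul (by positivity)]
          apply Real.le_sqrt_of_sq_le
          rw [sq_abs]
          linarith
    have h3 := hinv.W j
    have h4 := hinv.N 0
    have h5 : (1 + 4 * ∑ k' ∈ range k, p.kap k') ≤ 2 := by
      have h6 := hp.kap_sum k
      have h7 : 1 / (32 * (d : ℝ) ^ 2) ≤ 1 / 4 := by
        rw [div_le_div_iff₀ (by positivity) (by norm_num)]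
        nlinarith
      linarith
    have h6 : min 1 s ≤ s := min_le_right _ _
    have h7 : s ^ 2 ≤ s := by nlinarith
    have h8 : ∑ i ∈ B with rho a v i < sc k, |v i j| ≤ (2 * d + 10 * D0 d) * s := by
      refine h3.trans ?_
      have h9 : 0 ≤ d * (sc k * a j) + 5 * D0 d * min 1 s := by
        have : 0 ≤ min 1 s := le_min zero_le_one hs0
        positivity
      calc (1 + 4 * ∑ k' ∈ range k, p.kap k') * (d * (sc k * a j) + 5 * D0 d * min 1 s)
          ≤ 2 * (d * (sc k * a j) + 5 * D0 d * min 1 s) := by gcongr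
        _ ≤ 2 * (d * s + 5 * D0 d * s) := by
            rw [← hs2]
            gcongr
        _ = (2 * d + 10 * D0 d) * s := by ring
    have h9 : ∑ i ∈ B with 2 ^ 0 * sc k ≤ rho a v i, Real.sqrt (2 ^ p.T) * s
        ≤ (1 + H1 d) * (Real.sqrt (2 ^ p.T) * s) := by
      rw [Finset.sum_const, nsmul_eq_mul]
      have : 0 ≤ Real.sqrt (2 ^ p.T) * s := by positivity
      refine mul_le_mul_of_nonneg_right ?_ this
      simpa using h4
    calc |∑ i ∈ X with ¬ (2 ^ p.T * sc k ≤ rho a v i), v i j|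
        ≤ (2 * d + 10 * D0 d) * s + (1 + H1 d) * (Real.sqrt (2 ^ p.T) * s) := by linarith
      _ = ((1 + H1 d) * Real.sqrt (2 ^ p.T) + 2 * d + 10 * D0 d) * s := by ring
      _ ≤ p.c4 * s := mul_le_mul_of_nonneg_right hp.c4_ge hs0
  have hr2 : ∑ j, (∑ i ∈ X with ¬ (2 ^ p.T * sc k ≤ rho a v i), v i j) ^ 2 ≤ 1 ^ 2 := by
    have hnn : ∀ j, 0 ≤ p.c4 * Real.sqrt (sc k * a j) := fun j => by positivity
    calc ∑ j, (∑ i ∈ X with ¬ (2 ^ p.T * sc k ≤ rho a v i), v i j) ^ 2
        ≤ ∑ j, (p.c4 * Real.sqrt (sc k * a j)) ^ 2 := by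
          refine Finset.sum_le_sum fun j _ => ?_
          exact sq_le_sq' (by linarith [neg_abs_le (∑ i ∈ X with
            ¬ (2 ^ p.T * sc k ≤ rho a v i), v i j), hr j]) ((le_abs_self _).trans (hr j))
      _ ≤ (∑ j, p.c4 * Real.sqrt (sc k * a j)) ^ 2 :=
          Finset.sum_sq_le_sq_sum_of_nonneg fun j _ => hnn j
      _ ≤ 1 ^ 2 := pow_le_pow_left₀ (Finset.sum_nonneg fun j _ => hnn j) hK 2
  have hS : ∑ j, Sl j ^ 2 ≤ (Real.sqrt Mf) ^ 2 := by rwa [Real.sq_sqrt hMf]
  have h1 := sum_add_sq_le Finset.univ _ _ (Real.sqrt_nonneg Mf) zero_le_one hS hb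
  have h2 := sum_add_sq_le Finset.univ _ _ (add_nonneg (Real.sqrt_nonneg Mf) zero_le_one)
    zero_le_one h1 hr2
  refine le_trans (le_of_eq ?_) (h2.trans (le_of_eq ?_))
  · refine Finset.sum_congr rfl fun j _ => ?_
    rw [add_assoc, Finset.sum_filter_add_sum_filter_not]
  · ring

/-- MODULE TREE (uses `step`). -/
theorem tree_order_of {ι : Type*} [DecidableEq ι] {d : ℕ} (hd : 1 ≤ d) {I : Finset ι}
    {v : ι → Fin d → ℝ} {a : Fin d → ℝ} {y : Fin d → ι → ℝ} (hR : Root d I v a y)
    (hsum : ∀ j, ∑ i ∈ I, v i j = 0) (p : Par d a) (hp : p.Good) (Mf : ℝ)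
    (hM : ∀ k, p.M k + 700 * d ≤ Mf)
    (hstep : ∀ (k : ℕ) (B : Finset ι) (_ : B ⊆ I) (Sl Sr : Fin d → ℝ)
      (_ : Inv p v y k B Sl Sr), ∃ B₁ ⊆ B, ∃ Sm : Fin d → ℝ,
        Inv p v y (k + 1) B₁ Sl Sm ∧ Inv p v y (k + 1) (B \ B₁) Sm Sr) :
    ∃ L : List ι, L.Nodup ∧ L.toFinset = I ∧
      ∀ n : ℕ, ∑ j, (((L.take n).map (fun i => v i j)).sum) ^ 2 ≤ (Real.sqrt Mf + 2) ^ 2 := by
  -- the depth
  obtain ⟨K, hK1, hK2⟩ : ∃ K : ℕ, ∑ l, p.c4 * Real.sqrt (sc K * a l) ≤ 1 ∧
      ∀ l, sc K * a l ≤ 1 := by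
    have h0 : Filter.Tendsto sc Filter.atTop (nhds 0) :=
      tendsto_pow_atTop_nhds_zero_of_lt_one (by norm_num) (by norm_num)
    have h1 : ∀ l, Filter.Tendsto (fun k => sc k * a l) Filter.atTop (nhds 0) := by
      intro l
      simpa using h0.mul_const (a l)
    have h2 : Filter.Tendsto (fun k => ∑ l, p.c4 * Real.sqrt (sc k * a l)) Filter.atTop
        (nhds 0) := by
      have : Filter.Tendsto (fun k => ∑ l, p.c4 * Real.sqrt (sc k * a l)) Filter.atTop
          (nhds (∑ _l : Fin d, (0 : ℝ))) := by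
        refine tendsto_finsetSum _ fun l _ => ?_
        have h3 := (Real.continuous_sqrt.tendsto 0).comp (h1 l)
        have h4 := h3.const_mul p.c4
        simpa using h4
      simpa using this
    have h5 : ∀ᶠ k in Filter.atTop, ∑ l, p.c4 * Real.sqrt (sc k * a l) ≤ 1 :=
      h2.eventually_le_const (by norm_num)
    have h6 : ∀ᶠ k in Filter.atTop, ∀ l, sc k * a l ≤ 1 :=
      Filter.eventually_all.2 fun l => (h1 l).eventually_le_const (by norm_num)
    exact (h5.and h6).exists
  -- downward induction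
  have key : ∀ m k : ℕ, k + m = K → ∀ (B : Finset ι), B ⊆ I → ∀ (Sl Sr : Fin d → ℝ),
      Inv p v y k B Sl Sr → ∃ L : List ι, L.Nodup ∧ L.toFinset = B ∧
      ∀ n : ℕ, ∑ j, (Sl j + ((L.take n).map (fun i => v i j)).sum) ^ 2
        ≤ (Real.sqrt Mf + 2) ^ 2 := by
    intro m
    induction m with
    | zero =>
      intro k hk B hB Sl Sr hinv
      have hkK : k = K := by omega
      subst hkK
      refine ⟨B.toList, B.nodup_toList, B.toList_toFinset, fun n => ?_⟩
      have h1 := leaf hR p hp Mf hM k B hB Sl Sr hinv hK1 hK2 hd (B.toList.take n).toFinset (by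
        intro i hi
        rw [List.mem_toFinset] at hi
        exact Finset.mem_toList.1 (List.mem_of_mem_take hi))
      have h2 : ∀ j, ∑ i ∈ (B.toList.take n).toFinset, v i j
          = ((B.toList.take n).map (fun i => v i j)).sum := fun j =>
        List.sum_toFinset _ (B.nodup_toList.sublist (List.take_sublist _ _))
      simp only [h2] at h1
      exact h1
    | succ m ih =>
      intro k hk B hB Sl Sr hinv
      obtain ⟨B₁, hB1, Sm, i1, i2⟩ := hstep k B hB Sl Sr hinv
      obtain ⟨L1, n1, t1, p1⟩ := ih (k + 1) (by omega) B₁ (hB1.trans hB) Sl Sm i1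
      obtain ⟨L2, n2, t2, p2⟩ := ih (k + 1) (by omega) (B \ B₁)
        (Finset.sdiff_subset.trans hB) Sm Sr i2
      refine ⟨L1 ++ L2, ?_, ?_, ?_⟩
      · rw [List.nodup_append]
        refine ⟨n1, n2, ?_⟩
        intro x hx z hz hxz
        subst hxz
        have h1 : x ∈ B₁ := by rw [← t1]; exact List.mem_toFinset.2 hx
        have h2 : x ∈ B \ B₁ := by rw [← t2]; exact List.mem_toFinset.2 hz
        exact (Finset.mem_sdiff.1 h2).2 h1
      · rw [List.toFinset_append, t1, t2]
        exact Finset.union_sdiff_of_subset hB1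
      · intro n
        rcases le_or_gt n L1.length with hn | hn
        · rw [List.take_append_of_le_length hn]
          exact p1 n
        · have h1 := p2 (n - L1.length)
          refine le_trans (le_of_eq ?_) h1
          refine Finset.sum_congr rfl fun j _ => ?_
          rw [List.take_append, List.take_of_length_le hn.le, List.map_append, List.sum_append,
            i1.sum j, ← t1, List.sum_toFinset _ n1]
          ring
  obtain ⟨L, n1, t1, p1⟩ := key K 0 (by omega) I subset_rfl _ _ (inv_root hd hR hsum p hp)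
  refine ⟨L, n1, t1, fun n => ?_⟩
  simpa using p1 n

end Vale.Agent.Steinitz
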