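import Mathlib
import Vale.Agent.Lib.Steinitz.Defs
import Vale.Agent.Lib.Steinitz.Rounding
import Vale.Agent.Lib.Steinitz.Tree
import Vale.Agent.Lib.Steinitz.RootData
import Vale.Agent.Lib.Steinitz.Params
import Vale.Agent.Lib.Steinitz.FinalAux

/-!
# P262, module FINAL, with the one-level step as a hypothesis
-/

namespace Vale.Agent.Steinitz

open Finset

/-- the order of a spanning family -/
theorem list_of_spanning {d : ℕ} (hd : 1 ≤ d) (Mf : ℝ)
    (hpar : ∀ (a : Fin d → ℝ), (∀ j, 0 < a j) → Antitone a →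
      ∃ p : Par d a, p.Good ∧ ∀ k, p.M k + 700 * d ≤ Mf)
    (N : ℕ)
    (hstep : ∀ {I : Finset (Fin N)} {v : Fin N → Fin d → ℝ} {a : Fin d → ℝ}
      {y : Fin d → Fin N → ℝ} (_ : Root d I v a y) (p : Par d a) (_ : p.Good) (k : ℕ)
      (B : Finset (Fin N)) (_ : B ⊆ I) (Sl Sr : Fin d → ℝ) (_ : Inv p v y k B Sl Sr),
      ∃ B₁ ⊆ B, ∃ Sm : Fin d → ℝ, Inv p v y (k + 1) B₁ Sl Sm ∧
        Inv p v y (k + 1) (B \ B₁) Sm Sr)
    (v : Fin N → EuclideanSpace ℝ (Fin d))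
    (hspan : Submodule.span ℝ (Set.range v) = ⊤) (hv : ∀ i, ‖v i‖ ≤ 1) (hs : ∑ i, v i = 0) :
    ∃ L : List (Fin N), L.Nodup ∧ (∀ i, i ∈ L) ∧
      ∀ n : ℕ, ‖((L.take n).map v).sum‖ ≤ Real.sqrt Mf + 2 := by
  obtain ⟨b, a, y, ha, ha0, hy, hfield, hweight⟩ := root_data v hspan
  obtain ⟨p, hp, hM⟩ := hpar a ha0 ha
  set w : Fin N → Fin d → ℝ := fun i j => inner ℝ (v i) (b j) with hw
  have hnorm : ∀ x : EuclideanSpace ℝ (Fin d), ∑ j, (inner ℝ x (b j) : ℝ) ^ 2 = ‖x‖ ^ 2 := by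
    intro x
    rw [← b.sum_sq_norm_inner_left x]
    simp
  have hR : Root d (Finset.univ : Finset (Fin N)) w a y := by
    refine ⟨?_, ha0, ha, fun j i _ => hy j i, ?_, ?_⟩
    · intro i _
      rw [hnorm]
      have := hv i
      have h0 := norm_nonneg (v i)
      nlinarith
    · intro j l
      have h1 : ∑ i, y j i * w i l = inner ℝ (∑ i, y j i • v i) (b l) := by
        rw [sum_inner]
        simp [hw, inner_smul_left]
      rw [h1, hfield, inner_smul_left, b.inner_eq_ite]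
      simp
    · intro j
      exact hweight j
  have hsum : ∀ j, ∑ i, w i j = 0 := by
    intro j
    have : ∑ i, w i j = inner ℝ (∑ i, v i) (b j) := by
      rw [sum_inner]
    rw [this, hs, inner_zero_left]
  obtain ⟨L, hL, hLt, hLn⟩ := tree_order_of hd hR hsum p hp Mf hM
    (fun k B hB Sl Sr h => hstep hR p hp k B hB Sl Sr h)
  refine ⟨L, hL, fun i => ?_, fun n => ?_⟩
  · rw [← List.mem_toFinset, hLt]
    exact Finset.mem_univ i
  · have h1 := hLn n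
    have h2 : ∀ j, ((L.take n).map (fun i => w i j)).sum
        = inner ℝ ((L.take n).map v).sum (b j) := by
      intro j
      generalize L.take n = l
      induction l with
      | nil => simp
      | cons x l ih =>
        rw [List.map_cons, List.sum_cons, List.map_cons, List.sum_cons, ih, inner_add_left]
    simp only [h2] at h1
    rw [hnorm] at h1
    exact (abs_le_of_sq_le_sq' h1 (by positivity)).2

/-- MODULE FINAL: the bound for all zero-sum families, given the one-level step. -/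
theorem steinitz_of {d : ℕ} (hd : 1 ≤ d) (Mf : ℝ)
    (hpar : ∀ (a : Fin d → ℝ), (∀ j, 0 < a j) → Antitone a →
      ∃ p : Par d a, p.Good ∧ ∀ k, p.M k + 700 * d ≤ Mf)
    (hstep : ∀ {N : ℕ} {I : Finset (Fin N)} {v : Fin N → Fin d → ℝ} {a : Fin d → ℝ}
      {y : Fin d → Fin N → ℝ} (_ : Root d I v a y) (p : Par d a) (_ : p.Good) (k : ℕ)
      (B : Finset (Fin N)) (_ : B ⊆ I) (Sl Sr : Fin d → ℝ) (_ : Inv p v y k B Sl Sr),
      ∃ B₁ ⊆ B, ∃ Sm : Fin d → ℝ, Inv p v y (k + 1) B₁ Sl Sm ∧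
        Inv p v y (k + 1) (B \ B₁) Sm Sr)
    (N : ℕ) (v : Fin N → EuclideanSpace ℝ (Fin d)) (hv : ∀ i, ‖v i‖ ≤ 1) (hs : ∑ i, v i = 0) :
    ∃ π : Equiv.Perm (Fin N), ∀ k : ℕ,
      ‖∑ i : Fin N with i.val < k, v (π i)‖ ≤ Real.sqrt Mf + 2 + Real.sqrt d :=
  perm_of_spanning _ (fun N v hspan hv hs =>
    list_of_spanning hd Mf hpar N (fun hR p hp k B hB Sl Sr h => hstep hR p hp k B hB Sl Sr h)
      v hspan hv hs) N v hv hs

/-- `S_2(d) ≤ C √(d log (d+1))`, given the one-level step. -/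
theorem steinitz_log_of
    (hstep : ∀ {d : ℕ} (_ : 1 ≤ d) {N : ℕ} {I : Finset (Fin N)} {v : Fin N → Fin d → ℝ}
      {a : Fin d → ℝ} {y : Fin d → Fin N → ℝ} (_ : Root d I v a y) (p : Par d a) (_ : p.Good)
      (k : ℕ) (B : Finset (Fin N)) (_ : B ⊆ I) (Sl Sr : Fin d → ℝ) (_ : Inv p v y k B Sl Sr),
      ∃ B₁ ⊆ B, ∃ Sm : Fin d → ℝ, Inv p v y (k + 1) B₁ Sl Sm ∧
        Inv p v y (k + 1) (B \ B₁) Sm Sr) :
    ∃ C : ℝ, ∀ d : ℕ, 1 ≤ d → ∀ (N : ℕ) (v : Fin N → EuclideanSpace ℝ (Fin d)),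
    (∀ i, ‖v i‖ ≤ 1) → ∑ i, v i = 0 →
    ∃ π : Equiv.Perm (Fin N), ∀ k : ℕ, k ≤ N →
      ‖∑ i : Fin N with i.val < k, v (π i)‖ ≤ C * Real.sqrt (d * Real.log (d + 1)) := by
  obtain ⟨C, hC, hpar⟩ := exists_par
  refine ⟨Real.sqrt C + 6, fun d hd N v hv hs => ?_⟩
  obtain ⟨π, hπ⟩ := steinitz_of hd (C * (d * Real.log (d + 1)))
    (fun a ha0 ha => hpar d hd a ha0 ha)
    (fun hR p hp k B hB Sl Sr h => hstep hd hR p hp k B hB Sl Sr h) N v hv hs
  refine ⟨π, fun k _ => (hπ k).trans ?_⟩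
  have hd1 : (1 : ℝ) ≤ d := by exact_mod_cast hd
  have hlog : (1 : ℝ) / 2 ≤ Real.log (d + 1) := by
    have h1 : Real.log 2 ≤ Real.log (d + 1) := Real.log_le_log (by norm_num) (by linarith)
    have h2 := Real.log_two_gt_d9
    linarith
  have hdl : (d : ℝ) / 2 ≤ d * Real.log (d + 1) := by nlinarith
  set X := d * Real.log (d + 1) with hX
  have hX0 : 0 ≤ X := by linarith
  have h1 : Real.sqrt (C * X) = Real.sqrt C * Real.sqrt X := Real.sqrt_mul hC.le X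
  have h2 : Real.sqrt d ≤ 2 * Real.sqrt X := by
    apply Real.sqrt_le_iff.2
    refine ⟨by positivity, ?_⟩
    rw [mul_pow, Real.sq_sqrt hX0]
    linarith
  have h3 : 1 ≤ Real.sqrt d := Real.one_le_sqrt.2 hd1
  have h4 : (2 : ℝ) ≤ 4 * Real.sqrt X := by linarith
  rw [h1]
  linarith

end Vale.Agent.Steinitz
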