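import Mathlib
import Vale.Agent.Lib.Steinitz.Defs
import Vale.Agent.Lib.Steinitz.Rounding

/-!
# P262, module HEAVY

Signs for the heavy elements of a block: sort by `ρ`, pair consecutive elements with opposite
signs and balance the pairs by `rounding`.
-/

namespace Vale.Agent.Steinitz

open Finset

/-- sorted pairing -/
theorem pairing {ι : Type*} [DecidableEq ι] (ρ : ι → ℝ) :
    ∀ (m : ℕ) (Hv : Finset ι), Hv.card = m →
    ∃ (n : ℕ) (p q : Fin n → ι) (Z : Finset ι), (∀ k, p k ∈ Hv) ∧ (∀ k, q k ∈ Hv) ∧ Z ⊆ Hv ∧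
      Z.card ≤ 1 ∧
      ∀ s : Fin n → ℝ, (∀ k, s k = 1 ∨ s k = -1) →
        ∃ ε : ι → ℝ, (∀ i ∈ Hv, ε i = 1 ∨ ε i = -1) ∧
          (∀ r : ℝ, |∑ i ∈ Hv with r ≤ ρ i, ε i| ≤ 1) ∧
          ∀ w : ι → ℝ, ∑ i ∈ Hv, ε i * w i = ∑ k, s k * (w (p k) - w (q k)) + ∑ i ∈ Z, w i := by
  intro m
  induction m using Nat.strong_induction_on with
  | _ m ih =>
    intro Hv hm
    by_cases h1 : Hv.card ≤ 1
    · refine ⟨0, Fin.elim0, Fin.elim0, Hv, fun k => k.elim0, fun k => k.elim0, subset_rfl, h1, ?_⟩
      intro s _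
      refine ⟨fun _ => 1, fun _ _ => Or.inl rfl, ?_, ?_⟩
      · intro r
        have : ((Hv.filter (fun i => r ≤ ρ i)).card : ℝ) ≤ 1 := by
          exact_mod_cast (Finset.card_filter_le _ _).trans h1
        simpa using this
      · intro w
        simp
    · push Not at h1
      have hne : Hv.Nonempty := Finset.card_pos.1 (by omega)
      obtain ⟨a, ha, hamax⟩ := Hv.exists_max_image ρ hne
      have hne' : (Hv.erase a).Nonempty := by
        apply Finset.card_pos.1
        rw [Finset.card_erase_of_mem ha]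
        omega
      obtain ⟨b, hb, hbmax⟩ := (Hv.erase a).exists_max_image ρ hne'
      have hba : b ≠ a := Finset.ne_of_mem_erase hb
      have hbH : b ∈ Hv := Finset.mem_of_mem_erase hb
      set H' := (Hv.erase a).erase b with hH'
      have hcard : H'.card < m := by
        rw [hH', Finset.card_erase_of_mem hb, Finset.card_erase_of_mem ha]
        omega
      obtain ⟨n, p, q, Z, hp, hq, hZ, hZ1, hs⟩ := ih _ hcard H' rfl
      have hsub : H' ⊆ Hv := (Finset.erase_subset _ _).trans (Finset.erase_subset _ _)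
      refine ⟨n + 1, Fin.cons a p, Fin.cons b q, Z, ?_, ?_, hZ.trans hsub, hZ1, ?_⟩
      · intro k
        refine Fin.cases ?_ (fun k => ?_) k
        · simpa using ha
        · simpa using hsub (hp k)
      · intro k
        refine Fin.cases ?_ (fun k => ?_) k
        · simpa using hbH
        · simpa using hsub (hq k)
      · intro s hs1
        obtain ⟨ε', e1, e2, e3⟩ := hs (fun k => s k.succ) (fun k => hs1 _)
        have hadd : ∀ f : ι → ℝ, ∑ i ∈ Hv, f i = f a + (f b + ∑ i ∈ H', f i) := by
          intro f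
          rw [hH', Finset.add_sum_erase _ _ hb, Finset.add_sum_erase _ _ ha]
        set ε : ι → ℝ := fun i => if i = a then s 0 else if i = b then - s 0 else ε' i with hε
        have εa : ε a = s 0 := by simp [hε]
        have εb : ε b = - s 0 := by simp [hε, hba]
        have hεe : ∀ i ∈ H', ε i = ε' i := by
          intro i hi
          rw [hH', Finset.mem_erase, Finset.mem_erase] at hi
          simp [hε, hi.1, hi.2.1]
        refine ⟨ε, ?_, ?_, ?_⟩
        · intro i hi
          by_cases hia : i = a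
          · rw [hia, εa]; exact hs1 0
          · by_cases hib : i = b
            · rw [hib, εb]
              rcases hs1 0 with h | h <;> rw [h] <;> simp
            · have : i ∈ H' := by
                rw [hH', Finset.mem_erase, Finset.mem_erase]
                exact ⟨hib, hia, hi⟩
              rw [hεe i this]
              exact e1 i this
        · intro r
          rw [Finset.sum_filter, hadd]
          have hs0 : |s 0| ≤ 1 := by rcases hs1 0 with h | h <;> rw [h] <;> simp
          by_cases hrb : r ≤ ρ b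
          · have hra : r ≤ ρ a := hrb.trans (hamax b hbH)
            have e4 : ∑ i ∈ H', (if r ≤ ρ i then ε i else 0)
                = ∑ i ∈ H' with r ≤ ρ i, ε' i := by
              rw [Finset.sum_filter]
              refine Finset.sum_congr rfl fun i hi => ?_
              rw [hεe i hi]
            rw [if_pos hrb, if_pos hra, εa, εb, e4]
            have := e2 r
            simpa using this
          · have e4 : ∑ i ∈ H', (if r ≤ ρ i then ε i else 0) = 0 := by
              refine Finset.sum_eq_zero fun i hi => ?_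
              have : ρ i ≤ ρ b := hbmax i (Finset.erase_subset _ _ hi)
              rw [if_neg (fun h => hrb (h.trans this))]
            rw [if_neg hrb, e4, εa]
            by_cases hra : r ≤ ρ a
            · rw [if_pos hra]
              simpa using hs0
            · rw [if_neg hra]
              simp
        · intro w
          have e5 : ∑ i ∈ H', ε i * w i = ∑ i ∈ H', ε' i * w i :=
            Finset.sum_congr rfl fun i hi => by rw [hεe i hi]
          rw [hadd, εa, εb, e5, e3, Fin.sum_univ_succ]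
          simp only [Fin.cons_zero, Fin.cons_succ]
          ring

/-- MODULE HEAVY (uses `rounding`). -/
theorem heavy_signs {ι : Type*} [DecidableEq ι] (Hv : Finset ι) (ρ : ι → ℝ) {d : ℕ} (h g : ℕ)
    (hh : h ≤ g) (hg : g ≤ d)
    (v : ι → Fin d → ℝ) (hv : ∀ i ∈ Hv, ∑ j, v i j ^ 2 ≤ 1) (u : ι → ℝ) :
    ∃ ε : ι → ℝ, (∀ i ∈ Hv, ε i = 1 ∨ ε i = -1) ∧
      (∀ r : ℝ, |∑ i ∈ Hv with r ≤ ρ i, ε i| ≤ 1) ∧
      ∑ j : Fin d with h ≤ j.val ∧ j.val < g, (∑ i ∈ Hv, ε i * v i j) ^ 2
        ≤ 100000 * ((g : ℝ) - h) ∧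
      ∑ i ∈ Hv, ε i * u i ≤ 0 := by
  obtain ⟨n, p, q, Z, hp, hq, hZ, hZ1, hs⟩ := pairing ρ _ Hv rfl
  obtain ⟨ξ, F, _, _, hξ, _, _, hround, _⟩ := rounding (κ := Empty) (Finset.univ : Finset (Fin n))
    g hg (fun _ => 1 / 2) (fun _ _ => by norm_num) (fun _ e => e.elim)
    (fun k j => (v (p k) j - v (q k) j) / 2) (by
      intro k _
      have h1 := hv _ (hp k)
      have h2 := hv _ (hq k)
      calc ∑ j, ((v (p k) j - v (q k) j) / 2) ^ 2
          ≤ ∑ j, (v (p k) j ^ 2 / 2 + v (q k) j ^ 2 / 2) := by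
            refine Finset.sum_le_sum fun j _ => ?_
            nlinarith [sq_nonneg (v (p k) j + v (q k) j)]
        _ = (∑ j, v (p k) j ^ 2) / 2 + (∑ j, v (q k) j ^ 2) / 2 := by
            rw [Finset.sum_add_distrib, Finset.sum_div, Finset.sum_div]
        _ ≤ 1 := by linarith) (fun _ => 0)
  obtain ⟨ε, e1, e2, e3⟩ := hs (fun k => 2 * ξ k - 1) (fun k => by
    rcases hξ k (Finset.mem_univ _) with h | h <;> rw [h] <;> norm_num)
  have e4 : ∑ j : Fin d with h ≤ j.val ∧ j.val < g, (∑ i ∈ Hv, ε i * v i j) ^ 2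
        ≤ 100000 * ((g : ℝ) - h) := by
    rcases hh.eq_or_lt with rfl | hlt
    · rw [Finset.sum_eq_zero]
      · simp
      · intro j hj
        simp only [Finset.mem_filter, Finset.mem_univ, true_and] at hj
        omega
    · have hgh : (1 : ℝ) ≤ (g : ℝ) - h := by
        have : ((h + 1 : ℕ) : ℝ) ≤ g := by exact_mod_cast hlt
        push_cast at this
        linarith
      have e5 : ∀ j, (∑ i ∈ Hv, ε i * v i j) ^ 2
          ≤ 32 * (∑ k : Fin n, (ξ k - 1 / 2) * ((v (p k) j - v (q k) j) / 2)) ^ 2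
            + 2 * (∑ i ∈ Z, v i j) ^ 2 := by
        intro j
        have : ∑ i ∈ Hv, ε i * v i j
            = 4 * (∑ k : Fin n, (ξ k - 1 / 2) * ((v (p k) j - v (q k) j) / 2))
              + ∑ i ∈ Z, v i j := by
          rw [e3, Finset.mul_sum]
          congr 1
          exact Finset.sum_congr rfl fun k _ => by ring
        rw [this]
        nlinarith [sq_nonneg (4 * (∑ k : Fin n, (ξ k - 1 / 2) * ((v (p k) j - v (q k) j) / 2))
              - ∑ i ∈ Z, v i j)]
      have e6 : ∑ j : Fin d with h ≤ j.val ∧ j.val < g, (∑ i ∈ Z, v i j) ^ 2 ≤ 1 := by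
        refine (Finset.sum_le_sum_of_subset_of_nonneg (Finset.subset_univ _)
          fun _ _ _ => sq_nonneg _).trans ?_
        rcases (by omega : Z.card = 0 ∨ Z.card = 1) with h0 | h0
        · rw [Finset.card_eq_zero.1 h0]; simp
        · obtain ⟨z, h'⟩ := Finset.card_eq_one.1 h0
          have hzH : z ∈ Hv := hZ (by rw [h']; simp)
          rw [h']
          simpa using hv z hzH
      calc ∑ j : Fin d with h ≤ j.val ∧ j.val < g, (∑ i ∈ Hv, ε i * v i j) ^ 2
          ≤ ∑ j : Fin d with h ≤ j.val ∧ j.val < g,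
            (32 * (∑ k : Fin n, (ξ k - 1 / 2) * ((v (p k) j - v (q k) j) / 2)) ^ 2
            + 2 * (∑ i ∈ Z, v i j) ^ 2) := Finset.sum_le_sum fun j _ => e5 j
        _ = 32 * (∑ j : Fin d with h ≤ j.val ∧ j.val < g,
            (∑ k : Fin n, (ξ k - 1 / 2) * ((v (p k) j - v (q k) j) / 2)) ^ 2)
            + 2 * ∑ j : Fin d with h ≤ j.val ∧ j.val < g, (∑ i ∈ Z, v i j) ^ 2 := by
          rw [Finset.sum_add_distrib, Finset.mul_sum, Finset.mul_sum]
        _ ≤ 32 * (700 * ((g : ℝ) - h)) + 2 * 1 := by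
          have := hround h hlt.le
          gcongr
        _ ≤ 100000 * ((g : ℝ) - h) := by linarith
  rcases le_total (∑ i ∈ Hv, ε i * u i) 0 with hu | hu
  · exact ⟨ε, e1, e2, e4, hu⟩
  · refine ⟨fun i => - ε i, ?_, ?_, ?_, ?_⟩
    · intro i hi
      rcases e1 i hi with h | h <;> simp [h]
    · intro r
      have := e2 r
      rwa [Finset.sum_neg_distrib, abs_neg]
    · simpa [Finset.sum_neg_distrib] using e4
    · simpa [Finset.sum_neg_distrib] using hu

end Vale.Agent.Steinitz
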