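import Mathlib
import Vale.Agent.Lib.Steinitz.Defs

/-!
# P262, module SOLVE

Solving a strictly diagonally dominant linear system.
-/

namespace Vale.Agent.Steinitz

open Finset

/-- MODULE SOLVE. -/
theorem solve_dd {h : ℕ} (A : Fin h → Fin h → ℝ) (r : Fin h → ℝ) (hr : ∀ l, 0 < r l)
    (d : ℕ) (hd : h ≤ d) (hA : ∀ l j, |A l j - (if l = j then r l else 0)| ≤ r l / (4 * d))
    (b : Fin h → ℝ) :
    ∃ c : Fin h → ℝ, (∀ l, ∑ j, c j * A l j = b l) ∧ ∀ j, |c j| ≤ 2 * ∑ l, |b l| / r l := by
  rcases Nat.eq_zero_or_pos h with rfl | hpos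
  · exact ⟨fun _ => 0, fun l => l.elim0, fun l => l.elim0⟩
  have hd0 : (0 : ℝ) < d := by exact_mod_cast hpos.trans_le hd
  have hhd : (h : ℝ) ≤ d := by exact_mod_cast hd
  set M : Matrix (Fin h) (Fin h) ℝ := Matrix.of fun l j => A l j / r l with hM
  have hM1 : ∀ l j, |M l j - (if l = j then 1 else 0)| ≤ 1 / (4 * d) := by
    intro l j
    have h1 := hA l j
    have h2 : M l j - (if l = j then 1 else 0) = (A l j - (if l = j then r l else 0)) / r l := by
      have := (hr l).ne'
      by_cases hlj : l = j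
      · simp only [hM, Matrix.of_apply, hlj, if_true]
        subst hlj
        field_simp
      · simp [hM, hlj]
    rw [h2, abs_div, abs_of_pos (hr l), div_le_iff₀ (hr l)]
    calc _ ≤ r l / (4 * d) := h1
      _ = 1 / (4 * d) * r l := by ring
  have hdet : M.det ≠ 0 := by
    apply det_ne_zero_of_sum_row_lt_diag
    intro k
    have h1 : 3 / 4 ≤ ‖M k k‖ := by
      have := hM1 k k
      rw [if_pos rfl, abs_le] at this
      have h4 : 1 / (4 * (d : ℝ)) ≤ 1 / 4 := by
        rw [div_le_div_iff₀ (by positivity) (by norm_num)]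
        have : (1 : ℝ) ≤ d := by exact_mod_cast (hpos.trans_le hd)
        linarith
      rw [Real.norm_eq_abs]
      have h5 : M k k ≤ |M k k| := le_abs_self _
      linarith [this.1]
    have h2 : ∑ j ∈ univ.erase k, ‖M k j‖ ≤ 1 / 4 := by
      calc ∑ j ∈ univ.erase k, ‖M k j‖ ≤ ∑ j ∈ univ.erase k, 1 / (4 * (d : ℝ)) := by
            refine Finset.sum_le_sum fun j hj => ?_
            have h3 := hM1 k j
            rw [if_neg (Finset.ne_of_mem_erase hj).symm, sub_zero] at h3
            exact h3
        _ ≤ ∑ j : Fin h, 1 / (4 * (d : ℝ)) :=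
            Finset.sum_le_sum_of_subset_of_nonneg (Finset.subset_univ _)
              fun _ _ _ => by positivity
        _ = h * (1 / (4 * (d : ℝ))) := by simp
        _ ≤ d * (1 / (4 * (d : ℝ))) := by gcongr
        _ = 1 / 4 := by field_simp
    linarith
  set c : Fin h → ℝ := M⁻¹.mulVec (fun l => b l / r l) with hc
  have hMc : M.mulVec c = fun l => b l / r l := by
    rw [hc, Matrix.mulVec_mulVec, Matrix.mul_nonsing_inv _ (isUnit_iff_ne_zero.2 hdet),
      Matrix.one_mulVec]
  have hrow : ∀ l, ∑ j, M l j * c j = b l / r l := by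
    intro l
    have := congrFun hMc l
    simpa [Matrix.mulVec, dotProduct] using this
  refine ⟨c, ?_, ?_⟩
  · intro l
    have h1 := hrow l
    rw [eq_div_iff (hr l).ne', Finset.sum_mul] at h1
    rw [← h1]
    refine Finset.sum_congr rfl fun j _ => ?_
    have := (hr l).ne'
    simp only [hM, Matrix.of_apply]
    field_simp
  · have : Nonempty (Fin h) := ⟨⟨0, hpos⟩⟩
    obtain ⟨l, hmax⟩ := Finite.exists_max (fun j => |c j|)
    have h1 : c l = b l / r l - ∑ j, (M l j - (if l = j then 1 else 0)) * c j := by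
      simp only [sub_mul, ite_mul, one_mul, zero_mul, Finset.sum_sub_distrib, hrow]
      simp
    have h2 : |∑ j, (M l j - (if l = j then 1 else 0)) * c j| ≤ 1 / 4 * |c l| := by
      calc |∑ j, (M l j - (if l = j then 1 else 0)) * c j|
          ≤ ∑ j, |(M l j - (if l = j then 1 else 0)) * c j| := Finset.abs_sum_le_sum_abs _ _
        _ ≤ ∑ j : Fin h, 1 / (4 * (d : ℝ)) * |c l| := by
            refine Finset.sum_le_sum fun j _ => ?_
            rw [abs_mul]
            exact mul_le_mul (hM1 l j) (hmax j) (abs_nonneg _) (by positivity)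
        _ = h * (1 / (4 * (d : ℝ)) * |c l|) := by simp
        _ ≤ d * (1 / (4 * (d : ℝ)) * |c l|) := by gcongr
        _ = 1 / 4 * |c l| := by field_simp
    have h3 : |c l| ≤ |b l| / r l + 1 / 4 * |c l| := by
      calc |c l| = |b l / r l - ∑ j, (M l j - (if l = j then 1 else 0)) * c j| := by rw [← h1]
        _ ≤ |b l / r l| + |∑ j, (M l j - (if l = j then 1 else 0)) * c j| := abs_sub _ _
        _ ≤ |b l| / r l + 1 / 4 * |c l| := by
            rw [abs_div, abs_of_pos (hr l)]
            linarith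
    have h4 : |b l| / r l ≤ ∑ l, |b l| / r l :=
      Finset.single_le_sum (f := fun l => |b l| / r l)
        (fun i _ => div_nonneg (abs_nonneg _) (hr i).le) (Finset.mem_univ l)
    have h5 : 0 ≤ |b l| / r l := div_nonneg (abs_nonneg _) (hr l).le
    intro j
    linarith [hmax j]

end Vale.Agent.Steinitz
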