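import Vale.Agent.Lib.Steinitz.Mid
import Vale.Agent.Lib.Steinitz.Rounding
import Vale.Agent.Lib.Steinitz.Heavy
import Vale.Agent.Lib.Steinitz.Solve

namespace Vale.Agent.Steinitz

open Finset

section

variable {ι : Type*} [DecidableEq ι] {d : ℕ} {I : Finset ι} {v : ι → Fin d → ℝ} {a : Fin d → ℝ}
  {y : Fin d → ι → ℝ} {p : Par d a} {k : ℕ} {B C : Finset ι} {Sl Sr : Fin d → ℝ}
  {ε ξ corr : ι → ℝ}

/-- the fractional midpoint, in the coordinates that are not high -/
theorem frac_bound (hd : 1 ≤ d) (hR : Root d I v a y) (hp : p.Good) (hB : B ⊆ I)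
    (hinv : Inv p v y k B Sl Sr)
    (hε : ∀ i ∈ B.filter (fun i => sc k ≤ rho a v i), ε i = 1 ∨ ε i = -1)
    (hact : ∑ j : Fin d with cnt a p.KH k ≤ j.val ∧ j.val < cnt a p.KL k,
      (∑ i ∈ B with sc k ≤ rho a v i, ε i * v i j) ^ 2
        ≤ 100000 * ((cnt a p.KL k : ℝ) - cnt a p.KH k))
    (hu : ∑ i ∈ B with sc k ≤ rho a v i,
      ε i * (∑ j : Fin d with cnt a p.KH k ≤ j.val, (Sl j + Sr j) / 2 * v i j) ≤ 0) :
    ∑ j : Fin d with cnt a p.KH k ≤ j.val,
      ((Sl j + Sr j) / 2 + 1 / 2 * ∑ i ∈ B with sc k ≤ rho a v i, ε i * v i j) ^ 2 ≤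
      p.M k + 25000 * ((cnt a p.KL k : ℝ) - cnt a p.KH k)
        + ∑ j with sc k * a j < p.KL,
          (p.c4 * Real.sqrt (sc k * a j) + p.c4 ^ 2 / 4 * (sc k * a j)) := by
  set h := cnt a p.KH k with hh
  set g := cnt a p.KL k with hg
  have hgh : h ≤ g := cnt_mono a (hp.KL_le.trans hp.KH_one) k
  set Hs := B.filter (fun i => sc k ≤ rho a v i) with hHs
  set E : Fin d → ℝ := fun j => ∑ i ∈ Hs, ε i * v i j with hE
  set S : Fin d → ℝ := fun j => ∑ i ∈ B, v i j with hS
  have hSr : ∀ j, Sr j = Sl j + S j := hinv.sum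
  -- expand
  have e1 : ∀ j, ((Sl j + Sr j) / 2 + 1 / 2 * E j) ^ 2 =
      (Sl j ^ 2 + Sr j ^ 2) / 2 + (E j ^ 2 - S j ^ 2) / 4 + (Sl j + Sr j) / 2 * E j := by
    intro j
    rw [hSr j]; ring
  have e2 : ∑ j : Fin d with h ≤ j.val, (Sl j + Sr j) / 2 * E j ≤ 0 := by
    refine le_trans (le_of_eq ?_) hu
    simp_rw [hE, mul_sum]
    rw [sum_comm]
    apply sum_congr rfl; intro i _
    apply sum_congr rfl; intro j _
    ring
  have e3 : ∑ j : Fin d with h ≤ j.val, (Sl j ^ 2 + Sr j ^ 2) / 2 ≤ p.M k := by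
    have h1 := hinv.Sl_le h le_rfl
    have h2 := hinv.Sr_le h le_rfl
    rw [← hh, sub_self, mul_zero, add_zero] at h1 h2
    rw [← sum_div, sum_add_distrib]
    linarith
  have e4 : ∑ j : Fin d with h ≤ j.val, (E j ^ 2 - S j ^ 2) / 4 ≤
      25000 * ((g : ℝ) - h) + ∑ j with sc k * a j < p.KL,
          (p.c4 * Real.sqrt (sc k * a j) + p.c4 ^ 2 / 4 * (sc k * a j)) := by
    rw [← sum_filter_add_sum_filter_not (univ.filter (fun j : Fin d => h ≤ j.val)) (fun j => j.val < g)]
    apply add_le_add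
    · rw [filter_filter]
      have : ∑ j : Fin d with h ≤ j.val ∧ j.val < g, (E j ^ 2 - S j ^ 2) / 4 ≤
          ∑ j : Fin d with h ≤ j.val ∧ j.val < g, E j ^ 2 / 4 := by
        apply sum_le_sum
        intro j _
        have := sq_nonneg (S j)
        linarith
      refine this.trans ?_
      rw [← sum_div]
      have h1 : ∑ j : Fin d with h ≤ j.val ∧ j.val < g, E j ^ 2 ≤ 100000 * ((g : ℝ) - h) := hact
      linarith
    · rw [filter_filter]
      have hset : univ.filter (fun j : Fin d => h ≤ j.val ∧ ¬ j.val < g) = univ.filter (fun j : Fin d => sc k * a j < p.KL) := by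
        ext j
        simp only [mem_filter, mem_univ, true_and]
        rw [hg, lt_cnt_iff hR.anti, not_le]
        constructor
        · exact fun h => h.2
        · intro h1
          refine ⟨?_, h1⟩
          rw [← not_le, ← lt_cnt_iff hR.anti, ← hg] at h1
          omega
      rw [hset]
      apply sum_le_sum
      intro j hj
      rw [mem_filter] at hj
      exact deep_cost hd hR hp hB hinv hε j (hj.2.le.trans hp.KL_le)
  calc ∑ j : Fin d with h ≤ j.val, ((Sl j + Sr j) / 2 + 1 / 2 * E j) ^ 2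
      = ∑ j : Fin d with h ≤ j.val, (Sl j ^ 2 + Sr j ^ 2) / 2
        + ∑ j : Fin d with h ≤ j.val, (E j ^ 2 - S j ^ 2) / 4
        + ∑ j : Fin d with h ≤ j.val, (Sl j + Sr j) / 2 * E j := by
        rw [← sum_add_distrib, ← sum_add_distrib]
        apply sum_congr rfl; intro j _; exact e1 j
    _ ≤ _ := by linarith

theorem E2_pos (hd : 1 ≤ d) : 0 < E2 d := by
  have hD := D0_pos hd
  have hH := H1_pos hd
  unfold E2 E1
  linarith

theorem cost_split (p : Par d a) (k : ℕ) : p.cost k =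
    30000 * ((cnt a p.KL k : ℝ) - cnt a p.KH k)
    + (∑ j with sc k * a j < p.KL,
        (p.c4 * Real.sqrt (sc k * a j) + p.c4 ^ 2 / 4 * (sc k * a j))
      + ∑ j with sc k * a j < p.KL, D0 d ^ 2 * (sc k * a j))
    + p.kap k * (2 * p.R0 * d * (E2 d + p.E3) + d * (E2 d + p.E3) ^ 2) := by
  unfold Par.cost
  rw [← sum_add_distrib]
  congr 2
  apply sum_congr rfl; intro j _; ring

/-- the bound for the new end point -/
theorem mid_bound (hd : 1 ≤ d) (hR : Root d I v a y) (hp : p.Good)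
    (Q side e Sm : Fin d → ℝ)
    (hQ : ∑ j : Fin d with cnt a p.KH k ≤ j.val, Q j ^ 2 ≤
      p.M k + 25000 * ((cnt a p.KL k : ℝ) - cnt a p.KH k)
        + ∑ j with sc k * a j < p.KL,
          (p.c4 * Real.sqrt (sc k * a j) + p.c4 ^ 2 / 4 * (sc k * a j)))
    (hside : ∀ j : Fin d, cnt a p.KH k ≤ j.val → |side j| ≤ p.kap k * (E2 d + p.E3))
    (hzero : ∀ j : Fin d, j.val < cnt a p.KH k → Q j + side j = 0)
    (he : ∀ m : ℕ, m ≤ cnt a p.KL k → ∑ j : Fin d with m ≤ j.val ∧ j.val < cnt a p.KL k,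
      e j ^ 2 ≤ 700 * ((cnt a p.KL k : ℝ) - m))
    (hdeep : ∀ j : Fin d, sc k * a j < p.KL → |e j| ≤ D0 d * Real.sqrt (sc k * a j))
    (hUe : ∑ j, (Q j + side j) * e j ≤ 0)
    (hSm : ∀ j, Sm j = Q j + side j + e j) (m : ℕ) (hm : m ≤ cnt a p.KH k) :
    ∑ j : Fin d with m ≤ j.val, Sm j ^ 2 ≤ p.M k + p.cost k + 700 * ((cnt a p.KH k : ℝ) - m) := by
  have hgh' : cnt a p.KH k ≤ cnt a p.KL k := cnt_mono a (hp.KL_le.trans hp.KH_one) k
  have hKH := hp.KH_one
  have hML := hp.M_le k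
  rw [cost_split] at hML ⊢
  set h := cnt a p.KH k with hh
  set g := cnt a p.KL k with hg
  set Dp := ∑ j with sc k * a j < p.KL,
          (p.c4 * Real.sqrt (sc k * a j) + p.c4 ^ 2 / 4 * (sc k * a j)) with hDp
  set De := ∑ j with sc k * a j < p.KL, D0 d ^ 2 * (sc k * a j) with hDe
  set κ := p.kap k with hκ
  set E4 := E2 d + p.E3 with hE4
  have hE4p : 0 < E4 := by have := E2_pos (d := d) hd; have := hp.E3_ge; linarith
  have hκ0 : 0 ≤ κ := hp.kap_nonneg k
  have hκ1 : κ ≤ 1 := (kap_le hd hp k).trans (by norm_num)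
  have hdd : (1 : ℝ) ≤ d := by exact_mod_cast hd
  have hR0 := hp.R0_ge
  have hgh : (h : ℝ) ≤ g := by exact_mod_cast hgh'
  have hDe0 : 0 ≤ De := sum_nonneg fun j _ => by
    have := mul_pos (sc_pos k) (hR.apos j); positivity
  -- each Q j is at most R0
  have hQR : ∀ j : Fin d, h ≤ j.val → |Q j| ≤ p.R0 := by
    intro j hj
    have h1 : Q j ^ 2 ≤ ∑ j : Fin d with h ≤ j.val, Q j ^ 2 :=
      single_le_sum (f := fun j => Q j ^ 2) (fun i _ => sq_nonneg _)
        (by rw [mem_filter]; exact ⟨mem_univ _, hj⟩)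
    apply abs_le_of_sq_le_sq _ hR0
    have h2 : 0 ≤ κ * (2 * p.R0 * d * E4 + d * E4 ^ 2) := by positivity
    nlinarith
  -- the square of U
  have hU : ∑ j : Fin d with h ≤ j.val, (Q j + side j) ^ 2 ≤
      ∑ j : Fin d with h ≤ j.val, Q j ^ 2 + κ * (2 * p.R0 * d * E4 + d * E4 ^ 2) := by
    have h1 : ∀ j ∈ univ.filter (fun j : Fin d => h ≤ j.val), (Q j + side j) ^ 2 ≤
        Q j ^ 2 + κ * (2 * p.R0 * E4 + E4 ^ 2) := by
      intro j hj
      rw [mem_filter] at hj
      have a1 := hQR j hj.2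
      have a2 := hside j hj.2
      have a3 : |Q j * side j| ≤ p.R0 * (κ * E4) := by
        rw [abs_mul]
        exact mul_le_mul a1 a2 (abs_nonneg _) hR0
      have a4 : side j ^ 2 ≤ (κ * E4) ^ 2 := by
        rw [← sq_abs]
        exact pow_le_pow_left₀ (abs_nonneg _) a2 2
      have a5 : (κ * E4) ^ 2 ≤ κ * E4 ^ 2 := by
        have : κ ^ 2 ≤ κ := by nlinarith
        nlinarith [sq_nonneg E4]
      have a6 := (le_abs_self _).trans a3
      nlinarith
    refine (sum_le_sum h1).trans ?_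
    rw [sum_add_distrib]
    apply add_le_add le_rfl
    rw [sum_const, nsmul_eq_mul]
    have hc : ((univ.filter (fun j : Fin d => h ≤ j.val)).card : ℝ) ≤ d := by
      have := card_filter_le (univ : Finset (Fin d)) (fun j : Fin d => h ≤ j.val)
      rw [card_univ, Fintype.card_fin] at this
      exact_mod_cast this
    have : 0 ≤ κ * (2 * p.R0 * E4 + E4 ^ 2) := by positivity
    nlinarith
  -- sum over j ≥ m of U^2
  have hUm : ∑ j : Fin d with m ≤ j.val, (Q j + side j) ^ 2 =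
      ∑ j : Fin d with h ≤ j.val, (Q j + side j) ^ 2 := by
    symm
    apply sum_subset
    · intro j hj
      rw [mem_filter] at hj ⊢
      exact ⟨hj.1, hm.trans hj.2⟩
    · intro j _ hj
      have : j.val < h := by
        by_contra hcon
        exact hj (by rw [mem_filter]; exact ⟨mem_univ _, not_lt.1 hcon⟩)
      rw [hzero j this]; ring
  have hUem : ∑ j : Fin d with m ≤ j.val, (Q j + side j) * e j ≤ 0 := by
    refine le_trans (le_of_eq ?_) hUe
    apply sum_subset (filter_subset _ _)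
    intro j _ hj
    have : j.val < h := by
      by_contra hcon
      exact hj (by rw [mem_filter]; exact ⟨mem_univ _, hm.trans (not_lt.1 hcon)⟩)
    rw [hzero j this]; ring
  -- sum of e^2
  have hem : ∑ j : Fin d with m ≤ j.val, e j ^ 2 ≤ 700 * ((g : ℝ) - m) + De := by
    rw [← sum_filter_add_sum_filter_not (univ.filter (fun j : Fin d => m ≤ j.val)) (fun j => j.val < g)]
    apply add_le_add
    · rw [filter_filter]
      exact he m (hm.trans hgh')
    · rw [filter_filter]
      have hset : univ.filter (fun j : Fin d => m ≤ j.val ∧ ¬ j.val < g) = univ.filter (fun j : Fin d => sc k * a j < p.KL) := by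
        ext j
        simp only [mem_filter, mem_univ, true_and]
        rw [hg, lt_cnt_iff hR.anti, not_le]
        constructor
        · exact fun h => h.2
        · intro h1
          refine ⟨?_, h1⟩
          rw [← not_le, ← lt_cnt_iff hR.anti, ← hg] at h1
          omega
      rw [hset]
      apply sum_le_sum
      intro j hj
      rw [mem_filter] at hj
      have h1 := hdeep j hj.2
      have h2 : e j ^ 2 ≤ (D0 d * Real.sqrt (sc k * a j)) ^ 2 := by
        rw [← sq_abs]
        exact pow_le_pow_left₀ (abs_nonneg _) h1 2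
      rwa [mul_pow, Real.sq_sqrt (mul_pos (sc_pos k) (hR.apos j)).le] at h2
  have htot : ∑ j : Fin d with m ≤ j.val, Sm j ^ 2 =
      ∑ j : Fin d with m ≤ j.val, (Q j + side j) ^ 2 + 2 * ∑ j : Fin d with m ≤ j.val, (Q j + side j) * e j
        + ∑ j : Fin d with m ≤ j.val, e j ^ 2 := by
    rw [mul_sum, ← sum_add_distrib, ← sum_add_distrib]
    apply sum_congr rfl; intro j _
    rw [hSm j]; ring
  rw [htot, hUm]
  linarith

theorem cost_nonneg (hd : 1 ≤ d) (hR : Root d I v a y) (hp : p.Good) (k : ℕ) : 0 ≤ p.cost k := by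
  rw [cost_split]
  have hgh' : cnt a p.KH k ≤ cnt a p.KL k := cnt_mono a (hp.KL_le.trans hp.KH_one) k
  have hgh : (cnt a p.KH k : ℝ) ≤ cnt a p.KL k := by exact_mod_cast hgh'
  have hE2 := E2_pos (d := d) hd
  have hE3 := hp.E3_ge
  have hR0 := hp.R0_ge
  have hκ0 := hp.kap_nonneg k
  have hdd : (1 : ℝ) ≤ d := by exact_mod_cast hd
  have hD := D0_pos hd
  have hH := H1_pos hd
  have hc4 : 0 ≤ p.c4 := by
    refine le_trans ?_ hp.c4_ge
    positivity
  have h1 : 0 ≤ ∑ j with sc k * a j < p.KL,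
        (p.c4 * Real.sqrt (sc k * a j) + p.c4 ^ 2 / 4 * (sc k * a j)) := by
    apply sum_nonneg; intro j _
    have := mul_pos (sc_pos k) (hR.apos j); positivity
  have h2 : 0 ≤ ∑ j with sc k * a j < p.KL, D0 d ^ 2 * (sc k * a j) := by
    apply sum_nonneg; intro j _
    have := mul_pos (sc_pos k) (hR.apos j); positivity
  have h3 : 0 ≤ p.kap k * (2 * p.R0 * d * (E2 d + p.E3) + d * (E2 d + p.E3) ^ 2) := by positivity
  linarith

theorem sum_castLE {h d : ℕ} (hh : h ≤ d) (f : Fin d → ℝ) :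
    ∑ l : Fin h, f (Fin.castLE hh l) = ∑ l : Fin d with l.val < h, f l := by
  have : univ.filter (fun l : Fin d => l.val < h) = univ.map (Fin.castLEEmb hh) := by
    ext l
    simp only [mem_filter, mem_univ, true_and, mem_map]
    constructor
    · intro hl
      exact ⟨⟨l.val, hl⟩, by ext; simp⟩
    · rintro ⟨x, rfl⟩
      simp
  rw [this, sum_map]
  rfl

/-- MODULE STEP. -/
theorem step {ι : Type*} [DecidableEq ι] {d : ℕ} (hd : 1 ≤ d) {I : Finset ι}
    {v : ι → Fin d → ℝ} {a : Fin d → ℝ} {y : Fin d → ι → ℝ} (hR : Root d I v a y)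
    (p : Par d a) (hp : p.Good) (k : ℕ) (B : Finset ι) (hB : B ⊆ I) (Sl Sr : Fin d → ℝ)
    (hinv : Inv p v y k B Sl Sr) :
    ∃ B₁ ⊆ B, ∃ Sm : Fin d → ℝ, Inv p v y (k + 1) B₁ Sl Sm ∧ Inv p v y (k + 1) (B \ B₁) Sm Sr := by
  have hgh : cnt a p.KH k ≤ cnt a p.KL k := cnt_mono a (hp.KL_le.trans hp.KH_one) k
  have hgd : cnt a p.KL k ≤ d := cnt_le _ _ _
  have hhd : cnt a p.KH k ≤ d := cnt_le _ _ _
  have hdd : (1 : ℝ) ≤ d := by exact_mod_cast hd
  have hD := D0_pos hd
  have hH := H1_pos hd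
  have hR0 := hp.R0_ge
  have hcost := cost_nonneg hd hR hp k
  set Hs := B.filter (fun i => sc k ≤ rho a v i) with hHs
  set Ls := B.filter (fun i => rho a v i < sc k) with hLs
  have hsplit : ∀ f : ι → ℝ, ∑ i ∈ B, f i = ∑ i ∈ Hs, f i + ∑ i ∈ Ls, f i := by
    intro f
    rw [hHs, hLs, ← sum_filter_add_sum_filter_not B (fun i => sc k ≤ rho a v i)]
    simp only [not_le]
  -- heavy signs
  obtain ⟨ε, hε1, hεr, hεact, hεu⟩ := heavy_signs Hs (rho a v) (cnt a p.KH k) (cnt a p.KL k) hgh hgd v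
    (fun i hi => hR.norm_le i (hB (mem_filter.1 hi).1))
    (fun i => ∑ j : Fin d with cnt a p.KH k ≤ j.val, (Sl j + Sr j) / 2 * v i j)
  set Q : Fin d → ℝ := fun j => (Sl j + Sr j) / 2 + 1 / 2 * ∑ i ∈ Hs, ε i * v i j with hQdef
  have hQ := frac_bound hd hR hp hB hinv hε1 hεact hεu
  -- crude bounds on the end points
  have hend : ∀ S : Fin d → ℝ, (∀ m : ℕ, m ≤ cnt a p.KH k →
      ∑ j : Fin d with m ≤ j.val, S j ^ 2 ≤ p.M k + 700 * ((cnt a p.KH k : ℝ) - m)) →
      ∀ l, |S l| ≤ p.R0 := by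
    intro S hS l
    apply abs_le_of_sq_le_sq _ hR0
    have h1 := hS 0 (Nat.zero_le _)
    have h2 : S l ^ 2 ≤ ∑ j : Fin d with 0 ≤ j.val, S j ^ 2 :=
      single_le_sum (f := fun j => S j ^ 2) (fun i _ => sq_nonneg _)
        (by rw [mem_filter]; exact ⟨mem_univ _, Nat.zero_le _⟩)
    have h3 := hp.M_le k
    have h4 : (cnt a p.KH k : ℝ) ≤ d := by exact_mod_cast hhd
    push_cast at h1
    linarith
  have hSlR := hend Sl hinv.Sl_le
  have hSrR := hend Sr hinv.Sr_le
  have hHcard : (Hs.card : ℝ) ≤ 1 + H1 d := card_heavy_le hinv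
  have hQR : ∀ l, |Q l| ≤ p.R0 + (1 + H1 d) / 2 := by
    intro l
    have h1 : |∑ i ∈ Hs, ε i * v i l| ≤ 1 + H1 d := by
      refine (abs_sum_le_sum_abs _ _).trans ?_
      refine le_trans ?_ hHcard
      rw [card_eq_sum_ones]
      push_cast
      apply sum_le_sum
      intro i hi
      rw [abs_mul]
      have : |ε i| = 1 := by
        rcases hε1 i hi with h | h <;> rw [h] <;> simp
      rw [this, one_mul]
      exact abs_le_one_of_norm (hR.norm_le i (hB (mem_filter.1 hi).1)) l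
    have h2 := abs_le.1 (hSlR l)
    have h3 := abs_le.1 (hSrR l)
    have h4 := abs_le.1 h1
    rw [hQdef, abs_le]
    constructor <;> simp only <;> linarith [h2.1, h2.2, h3.1, h3.2, h4.1, h4.2]
  -- linear system
  have hr_high : ∀ l : Fin (cnt a p.KH k), p.KH ≤ sc k * a (Fin.castLE hhd l) := by
    intro l
    rw [← lt_cnt_iff hR.anti]
    simp
  obtain ⟨c, hc1, hc2⟩ := solve_dd (h := cnt a p.KH k)
    (fun l j => ∑ i ∈ Ls, y (Fin.castLE hhd j) i * v i (Fin.castLE hhd l))
    (fun l => sc k * a (Fin.castLE hhd l)) (fun l => mul_pos (sc_pos k) (hR.apos _)) d hhd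
    (by
      intro l j
      have h1 := light_A hR hB hinv (Fin.castLE hhd j) (Fin.castLE hhd l)
      rw [← hLs] at h1
      have h2 : (if l = j then sc k * a (Fin.castLE hhd l) else 0) =
          (if Fin.castLE hhd j = Fin.castLE hhd l then sc k * a (Fin.castLE hhd j) else 0) := by
        by_cases hlj : l = j
        · subst hlj; simp
        · have : Fin.castLE hhd j ≠ Fin.castLE hhd l := by
            intro he
            apply hlj
            have := congrArg Fin.val he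
            ext; simp at this; omega
          rw [if_neg hlj, if_neg this]
      rw [h2]
      refine h1.trans ?_
      have h3 := hr_high l
      have h4 := hp.KH_ge
      have h5 : KS p k ≤ 1 / (32 * d ^ 2) := hp.kap_sum k
      have h6 := KS_nonneg hp k
      set r := sc k * a (Fin.castLE hhd l) with hrdef
      have hrpos : 0 < r := lt_of_lt_of_le (by linarith [hp.KH_one]) h3
      rw [le_div_iff₀ (by positivity)]
      have h7 : 4 * d * KS p k * (4 * d) ≤ 1 / 2 := by
        have : 4 * (d : ℝ) * KS p k * (4 * d) = 16 * d ^ 2 * KS p k := by ring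
        rw [this]
        have h8 : 16 * (d : ℝ) ^ 2 * KS p k ≤ 16 * (d : ℝ) ^ 2 * (1 / (32 * d ^ 2)) :=
          mul_le_mul_of_nonneg_left h5 (by positivity)
        refine h8.trans ?_
        have : 16 * (d : ℝ) ^ 2 * (1 / (32 * d ^ 2)) = 1 / 2 := by
          field_simp; norm_num
        rw [this]
      have h9 : 4 * d * KS p k * (4 * d) * r ≤ 1 / 2 * r := mul_le_mul_of_nonneg_right h7 hrpos.le
      nlinarith)
    (fun l => - Q (Fin.castLE hhd l))
  have hcsum : ∑ j, |c j| ≤ p.kap k := by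
    refine le_trans ?_ (hp.kap_ge k)
    have h1 : ∑ l : Fin d with p.KH ≤ sc k * a l, 1 / (sc k * a l) =
        ∑ l : Fin (cnt a p.KH k), 1 / (sc k * a (Fin.castLE hhd l)) := by
      rw [sum_castLE hhd (fun l => 1 / (sc k * a l))]
      apply sum_congr _ (fun _ _ => rfl)
      ext l
      simp only [mem_filter, mem_univ, true_and]
      rw [lt_cnt_iff hR.anti]
    rw [h1]
    set sr := ∑ l : Fin (cnt a p.KH k), 1 / (sc k * a (Fin.castLE hhd l)) with hsr
    have hs0 : 0 ≤ sr := sum_nonneg fun l _ => by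
      have := mul_pos (sc_pos k) (hR.apos (Fin.castLE hhd l)); positivity
    have h2 : ∀ j, |c j| ≤ (2 * p.R0 + 1 + H1 d) * sr := by
      intro j
      refine (hc2 j).trans ?_
      rw [hsr, mul_sum, mul_sum]
      apply sum_le_sum
      intro l _
      have hr := mul_pos (sc_pos k) (hR.apos (Fin.castLE hhd l))
      simp only [abs_neg]
      have h3 := hQR (Fin.castLE hhd l)
      rw [← mul_div_assoc, mul_one_div]
      apply div_le_div_of_nonneg_right _ hr.le
      linarith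
    have h3 : ∑ j : Fin (cnt a p.KH k), |c j| ≤ (cnt a p.KH k) • ((2 * p.R0 + 1 + H1 d) * sr) := by
      have := sum_le_card_nsmul (univ : Finset (Fin (cnt a p.KH k))) (fun j => |c j|) _ (fun j _ => h2 j)
      simpa using this
    refine h3.trans ?_
    rw [nsmul_eq_mul, ← mul_assoc]
    apply mul_le_mul_of_nonneg_right _ hs0
    apply mul_le_mul_of_nonneg_right (by exact_mod_cast hhd)
    linarith
  set corr : ι → ℝ := fun i => ∑ j, c j * y (Fin.castLE hhd j) i with hcorrdef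
  have hcorr : ∀ i ∈ Ls, |corr i| ≤ p.kap k := by
    intro i hi
    refine le_trans ?_ hcsum
    rw [hcorrdef]
    refine (abs_sum_le_sum_abs _ _).trans ?_
    apply sum_le_sum
    intro j _
    rw [abs_mul]
    exact mul_le_of_le_one_right (abs_nonneg _) (hR.y_le _ i (hB (mem_filter.1 hi).1))
  set side : Fin d → ℝ := fun l => ∑ i ∈ Ls, corr i * v i l with hsidedef
  have hside : ∀ l : Fin d, cnt a p.KH k ≤ l.val → |side l| ≤ p.kap k * (E2 d + p.E3) := by
    intro l hl
    exact side_le hd hR hp hB hinv hhd rfl c hcsum (fun i => rfl) l hl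
  have hzero : ∀ j : Fin d, j.val < cnt a p.KH k → Q j + side j = 0 := by
    intro j hj
    have h1 := hc1 ⟨j.val, hj⟩
    have h2 : Fin.castLE hhd ⟨j.val, hj⟩ = j := by ext; simp
    rw [h2] at h1
    have h3 : side j = ∑ x, c x * ∑ i ∈ Ls, y (Fin.castLE hhd x) i * v i j := by
      rw [hsidedef]
      simp_rw [mul_sum]
      rw [sum_comm]
      apply sum_congr rfl
      intro i _
      rw [hcorrdef]
      simp only
      rw [sum_mul]
      apply sum_congr rfl
      intro x _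
      ring
    rw [h3, h1]; ring
  -- rounding
  have hκ1 := kap_le hd hp k
  obtain ⟨ξ, F, hFs, hFc, hξ, hP, hV, hflag, hu⟩ := rounding (κ := (Fin d × Fin d) ⊕ Fin d) Ls
    (cnt a p.KL k) hgd (fun i => 1 / 2 + corr i)
    (by
      intro i hi
      have := abs_le.1 (hcorr i hi)
      constructor <;> linarith [this.1, this.2])
    (fun i q => Sum.elim (fun jl : Fin d × Fin d => y jl.1 i * v i jl.2) (fun j => |v i j|) q) v
    (fun i hi => hR.norm_le i (hB (mem_filter.1 hi).1))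
    (fun i => ∑ j, (Q j + side j) * v i j)
  have hFcard : (F.card : ℝ) ≤ D0 d := by
    have h1 : F.card ≤ d * d + d + d := by
      refine hFc.trans ?_
      simp
    have h2 : (F.card : ℝ) ≤ ((d * d + d + d : ℕ) : ℝ) := by exact_mod_cast h1
    refine h2.trans ?_
    unfold D0
    push_cast
    nlinarith
  set e : Fin d → ℝ := fun j => ∑ i ∈ Ls, (ξ i - (1 / 2 + corr i)) * v i j with hedef
  have hlight : ∀ i ∈ F, ∀ j, |v i j| ≤ min 1 (Real.sqrt (sc k * a j)) := by
    intro i hi j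
    have hi' := mem_filter.1 (hFs hi)
    apply le_min
    · exact abs_le_one_of_norm (hR.norm_le i (hB hi'.1)) j
    · exact abs_le_sqrt_of_rho_lt hd hR.apos hi'.2 j
  have hFv : ∀ j, ∑ i ∈ F, |v i j| ≤ D0 d * min 1 (Real.sqrt (sc k * a j)) := by
    intro j
    have h1 := sum_le_card_nsmul F (fun i => |v i j|) _ (fun i hi => hlight i hi j)
    refine h1.trans ?_
    rw [nsmul_eq_mul]
    exact mul_le_mul_of_nonneg_right hFcard (le_min (by norm_num) (Real.sqrt_nonneg _))
  -- block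
  set B₁ := Hs.filter (fun i => ε i = 1) ∪ Ls.filter (fun i => ξ i = 1) with hB₁
  have hB₁B : B₁ ⊆ B := by
    intro i hi
    rcases mem_union.1 hi with hi | hi
    · exact (mem_filter.1 (mem_filter.1 hi).1).1
    · exact (mem_filter.1 (mem_filter.1 hi).1).1
  have hsum1 : ∀ f : ι → ℝ, ∑ i ∈ B₁, f i = ∑ i ∈ Hs, (1 + ε i) / 2 * f i + ∑ i ∈ Ls, ξ i * f i := by
    intro f
    have t1 : ∑ i ∈ Hs.filter (fun i => ε i = 1), f i = ∑ i ∈ Hs, (1 + ε i) / 2 * f i := by
      rw [sum_filter (s := Hs)]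
      apply sum_congr rfl
      intro i hi
      rcases hε1 i hi with h | h
      · rw [if_pos h, h]; ring
      · rw [if_neg (by rw [h]; norm_num), h]; ring
    have t2 : ∑ i ∈ Ls.filter (fun i => ξ i = 1), f i = ∑ i ∈ Ls, ξ i * f i := by
      rw [sum_filter (s := Ls)]
      apply sum_congr rfl
      intro i hi
      rcases hξ i hi with h | h
      · rw [if_neg (by rw [h]; norm_num), h]; ring
      · rw [if_pos h, h]; ring
    rw [← t1, ← t2, hB₁, sum_union]
    · rw [disjoint_left]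
      intro i hi1 hi2
      have h1 := (mem_filter.1 (mem_filter.1 hi1).1).2
      have h2 := (mem_filter.1 (mem_filter.1 hi2).1).2
      linarith
  have hsum2 : ∀ f : ι → ℝ, ∑ i ∈ B \ B₁, f i =
      ∑ i ∈ Hs, (1 + (-ε i)) / 2 * f i + ∑ i ∈ Ls, (1 - ξ i) * f i := by
    intro f
    have h1 : ∑ i ∈ B \ B₁, f i + ∑ i ∈ B₁, f i = ∑ i ∈ B, f i := sum_sdiff hB₁B
    have h2 := hsum1 f
    have h3 := hsplit f
    have h4 : ∑ i ∈ Hs, (1 + (-ε i)) / 2 * f i = ∑ i ∈ Hs, f i - ∑ i ∈ Hs, (1 + ε i) / 2 * f i := by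
      rw [← sum_sub_distrib]; apply sum_congr rfl; intro i _; ring
    have h5 : ∑ i ∈ Ls, (1 - ξ i) * f i = ∑ i ∈ Ls, f i - ∑ i ∈ Ls, ξ i * f i := by
      rw [← sum_sub_distrib]; apply sum_congr rfl; intro i _; ring
    rw [h4, h5]
    linarith
  have hyv : ∀ i ∈ F, ∀ j l, |y j i * v i l| ≤ 1 := by
    intro i hi j l
    have hiI := hB (mem_filter.1 (hFs hi)).1
    rw [abs_mul]
    calc |y j i| * |v i l| ≤ 1 * 1 := mul_le_mul (hR.y_le j i hiI)
          (abs_le_one_of_norm (hR.norm_le i hiI) l) (abs_nonneg _) (by norm_num)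
      _ = 1 := by ring
  have hP1 : ∀ j l, |∑ i ∈ Ls, (ξ i - (1 / 2 + corr i)) * (y j i * v i l)| ≤ D0 d := by
    intro j l
    have h1 := hP (Sum.inl (j, l))
    simp only [Sum.elim_inl] at h1
    refine h1.trans ?_
    have h2 := sum_le_card_nsmul F (fun i => |y j i * v i l|) 1 (fun i hi => hyv i hi j l)
    refine h2.trans ?_
    rw [nsmul_eq_mul, mul_one]
    exact hFcard
  have hP2 : ∀ j, |∑ i ∈ Ls, (ξ i - (1 / 2 + corr i)) * (|v i j|)| ≤
      D0 d * min 1 (Real.sqrt (sc k * a j)) := by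
    intro j
    have h1 := hP (Sum.inr j)
    simp only [Sum.elim_inr, abs_abs] at h1
    exact h1.trans (hFv j)
  have hC1 : IsChild p v y k B B₁ ε ξ corr :=
    ⟨hB₁B, hε1, hεr, hcorr, hξ, hP1, hP2, hsum1⟩
  have hC2 : IsChild p v y k B (B \ B₁) (fun i => -ε i) (fun i => 1 - ξ i) (fun i => - corr i) := by
    refine ⟨sdiff_subset, ?_, ?_, ?_, ?_, ?_, ?_, hsum2⟩
    · intro i hi
      rcases hε1 i hi with h | h
      · right; rw [h]
      · left; rw [h]; ring
    · intro r
      rw [sum_neg_distrib, abs_neg]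
      exact hεr r
    · intro i hi
      rw [abs_neg]; exact hcorr i hi
    · intro i hi
      rcases hξ i hi with h | h
      · right; rw [h]; ring
      · left; rw [h]; ring
    · intro j l
      have h1 : ∑ i ∈ B with rho a v i < sc k, ((1 - ξ i) - (1 / 2 + - corr i)) * (y j i * v i l) =
          - ∑ i ∈ Ls, (ξ i - (1 / 2 + corr i)) * (y j i * v i l) := by
        rw [← sum_neg_distrib]; apply sum_congr rfl; intro i _; ring
      rw [h1, abs_neg]; exact hP1 j l
    · intro j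
      have h1 : ∑ i ∈ B with rho a v i < sc k, ((1 - ξ i) - (1 / 2 + - corr i)) * (|v i j|) =
          - ∑ i ∈ Ls, (ξ i - (1 / 2 + corr i)) * (|v i j|) := by
        rw [← sum_neg_distrib]; apply sum_congr rfl; intro i _; ring
      rw [h1, abs_neg]; exact hP2 j
  -- the midpoint
  set Sm : Fin d → ℝ := fun j => Sl j + ∑ i ∈ B₁, v i j with hSmdef
  have hSm : ∀ j, Sm j = Q j + side j + e j := by
    intro j
    have h1 : Sm j = Sl j + (∑ i ∈ Hs, (1 + ε i) / 2 * v i j + ∑ i ∈ Ls, ξ i * v i j) := by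
      rw [hSmdef]; simp only; rw [hsum1]
    have h2 : Sr j = Sl j + (∑ i ∈ Hs, v i j + ∑ i ∈ Ls, v i j) := by
      rw [hinv.sum j, hsplit]
    have h3 : ∑ i ∈ Hs, (1 + ε i) / 2 * v i j = 1 / 2 * ∑ i ∈ Hs, v i j + 1 / 2 * ∑ i ∈ Hs, ε i * v i j := by
      rw [mul_sum, mul_sum, ← sum_add_distrib]; apply sum_congr rfl; intro i _; ring
    have h4 : ∑ i ∈ Ls, ξ i * v i j = 1 / 2 * ∑ i ∈ Ls, v i j + side j + e j := by
      rw [hsidedef, hedef, mul_sum]
      simp only
      rw [← sum_add_distrib, ← sum_add_distrib]; apply sum_congr rfl; intro i _; ring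
    rw [h1, h3, h4, hQdef]
    simp only
    rw [h2]; ring
  have hUe : ∑ j, (Q j + side j) * e j ≤ 0 := by
    refine le_trans (le_of_eq ?_) hu
    rw [hedef]
    simp_rw [mul_sum]
    rw [sum_comm]
    apply sum_congr rfl; intro i _
    apply sum_congr rfl; intro j _
    ring
  have hdeep : ∀ j : Fin d, sc k * a j < p.KL → |e j| ≤ D0 d * Real.sqrt (sc k * a j) := by
    intro j _
    refine (hV j).trans ((hFv j).trans ?_)
    exact mul_le_mul_of_nonneg_left (min_le_right _ _) (by linarith)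
  have hmid := mid_bound hd hR hp Q side e Sm hQ hside hzero
    (fun m hm => hflag m hm) hdeep hUe hSm
  have hcs : cnt a p.KH (k + 1) ≤ cnt a p.KH k := cnt_succ_le hR.apos _ _
  have hMs := hp.M_succ k
  have hWs : ∀ j, sc (k + 1) * a j ≤ sc k * a j := by
    intro j
    have := mul_pos (sc_pos k) (hR.apos j)
    rw [sc_succ]; linarith
  have hrho : ∀ D : Finset ι, D.filter (fun i => rho a v i < sc (k + 1)) ⊆ D.filter (fun i => rho a v i < sc k) := by
    intro D i hi
    rw [mem_filter] at hi ⊢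
    refine ⟨hi.1, hi.2.trans_le ?_⟩
    have := sc_pos k
    rw [sc_succ]; linarith
  have hold : ∀ S : Fin d → ℝ, (∀ m : ℕ, m ≤ cnt a p.KH k →
      ∑ j : Fin d with m ≤ j.val, S j ^ 2 ≤ p.M k + 700 * ((cnt a p.KH k : ℝ) - m)) →
      ∀ m : ℕ, m ≤ cnt a p.KH (k + 1) →
      ∑ j : Fin d with m ≤ j.val, S j ^ 2 ≤ p.M (k + 1) + 700 * ((cnt a p.KH (k + 1) : ℝ) - m) := by
    intro S hS m hm
    have := hS m (hm.trans hcs)
    linarith
  have hnew : ∀ m : ℕ, m ≤ cnt a p.KH (k + 1) →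
      ∑ j : Fin d with m ≤ j.val, Sm j ^ 2 ≤ p.M (k + 1) + 700 * ((cnt a p.KH (k + 1) : ℝ) - m) := by
    intro m hm
    have := hmid m (hm.trans hcs)
    linarith
  refine ⟨B₁, hB₁B, Sm, ?_, ?_⟩
  · refine ⟨fun j => rfl, ?_, ?_, ?_, hold Sl hinv.Sl_le, hnew⟩
    · intro j
      exact (sum_le_sum_of_subset_of_nonneg (hrho B₁) (fun i _ _ => abs_nonneg _)).trans
        (child_weight hd hR hp hinv hC1 j)
    · intro j l
      exact child_A hd hR hp hB hinv hC1 j l
    · intro t
      exact child_N hd hR hp hB hinv hC1 t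
  · refine ⟨?_, ?_, ?_, ?_, hnew, hold Sr hinv.Sr_le⟩
    · intro j
      have h1 : ∑ i ∈ B \ B₁, v i j + ∑ i ∈ B₁, v i j = ∑ i ∈ B, v i j := sum_sdiff hB₁B
      rw [hinv.sum j, ← h1, hSmdef]; simp only; ring
    · intro j
      exact (sum_le_sum_of_subset_of_nonneg (hrho (B \ B₁)) (fun i _ _ => abs_nonneg _)).trans
        (child_weight hd hR hp hinv hC2 j)
    · intro j l
      exact child_A hd hR hp hB hinv hC2 j l
    · intro t
      exact child_N hd hR hp hB hinv hC2 t

end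

end Vale.Agent.Steinitz
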