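import Mathlib
import Vale.Agent.Lib.Steinitz.Step
import Vale.Agent.Lib.Steinitz.FinalOf

/-!
# P262, module FINAL
-/

namespace Vale.Agent.Steinitz

open Finset

/-- `S_2(d) ≤ C √(d log (d+1))` for all lengths `N`. -/
theorem steinitz_log : ∃ C : ℝ, ∀ d : ℕ, 1 ≤ d → ∀ (N : ℕ) (v : Fin N → EuclideanSpace ℝ (Fin d)),
    (∀ i, ‖v i‖ ≤ 1) → ∑ i, v i = 0 →
    ∃ π : Equiv.Perm (Fin N), ∀ k : ℕ, k ≤ N →
      ‖∑ i : Fin N with i.val < k, v (π i)‖ ≤ C * Real.sqrt (d * Real.log (d + 1)) :=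
  steinitz_log_of (fun {_} hd {_ _ _ _ _} hR p hp k B hB Sl Sr h =>
    step hd hR p hp k B hB Sl Sr h)

end Vale.Agent.Steinitz
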