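import Vale.Agent.Lib.Steinitz.Child

namespace Vale.Agent.Steinitz

open Finset

section

variable {ι : Type*} [DecidableEq ι] {d : ℕ} {I : Finset ι} {v : ι → Fin d → ℝ} {a : Fin d → ℝ}
  {y : Fin d → ι → ℝ} {p : Par d a} {k : ℕ} {B C : Finset ι} {Sl Sr : Fin d → ℝ}
  {ε ξ corr : ι → ℝ}

/-- the field matrix restricted to light elements -/
theorem light_A (hR : Root d I v a y) (hB : B ⊆ I)
    (hinv : Inv p v y k B Sl Sr) (j l : Fin d) :
    |∑ i ∈ B with rho a v i < sc k, y j i * v i l - (if j = l then sc k * a j else 0)| ≤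
      E2 d + 4 * d * KS p k * (sc k * a l) := by
  have hA := hinv.A j l
  have hN := card_heavy_le hinv
  have hyv : ∀ i ∈ B, |y j i * v i l| ≤ 1 := by
    intro i hi
    rw [abs_mul]
    have h1 := hR.y_le j i (hB hi)
    have h2 := abs_le_one_of_norm (hR.norm_le i (hB hi)) l
    calc |y j i| * |v i l| ≤ 1 * 1 := mul_le_mul h1 h2 (abs_nonneg _) (by norm_num)
      _ = 1 := by ring
  have hsplit : ∑ i ∈ B, y j i * v i l = ∑ i ∈ B with sc k ≤ rho a v i, y j i * v i l
      + ∑ i ∈ B with rho a v i < sc k, y j i * v i l := by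
    rw [← sum_filter_add_sum_filter_not B (fun i => sc k ≤ rho a v i)]
    simp only [not_le]
  have b1 : |∑ i ∈ B with sc k ≤ rho a v i, y j i * v i l| ≤ 1 + H1 d := by
    refine (abs_sum_le_sum_abs _ _).trans ?_
    refine le_trans ?_ hN
    rw [card_eq_sum_ones]
    push_cast
    apply sum_le_sum
    intro i hi
    exact hyv i (mem_filter.1 hi).1
  change |∑ i ∈ B, y j i * v i l - (if j = l then sc k * a j else 0)| ≤ E1 d + 4 * d * KS p k * (sc k * a l) at hA
  rw [hsplit] at hA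
  have hE : E2 d = E1 d + 1 + H1 d := rfl
  obtain ⟨hA1, hA2⟩ := abs_le.1 hA
  obtain ⟨c1, c2⟩ := abs_le.1 b1
  rw [hE, abs_le]
  constructor <;> linarith

/-- side effect of a correction on a coordinate that is not high -/
theorem side_le (hd : 1 ≤ d) (hR : Root d I v a y) (hp : p.Good) (hB : B ⊆ I)
    (hinv : Inv p v y k B Sl Sr) {h : ℕ} (hh : h ≤ d) (hcnt : h = cnt a p.KH k)
    (c : Fin h → ℝ) (hc : ∑ j, |c j| ≤ p.kap k)
    (hcorr : ∀ i, corr i = ∑ j, c j * y (Fin.castLE hh j) i) (l : Fin d) (hl : h ≤ l.val) :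
    |∑ i ∈ B with rho a v i < sc k, corr i * v i l| ≤ p.kap k * (E2 d + p.E3) := by
  have h1 : ∑ i ∈ B with rho a v i < sc k, corr i * v i l =
      ∑ j, c j * ∑ i ∈ B with rho a v i < sc k, y (Fin.castLE hh j) i * v i l := by
    simp_rw [mul_sum]
    rw [sum_comm]
    apply sum_congr rfl
    intro i _
    rw [hcorr i, sum_mul]
    apply sum_congr rfl
    intro j _
    ring
  have hr : sc k * a l < p.KH := by
    rw [← not_le, ← lt_cnt_iff hR.anti]
    omega
  have hsc := sc_pos k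
  have hal := hR.apos l
  have hr0 : 0 < sc k * a l := mul_pos hsc hal
  have hK0 := KS_nonneg hp k
  have h2 : ∀ j : Fin h, |∑ i ∈ B with rho a v i < sc k, y (Fin.castLE hh j) i * v i l| ≤ E2 d + p.E3 := by
    intro j
    have hne : Fin.castLE hh j ≠ l := by
      intro he
      have := congrArg Fin.val he
      simp at this
      have := j.2
      omega
    have h3 := light_A hR hB hinv (Fin.castLE hh j) l
    rw [if_neg hne, sub_zero] at h3
    refine h3.trans ?_
    have h4 : 4 * d * KS p k * p.KH ≤ p.E3 := hp.kap_sum' k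
    have hdd : (1 : ℝ) ≤ d := by exact_mod_cast hd
    have : 4 * d * KS p k * (sc k * a l) ≤ 4 * d * KS p k * p.KH :=
      mul_le_mul_of_nonneg_left hr.le (by positivity)
    linarith
  rw [h1]
  calc |∑ j, c j * ∑ i ∈ B with rho a v i < sc k, y (Fin.castLE hh j) i * v i l|
      ≤ ∑ j, |c j| * (E2 d + p.E3) := by
        refine (abs_sum_le_sum_abs _ _).trans ?_
        apply sum_le_sum
        intro j _
        rw [abs_mul]
        exact mul_le_mul_of_nonneg_left (h2 j) (abs_nonneg _)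
    _ = (∑ j, |c j|) * (E2 d + p.E3) := by rw [sum_mul]
    _ ≤ p.kap k * (E2 d + p.E3) := by
        apply mul_le_mul_of_nonneg_right hc
        have := hp.E3_ge
        have hD := D0_pos hd
        have hH := H1_pos hd
        unfold E2 E1
        linarith

theorem sq_eps_sum_eq {X : Finset ι} (hX : X.card ≤ 1) (hε : ∀ i ∈ X, ε i = 1 ∨ ε i = -1)
    (f : ι → ℝ) : (∑ i ∈ X, ε i * f i) ^ 2 = (∑ i ∈ X, f i) ^ 2 := by
  rcases Nat.lt_or_ge 0 X.card with h | h
  · have h1 : X.card = 1 := by omega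
    obtain ⟨i, hi⟩ := card_eq_one.1 h1
    subst hi
    rw [sum_singleton, sum_singleton]
    rcases hε i (mem_singleton_self i) with h | h <;> rw [h] <;> ring
  · have h1 : X = ∅ := card_eq_zero.1 (by omega)
    subst h1
    simp

/-- total light weight in a coordinate with small scale -/
theorem light_sqrt (hd : 1 ≤ d) (hR : Root d I v a y) (hp : p.Good)
    (hinv : Inv p v y k B Sl Sr) (l : Fin d) (hl : sc k * a l ≤ 1) :
    ∑ i ∈ B with rho a v i < sc k, |v i l| ≤ (2 * d + 10 * D0 d) * Real.sqrt (sc k * a l) := by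
  have hW := hinv.W l
  have hsc := sc_pos k
  have hr : 0 < sc k * a l := mul_pos hsc (hR.apos l)
  have hK0 := KS_nonneg hp k
  have hK1 := KS_le hd hp k
  have hD := D0_pos hd
  have hdd : (1 : ℝ) ≤ d := by exact_mod_cast hd
  change ∑ i ∈ B with rho a v i < sc k, |v i l| ≤ (1 + 4 * KS p k) * (d * (sc k * a l) + 5 * D0 d * min 1 (Real.sqrt (sc k * a l))) at hW
  refine hW.trans ?_
  set r := sc k * a l with hrdef
  have hsq : Real.sqrt r * Real.sqrt r = r := Real.mul_self_sqrt hr.le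
  have hs1 : Real.sqrt r ≤ 1 := Real.sqrt_le_one.2 hl
  have hs0 : 0 ≤ Real.sqrt r := Real.sqrt_nonneg r
  have hmin : min 1 (Real.sqrt r) ≤ Real.sqrt r := min_le_right _ _
  have hrs : r ≤ Real.sqrt r := by nlinarith
  have h5 : (d : ℝ) * r + 5 * D0 d * min 1 (Real.sqrt r) ≤ (d + 5 * D0 d) * Real.sqrt r := by
    have h6 : (d : ℝ) * r ≤ d * Real.sqrt r := mul_le_mul_of_nonneg_left hrs (by linarith)
    have h7 : 5 * D0 d * min 1 (Real.sqrt r) ≤ 5 * D0 d * Real.sqrt r :=
      mul_le_mul_of_nonneg_left hmin (by linarith)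
    linarith
  have h8 : 0 ≤ (d + 5 * D0 d) * Real.sqrt r := by positivity
  calc (1 + 4 * KS p k) * (d * r + 5 * D0 d * min 1 (Real.sqrt r))
      ≤ (1 + 4 * KS p k) * ((d + 5 * D0 d) * Real.sqrt r) :=
        mul_le_mul_of_nonneg_left h5 (by linarith)
    _ ≤ 2 * ((d + 5 * D0 d) * Real.sqrt r) := mul_le_mul_of_nonneg_right (by linarith) h8
    _ = (2 * d + 10 * D0 d) * Real.sqrt r := by ring

/-- heavy elements apart from at most one are small -/
theorem heavy_rest (hd : 1 ≤ d) (hR : Root d I v a y)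
    (hinv : Inv p v y k B Sl Sr) (l : Fin d) :
    ∑ i ∈ (B.filter (fun i => sc k ≤ rho a v i)) \ (B.filter (fun i => 2 ^ p.T * sc k ≤ rho a v i)),
      |v i l| ≤ (1 + H1 d) * Real.sqrt (2 ^ p.T) * Real.sqrt (sc k * a l) := by
  have hN := card_heavy_le hinv
  have hb : ∀ i ∈ (B.filter (fun i => sc k ≤ rho a v i)) \ (B.filter (fun i => 2 ^ p.T * sc k ≤ rho a v i)),
      |v i l| ≤ Real.sqrt (2 ^ p.T) * Real.sqrt (sc k * a l) := by
    intro i hi
    rw [mem_sdiff, mem_filter, mem_filter] at hi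
    have h1 : rho a v i < 2 ^ p.T * sc k := by
      by_contra hcon
      exact hi.2 ⟨hi.1.1, not_lt.1 hcon⟩
    have h2 := abs_le_sqrt_of_rho_lt hd hR.apos h1 l
    rwa [mul_assoc, Real.sqrt_mul (by positivity)] at h2
  have h3 := sum_le_card_nsmul _ _ _ hb
  refine h3.trans ?_
  rw [nsmul_eq_mul, mul_assoc]
  apply mul_le_mul_of_nonneg_right _ (by positivity)
  refine le_trans ?_ hN
  exact_mod_cast card_le_card sdiff_subset

theorem card_top_le (hd : 1 ≤ d) (hp : p.Good) (hinv : Inv p v y k B Sl Sr) :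
    (B.filter (fun i => 2 ^ p.T * sc k ≤ rho a v i)).card ≤ 1 := by
  have h1 := hinv.N p.T
  have h2 := hp.T_ge
  have h3 : H1 d / 2 ^ p.T < 1 := by
    rw [div_lt_one (by positivity)]; exact h2
  have h4 : ((B.filter (fun i => 2 ^ p.T * sc k ≤ rho a v i)).card : ℝ) < 2 := by linarith
  have : (B.filter (fun i => 2 ^ p.T * sc k ≤ rho a v i)).card < 2 := by exact_mod_cast h4
  omega

theorem top_sub : B.filter (fun i => 2 ^ p.T * sc k ≤ rho a v i) ⊆
    B.filter (fun i => sc k ≤ rho a v i) := by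
  intro i hi
  rw [mem_filter] at hi ⊢
  refine ⟨hi.1, le_trans ?_ hi.2⟩
  have h1 : (1 : ℝ) ≤ 2 ^ p.T := one_le_pow₀ (by norm_num)
  have h2 := sc_pos k
  nlinarith

/-- cost in one deep coordinate -/
theorem deep_cost (hd : 1 ≤ d) (hR : Root d I v a y) (hp : p.Good) (hB : B ⊆ I)
    (hinv : Inv p v y k B Sl Sr)
    (hε : ∀ i ∈ B.filter (fun i => sc k ≤ rho a v i), ε i = 1 ∨ ε i = -1)
    (l : Fin d) (hl : sc k * a l ≤ 1) :
    ((∑ i ∈ B with sc k ≤ rho a v i, ε i * v i l) ^ 2 - (∑ i ∈ B, v i l) ^ 2) / 4 ≤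
      p.c4 * Real.sqrt (sc k * a l) + p.c4 ^ 2 / 4 * (sc k * a l) := by
  set X := B.filter (fun i => 2 ^ p.T * sc k ≤ rho a v i) with hX
  set Hs := B.filter (fun i => sc k ≤ rho a v i) with hHs
  have hXs : X ⊆ Hs := top_sub
  have hX1 : X.card ≤ 1 := card_top_le hd hp hinv
  have hr : 0 < sc k * a l := mul_pos (sc_pos k) (hR.apos l)
  have hs := Real.sqrt_nonneg (sc k * a l)
  have hc4 := hp.c4_ge
  have hD := D0_pos hd
  have hdd : (1 : ℝ) ≤ d := by exact_mod_cast hd
  have hrest := heavy_rest hd hR hinv l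
  rw [← hX, ← hHs] at hrest
  have hlight := light_sqrt hd hR hp hinv l hl
  have e1 : ∑ i ∈ Hs, ε i * v i l = ∑ i ∈ X, ε i * v i l + ∑ i ∈ Hs \ X, ε i * v i l := by
    rw [add_comm, sum_sdiff hXs]
  have e2 : ∑ i ∈ B, v i l = ∑ i ∈ X, v i l + (∑ i ∈ Hs \ X, v i l + ∑ i ∈ B with rho a v i < sc k, v i l) := by
    rw [← add_assoc, add_comm (∑ i ∈ X, v i l), sum_sdiff hXs, hHs,
      ← sum_filter_add_sum_filter_not B (fun i => sc k ≤ rho a v i)]
    simp only [not_le]
  have hf : |∑ i ∈ Hs \ X, ε i * v i l| ≤ p.c4 * Real.sqrt (sc k * a l) := by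
    refine (abs_sum_le_sum_abs _ _).trans ?_
    have : ∑ i ∈ Hs \ X, |ε i * v i l| = ∑ i ∈ Hs \ X, |v i l| := by
      apply sum_congr rfl
      intro i hi
      rw [abs_mul]
      rcases hε i (mem_sdiff.1 hi).1 with h | h <;> rw [h] <;> simp
    rw [this]
    refine hrest.trans (mul_le_mul_of_nonneg_right ?_ hs)
    linarith
  have ht : |∑ i ∈ Hs \ X, v i l + ∑ i ∈ B with rho a v i < sc k, v i l| ≤ p.c4 * Real.sqrt (sc k * a l) := by
    refine (abs_add_le _ _).trans ?_
    have h1 := (abs_sum_le_sum_abs (fun i => v i l) (Hs \ X)).trans hrest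
    have h2 := (abs_sum_le_sum_abs (fun i => v i l) (B.filter (fun i => rho a v i < sc k))).trans hlight
    have h3 : ((1 + H1 d) * Real.sqrt (2 ^ p.T) + 2 * d + 10 * D0 d) * Real.sqrt (sc k * a l) ≤
      p.c4 * Real.sqrt (sc k * a l) := mul_le_mul_of_nonneg_right hc4 hs
    nlinarith
  have hz2 := sq_eps_sum_eq hX1 (fun i hi => hε i (hXs hi)) (fun i => v i l)
  have hz : |∑ i ∈ X, v i l| ≤ 1 := by
    rcases Nat.lt_or_ge 0 X.card with h | h
    · have h1 : X.card = 1 := by omega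
      obtain ⟨i, hi⟩ := card_eq_one.1 h1
      have hiX : i ∈ X := by rw [hi]; exact mem_singleton_self i
      rw [hi, sum_singleton]
      exact abs_le_one_of_norm (hR.norm_le i (hB (mem_filter.1 hiX).1)) l
    · have h1 : X = ∅ := card_eq_zero.1 (by omega)
      rw [h1]; simp
  have hzε : |∑ i ∈ X, ε i * v i l| ≤ 1 := by
    rw [← sq_le_one_iff_abs_le_one, hz2, sq_le_one_iff_abs_le_one]; exact hz
  rw [e1, e2]
  set z := ∑ i ∈ X, v i l
  set zε := ∑ i ∈ X, ε i * v i l
  set f := ∑ i ∈ Hs \ X, ε i * v i l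
  set t := ∑ i ∈ Hs \ X, v i l + ∑ i ∈ B with rho a v i < sc k, v i l
  set c := p.c4 * Real.sqrt (sc k * a l) with hc
  have hcc : c ^ 2 = p.c4 ^ 2 * (sc k * a l) := by
    rw [hc, mul_pow, Real.sq_sqrt hr.le]
  have i1 : zε * f ≤ c := by
    calc zε * f ≤ |zε * f| := le_abs_self _
      _ = |zε| * |f| := abs_mul _ _
      _ ≤ 1 * c := mul_le_mul hzε hf (abs_nonneg _) (by norm_num)
      _ = c := one_mul _
  have i2 : -(z * t) ≤ c := by
    calc -(z * t) ≤ |z * t| := neg_le_abs _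
      _ = |z| * |t| := abs_mul _ _
      _ ≤ 1 * c := mul_le_mul hz ht (abs_nonneg _) (by norm_num)
      _ = c := one_mul _
  have i3 : f ^ 2 ≤ c ^ 2 := by
    rw [← sq_abs f]
    exact pow_le_pow_left₀ (abs_nonneg _) hf 2
  have i4 : 0 ≤ t ^ 2 := sq_nonneg _
  have : p.c4 ^ 2 / 4 * (sc k * a l) = c ^ 2 / 4 := by rw [hcc]; ring
  rw [this]
  nlinarith

end

end Vale.Agent.Steinitz
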