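import Vale.Agent.Lib.Steinitz.Defs

/-! Interface lemmas of the P262 project (blueprint).  Every `sorry` here is a separate module. -/

namespace Vale.Agent.Steinitz

open Finset

/-- MODULE ROUNDING. -/
theorem rounding {ι κ : Type*} [DecidableEq ι] [Fintype κ] (L : Finset ι) {d : ℕ} (g : ℕ)
    (hg : g ≤ d) (x : ι → ℝ) (hx : ∀ i ∈ L, 0 ≤ x i ∧ x i ≤ 1)
    (P : ι → κ → ℝ) (v : ι → Fin d → ℝ) (hv : ∀ i ∈ L, ∑ j, v i j ^ 2 ≤ 1) (u : ι → ℝ) :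
    ∃ (ξ : ι → ℝ) (F : Finset ι), F ⊆ L ∧ F.card ≤ Fintype.card κ + d ∧
      (∀ i ∈ L, ξ i = 0 ∨ ξ i = 1) ∧
      (∀ p, |∑ i ∈ L, (ξ i - x i) * P i p| ≤ ∑ i ∈ F, |P i p|) ∧
      (∀ j, |∑ i ∈ L, (ξ i - x i) * v i j| ≤ ∑ i ∈ F, |v i j|) ∧
      (∀ m : ℕ, m ≤ g → ∑ j : Fin d with m ≤ j.val ∧ j.val < g,
        (∑ i ∈ L, (ξ i - x i) * v i j) ^ 2 ≤ 700 * ((g : ℝ) - m)) ∧
      ∑ i ∈ L, (ξ i - x i) * u i ≤ 0 := by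
  sorry

/-- MODULE HEAVY (uses `rounding`). -/
theorem heavy_signs {ι : Type*} [DecidableEq ι] (Hv : Finset ι) (ρ : ι → ℝ) {d : ℕ} (h g : ℕ)
    (hh : h ≤ g) (hg : g ≤ d)
    (v : ι → Fin d → ℝ) (hv : ∀ i ∈ Hv, ∑ j, v i j ^ 2 ≤ 1) (u : ι → ℝ) :
    ∃ ε : ι → ℝ, (∀ i ∈ Hv, ε i = 1 ∨ ε i = -1) ∧
      (∀ r : ℝ, |∑ i ∈ Hv with r ≤ ρ i, ε i| ≤ 1) ∧
      ∑ j : Fin d with h ≤ j.val ∧ j.val < g, (∑ i ∈ Hv, ε i * v i j) ^ 2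
        ≤ 100000 * ((g : ℝ) - h) ∧
      ∑ i ∈ Hv, ε i * u i ≤ 0 := by
  sorry

/-- MODULE SOLVE. -/
theorem solve_dd {h : ℕ} (A : Fin h → Fin h → ℝ) (r : Fin h → ℝ) (hr : ∀ l, 0 < r l)
    (d : ℕ) (hd : h ≤ d) (hA : ∀ l j, |A l j - (if l = j then r l else 0)| ≤ r l / (4 * d))
    (b : Fin h → ℝ) :
    ∃ c : Fin h → ℝ, (∀ l, ∑ j, c j * A l j = b l) ∧ ∀ j, |c j| ≤ 2 * ∑ l, |b l| / r l := by
  sorry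

/-- MODULE ROOT. -/
theorem root_data {d : ℕ} {N : ℕ} (v : Fin N → EuclideanSpace ℝ (Fin d))
    (hspan : Submodule.span ℝ (Set.range v) = ⊤) :
    ∃ (b : OrthonormalBasis (Fin d) ℝ (EuclideanSpace ℝ (Fin d))) (a : Fin d → ℝ)
      (y : Fin d → Fin N → ℝ),
      Antitone a ∧ (∀ j, 0 < a j) ∧ (∀ j i, |y j i| ≤ 1) ∧
      (∀ j, ∑ i, y j i • v i = a j • b j) ∧ (∀ j, ∑ i, |inner ℝ (v i) (b j)| ≤ d * a j) := by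
  sorry

/-- MODULE STEP. -/
theorem step {ι : Type*} [DecidableEq ι] {d : ℕ} (hd : 1 ≤ d) {I : Finset ι}
    {v : ι → Fin d → ℝ} {a : Fin d → ℝ} {y : Fin d → ι → ℝ} (hR : Root d I v a y)
    (p : Par d a) (hp : p.Good) (k : ℕ) (B : Finset ι) (hB : B ⊆ I) (Sl Sr : Fin d → ℝ)
    (hinv : Inv p v y k B Sl Sr) :
    ∃ B₁ ⊆ B, ∃ Sm : Fin d → ℝ, Inv p v y (k + 1) B₁ Sl Sm ∧ Inv p v y (k + 1) (B \ B₁) Sm Sr := by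
  sorry

/-- MODULE TREE (uses `step`). -/
theorem tree_order {ι : Type*} [DecidableEq ι] {d : ℕ} (hd : 1 ≤ d) {I : Finset ι}
    {v : ι → Fin d → ℝ} {a : Fin d → ℝ} {y : Fin d → ι → ℝ} (hR : Root d I v a y)
    (hsum : ∀ j, ∑ i ∈ I, v i j = 0) (p : Par d a) (hp : p.Good) (Mf : ℝ)
    (hM : ∀ k, p.M k + 700 * d ≤ Mf) :
    ∃ L : List ι, L.Nodup ∧ L.toFinset = I ∧
      ∀ n : ℕ, ∑ j, (((L.take n).map (fun i => v i j)).sum) ^ 2 ≤ (Real.sqrt Mf + 2) ^ 2 := by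
  sorry

/-- MODULE PARAMS. -/
theorem exists_par : ∃ C : ℝ, 0 < C ∧ ∀ (d : ℕ) (_ : 1 ≤ d) (a : Fin d → ℝ) (_ : ∀ j, 0 < a j)
    (_ : Antitone a), ∃ p : Par d a, p.Good ∧ ∀ k, p.M k + 700 * d ≤ C * (d * Real.log (d + 1)) := by
  sorry

/-- MODULE FINAL (uses `root_data`, `tree_order`, `exists_par`). -/
theorem steinitz_log : ∃ C : ℝ, ∀ d : ℕ, 1 ≤ d → ∀ (N : ℕ) (v : Fin N → EuclideanSpace ℝ (Fin d)),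
    (∀ i, ‖v i‖ ≤ 1) → ∑ i, v i = 0 →
    ∃ π : Equiv.Perm (Fin N), ∀ k : ℕ, k ≤ N →
      ‖∑ i : Fin N with i.val < k, v (π i)‖ ≤ C * Real.sqrt (d * Real.log (d + 1)) := by
  sorry

end Vale.Agent.Steinitz
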